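import Mathlib.Algebra.Order.Archimedean.Real.Hom
import Mathlib.Algebra.Order.Chebyshev
import Mathlib.Algebra.Order.Star.Real
import Mathlib.Analysis.InnerProductSpace.Spectrum
import Mathlib.Analysis.SpecialFunctions.Log.Basic
import Mathlib.Tactic

/-!
Averages over the classes of equivalence relations on a finite set, and the spectral gap of sums
of such projections (adapted from the files of problem P335).
-/

set_option linter.all false

namespace Vale.Agent.P328

open Finset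

section Avg

variable {Ω : Type*} [Fintype Ω]

open Classical in
/-- The class of `x` for the setoid `r`. -/
noncomputable def cls (r : Setoid Ω) (x : Ω) : Finset Ω := univ.filter (fun y => r x y)

open Classical in
/-- The average of `f` over the class of `x`. -/
noncomputable def cavg (r : Setoid Ω) (f : Ω → ℝ) (x : Ω) : ℝ :=
  (∑ y ∈ cls r x, f y) / ((cls r x).card : ℝ)

/-- The inner product for the counting measure. -/
def ip (f g : Ω → ℝ) : ℝ := ∑ x, f x * g x

@[simp] lemma mem_cls {r : Setoid Ω} {x y : Ω} : y ∈ cls r x ↔ r x y := by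
  classical
  simp only [cls, mem_filter, mem_univ, true_and]

lemma self_mem_cls (r : Setoid Ω) (x : Ω) : x ∈ cls r x := by
  simp

lemma cls_card_pos (r : Setoid Ω) (x : Ω) : 0 < (cls r x).card :=
  Finset.card_pos.mpr ⟨x, self_mem_cls r x⟩

lemma cls_card_ne (r : Setoid Ω) (x : Ω) : ((cls r x).card : ℝ) ≠ 0 := by
  have := cls_card_pos r x
  (clear * - this; positivity)

lemma cls_eq {r : Setoid Ω} {x y : Ω} (h : r x y) : cls r x = cls r y := by
  ext z
  simp only [mem_cls]
  exact ⟨fun hz => r.trans (r.symm h) hz, fun hz => r.trans h hz⟩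

lemma cavg_congr {r : Setoid Ω} {x y : Ω} (h : r x y) (f : Ω → ℝ) :
    cavg r f x = cavg r f y := by
  unfold cavg; rw [cls_eq h]

lemma cavg_of_const {r : Setoid Ω} {f : Ω → ℝ} {x : Ω} (h : ∀ y, r x y → f y = f x) :
    cavg r f x = f x := by
  unfold cavg
  rw [Finset.sum_congr rfl (fun y hy => h y (mem_cls.mp hy)), Finset.sum_const, nsmul_eq_mul,
    mul_comm, mul_div_assoc, div_self (cls_card_ne r x), mul_one]

lemma cavg_of_const' {r : Setoid Ω} {f : Ω → ℝ} (h : ∀ x y, r x y → f y = f x) :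
    cavg r f = f := by
  funext x; exact cavg_of_const (h x)

lemma cavg_idem (r : Setoid Ω) (f : Ω → ℝ) : cavg r (cavg r f) = cavg r f :=
  cavg_of_const' (fun _ _ h => (cavg_congr h f).symm)

lemma cavg_add (r : Setoid Ω) (f g : Ω → ℝ) : cavg r (f + g) = cavg r f + cavg r g := by
  funext x
  simp only [cavg, Pi.add_apply, Finset.sum_add_distrib, add_div]

lemma cavg_smul (r : Setoid Ω) (c : ℝ) (f : Ω → ℝ) : cavg r (c • f) = c • cavg r f := by
  funext x
  simp only [cavg, Pi.smul_apply, smul_eq_mul, ← Finset.mul_sum, mul_div_assoc]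

lemma cavg_sub (r : Setoid Ω) (f g : Ω → ℝ) : cavg r (f - g) = cavg r f - cavg r g := by
  funext x
  simp only [cavg, Pi.sub_apply, Finset.sum_sub_distrib, sub_div]

/-- `cavg` as a linear map. -/
noncomputable def cavgL (r : Setoid Ω) : (Ω → ℝ) →ₗ[ℝ] (Ω → ℝ) where
  toFun := cavg r
  map_add' := cavg_add r
  map_smul' c f := cavg_smul r c f

@[simp] lemma cavgL_apply (r : Setoid Ω) (f : Ω → ℝ) : cavgL r f = cavg r f := rfl

lemma cavg_const (r : Setoid Ω) (c : ℝ) : cavg r (fun _ => c) = fun _ => c :=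
  cavg_of_const' (fun _ _ _ => rfl)

open Classical in
lemma ip_cavg (r : Setoid Ω) (f g : Ω → ℝ) : ip (cavg r f) g = ip f (cavg r g) := by
  unfold ip cavg
  have h1 : ∀ x, (∑ y ∈ cls r x, f y) / ((cls r x).card : ℝ) * g x
      = ∑ y, if r x y then f y * g x / ((cls r x).card : ℝ) else 0 := by
    intro x
    rw [← Finset.sum_filter]
    rw [div_mul_eq_mul_div, Finset.sum_mul, Finset.sum_div]
    rfl
  have h2 : ∀ x, f x * ((∑ y ∈ cls r x, g y) / ((cls r x).card : ℝ))
      = ∑ y, if r x y then f x * g y / ((cls r x).card : ℝ) else 0 := by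
    intro x
    rw [← Finset.sum_filter, ← mul_div_assoc, Finset.mul_sum, Finset.sum_div]
    rfl
  rw [Finset.sum_congr rfl (fun x _ => h1 x), Finset.sum_congr rfl (fun x _ => h2 x),
    Finset.sum_comm]
  refine Finset.sum_congr rfl (fun y _ => Finset.sum_congr rfl (fun x _ => ?_))
  by_cases h : r x y
  · rw [if_pos h, if_pos (r.symm h), cls_eq h]
  · rw [if_neg h, if_neg (fun h' => h (r.symm h'))]

lemma ip_comm (f g : Ω → ℝ) : ip f g = ip g f := by
  unfold ip; exact Finset.sum_congr rfl (fun x _ => mul_comm _ _)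

lemma ip_add_left (f g h : Ω → ℝ) : ip (f + g) h = ip f h + ip g h := by
  simp only [ip, Pi.add_apply, add_mul, Finset.sum_add_distrib]

lemma ip_add_right (f g h : Ω → ℝ) : ip f (g + h) = ip f g + ip f h := by
  simp only [ip, Pi.add_apply, mul_add, Finset.sum_add_distrib]

lemma ip_sub_left (f g h : Ω → ℝ) : ip (f - g) h = ip f h - ip g h := by
  simp only [ip, Pi.sub_apply, sub_mul, Finset.sum_sub_distrib]

lemma ip_sub_right (f g h : Ω → ℝ) : ip f (g - h) = ip f g - ip f h := by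
  simp only [ip, Pi.sub_apply, mul_sub, Finset.sum_sub_distrib]

lemma ip_smul_left (c : ℝ) (f g : Ω → ℝ) : ip (c • f) g = c * ip f g := by
  simp only [ip, Pi.smul_apply, smul_eq_mul, mul_assoc, ← Finset.mul_sum]

lemma ip_smul_right (c : ℝ) (f g : Ω → ℝ) : ip f (c • g) = c * ip f g := by
  rw [ip_comm, ip_smul_left, ip_comm]

lemma ip_self_nonneg (f : Ω → ℝ) : 0 ≤ ip f f :=
  Finset.sum_nonneg (fun x _ => mul_self_nonneg _)

lemma ip_self_eq_sum_sq (f : Ω → ℝ) : ip f f = ∑ x, f x ^ 2 := by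
  unfold ip; exact Finset.sum_congr rfl (fun x _ => (sq _).symm)

/-- Nested classes, inner first. -/
lemma cavg_cavg_of_le {r s : Setoid Ω} (h : ∀ x y, r x y → s x y) (f : Ω → ℝ) :
    cavg r (cavg s f) = cavg s f :=
  cavg_of_const' (fun x y hxy => (cavg_congr (h x y hxy) f).symm)

/-- Testing against all functions. -/
lemma ext_ip {f g : Ω → ℝ} (h : ∀ k, ip f k = ip g k) : f = g := by
  have h1 : ip (f - g) (f - g) = 0 := by
    rw [ip_sub_left, h, sub_self]
  rw [ip_self_eq_sum_sq] at h1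
  funext x
  have := (Finset.sum_eq_zero_iff_of_nonneg (fun x _ => sq_nonneg _)).mp h1 x (mem_univ x)
  have h2 : (f - g) x = 0 := by simpa only [Pi.sub_apply, ne_eq, OfNat.ofNat_ne_zero, not_false_eq_true, pow_eq_zero_iff] using this
  simpa [sub_eq_zero] using h2

lemma cavg_cavg_of_ge {r s : Setoid Ω} (h : ∀ x y, r x y → s x y) (f : Ω → ℝ) :
    cavg s (cavg r f) = cavg s f := by
  apply ext_ip
  intro k
  rw [ip_cavg, ip_cavg, cavg_cavg_of_le h, ← ip_cavg]

/-- The complementary projection. -/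
noncomputable def cdev (r : Setoid Ω) (f : Ω → ℝ) : Ω → ℝ := f - cavg r f

lemma cdev_apply (r : Setoid Ω) (f : Ω → ℝ) (x : Ω) : cdev r f x = f x - cavg r f x := rfl

lemma ip_cdev (r : Setoid Ω) (f g : Ω → ℝ) : ip (cdev r f) g = ip f (cdev r g) := by
  unfold cdev; rw [ip_sub_left, ip_sub_right, ip_cavg]

lemma cavg_cdev (r : Setoid Ω) (f : Ω → ℝ) : cavg r (cdev r f) = 0 := by
  unfold cdev; rw [cavg_sub, cavg_idem, sub_self]

lemma cdev_cdev (r : Setoid Ω) (f : Ω → ℝ) : cdev r (cdev r f) = cdev r f := by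
  conv_lhs => unfold cdev
  rw [show f - cavg r f = cdev r f from rfl, cavg_cdev, sub_zero]

lemma ip_cdev_self (r : Setoid Ω) (f : Ω → ℝ) : ip f (cdev r f) = ip (cdev r f) (cdev r f) := by
  rw [ip_cdev, cdev_cdev]

lemma cdev_add (r : Setoid Ω) (f g : Ω → ℝ) : cdev r (f + g) = cdev r f + cdev r g := by
  unfold cdev; rw [cavg_add]; ring

lemma cdev_sub (r : Setoid Ω) (f g : Ω → ℝ) : cdev r (f - g) = cdev r f - cdev r g := by
  unfold cdev; rw [cavg_sub]; ring

lemma cdev_smul (r : Setoid Ω) (c : ℝ) (f : Ω → ℝ) : cdev r (c • f) = c • cdev r f := by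
  unfold cdev; rw [cavg_smul, smul_sub]

/-- `cdev` as a linear map. -/
noncomputable def cdevL (r : Setoid Ω) : (Ω → ℝ) →ₗ[ℝ] (Ω → ℝ) where
  toFun := cdev r
  map_add' := cdev_add r
  map_smul' c f := cdev_smul r c f

@[simp] lemma cdevL_apply (r : Setoid Ω) (f : Ω → ℝ) : cdevL r f = cdev r f := rfl

/-- Two commuting averages: positive correlation of the deviations. -/
lemma ip_cdev_cdev_nonneg_of_comm {r s : Setoid Ω} {f : Ω → ℝ}
    (h : cavg r (cavg s f) = cavg s (cavg r f)) : 0 ≤ ip (cdev r f) (cdev s f) := by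
  have hc : cdev r (cdev s f) = cdev s (cdev r f) := by
    unfold cdev; rw [cavg_sub, cavg_sub, h]; ring
  have : ip (cdev s (cdev r f)) (cdev s (cdev r f)) = ip (cdev r f) (cdev s f) := by
    rw [ip_cdev, cdev_cdev, ← hc, ← ip_cdev, cdev_cdev]
  rw [← this]
  exact ip_self_nonneg _

/-- Rectangle property at a point. -/
def Rect (r s : Setoid Ω) (x : Ω) : Prop :=
  ∀ y z, r x y → s x z → ∃! w, s y w ∧ r z w

lemma Rect.swap {r s : Setoid Ω} {x : Ω} (h : Rect r s x) : Rect s r x := by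
  intro y z hy hz
  obtain ⟨w, hw, hu⟩ := h z y hz hy
  exact ⟨w, ⟨hw.2, hw.1⟩, fun w' hw' => hu w' ⟨hw'.2, hw'.1⟩⟩

/-- The rectangle property at `x` and at `y` (in the same `r` class) gives equal sizes of the
`s` classes, and the double sum formula. -/
lemma Rect.exists_equiv {r s : Setoid Ω} {x y : Ω} (hx : Rect r s x) (hy : Rect r s y)
    (hxy : r x y) : ∃ e : {z // s x z} ≃ {w // s y w}, ∀ z, r z.1 (e z).1 := by
  classical
  have h1 : ∀ z : {z // s x z}, ∃ w : {w // s y w}, r z.1 w.1 := by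
    intro z
    obtain ⟨w, hw, -⟩ := hx y z.1 hxy z.2
    exact ⟨⟨w, hw.1⟩, hw.2⟩
  have h2 : ∀ w : {w // s y w}, ∃ z : {z // s x z}, r w.1 z.1 := by
    intro w
    obtain ⟨z, hz, -⟩ := hy x w.1 (r.symm hxy) w.2
    exact ⟨⟨z, hz.1⟩, hz.2⟩
  choose F hF using h1
  choose G hG using h2
  refine ⟨⟨F, G, ?_, ?_⟩, hF⟩
  · intro z
    obtain ⟨v, -, hv⟩ := hy x (F z).1 (r.symm hxy) (F z).2
    have e1 := hv (G (F z)).1 ⟨(G (F z)).2, hG _⟩
    have e2 := hv z.1 ⟨z.2, r.symm (hF z)⟩
    exact Subtype.ext (e1.trans e2.symm)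
  · intro w
    obtain ⟨v, -, hv⟩ := hx y (G w).1 hxy (G w).2
    have e1 := hv (F (G w)).1 ⟨(F (G w)).2, hF _⟩
    have e2 := hv w.1 ⟨w.2, r.symm (hG w)⟩
    exact Subtype.ext (e1.trans e2.symm)

lemma Rect.card_eq {r s : Setoid Ω} {x y : Ω} (hx : Rect r s x) (hy : Rect r s y)
    (hxy : r x y) : (cls s x).card = (cls s y).card := by
  classical
  obtain ⟨e, -⟩ := hx.exists_equiv hy hxy
  have := Fintype.card_congr e
  simpa only [cls, Fintype.card_subtype] using this

/-- Commutation of the two averages at a point whose whole neighbourhood has the rectangle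
property. -/
lemma cavg_comm_at {r s : Setoid Ω} {A : Ω → Prop} (hA : ∀ x, A x → Rect r s x)
    (hr : ∀ x y, r x y → A x → A y) (hs : ∀ x y, s x y → A x → A y) (f : Ω → ℝ) {x : Ω}
    (hx : A x) : cavg r (cavg s f) x = cavg s (cavg r f) x := by
  classical
  -- both sides equal the normalised sum over the rectangle
  have key : ∀ {r s : Setoid Ω}, (∀ x, A x → Rect r s x) → (∀ x y, r x y → A x → A y) →
      (∀ x y, s x y → A x → A y) →
      cavg r (cavg s f) x = (∑ y ∈ cls r x, ∑ w ∈ cls s y, f w) /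
        (((cls r x).card : ℝ) * ((cls s x).card : ℝ)) := by
    intro r s hA hr hs
    unfold cavg
    rw [← div_div, div_right_comm]
    congr 1
    rw [Finset.sum_div]
    refine Finset.sum_congr rfl (fun y hy => ?_)
    rw [(hA x hx).card_eq (hA y (hr x y (mem_cls.mp hy) hx)) (mem_cls.mp hy)]
  rw [key hA hr hs, key (fun x hx => (hA x hx).swap) hs hr, mul_comm ((cls r x).card : ℝ)]
  congr 1
  -- reindex
  rw [Finset.sum_sigma', Finset.sum_sigma']
  have hex : ∀ p : (_ : Ω) × Ω, p ∈ (cls r x).sigma (fun y => cls s y) →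
      ∃ z, s x z ∧ r z p.2 := by
    rintro ⟨y, w⟩ hp
    simp only [Finset.mem_sigma, mem_cls] at hp
    obtain ⟨z, hz, -⟩ := hA y (hr x y hp.1 hx) x w (r.symm hp.1) hp.2
    exact ⟨z, hz.1, r.symm hz.2⟩
  have hex' : ∀ p : (_ : Ω) × Ω, p ∈ (cls s x).sigma (fun y => cls r y) →
      ∃ z, r x z ∧ s z p.2 := by
    rintro ⟨z, w⟩ hp
    simp only [Finset.mem_sigma, mem_cls] at hp
    obtain ⟨y, hy, -⟩ := hA z (hs x z hp.1 hx) w x hp.2 (s.symm hp.1)
    exact ⟨y, hy.2, s.symm hy.1⟩
  have uniq : ∀ w z z', s x z → r z w → s x z' → r z' w → z = z' := by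
    intro w z z' h1 h2 h3 h4
    -- rectangle at z : r z w, s z x and z', both complete
    have hz : A z := hs x z h1 hx
    have hw : A w := hr z w h2 hz
    -- y completing: r x y, s y w
    obtain ⟨y, hy, -⟩ := hA z hz w x h2 (s.symm h1)
    -- at y : r y x, s y w
    have hyA : A y := hr x y hy.2 hx
    obtain ⟨v, -, hv⟩ := hA y hyA x w (r.symm hy.2) (s.symm hy.1)
    exact (hv z ⟨h1, r.symm h2⟩).trans (hv z' ⟨h3, r.symm h4⟩).symm
  have uniq' : ∀ w z z', r x z → s z w → r x z' → s z' w → z = z' := by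
    intro w z z' h1 h2 h3 h4
    have hz : A z := hr x z h1 hx
    obtain ⟨y, hy, -⟩ := hA z hz x w (r.symm h1) h2
    -- s x y, r w y
    have hyA : A y := hs x y hy.1 hx
    obtain ⟨v, -, hv⟩ := hA y hyA w x (r.symm hy.2) (s.symm hy.1)
    exact (hv z ⟨s.symm h2, h1⟩).trans (hv z' ⟨s.symm h4, h3⟩).symm
  refine Finset.sum_bij' (fun p hp => (⟨Classical.choose (hex p hp), p.2⟩ : (_ : Ω) × Ω))
    (fun p hp => (⟨Classical.choose (hex' p hp), p.2⟩ : (_ : Ω) × Ω)) ?_ ?_ ?_ ?_ ?_
  · intro p hp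
    have := Classical.choose_spec (hex p hp)
    simp only [Finset.mem_sigma, mem_cls]
    exact this
  · intro p hp
    have := Classical.choose_spec (hex' p hp)
    simp only [Finset.mem_sigma, mem_cls]
    exact this
  · rintro ⟨y, w⟩ hp
    have h0 := hp
    simp only [Finset.mem_sigma, mem_cls] at h0
    generalize_proofs h1 h2
    have hs1 := Classical.choose_spec h2
    have := uniq' w (Classical.choose h2) y hs1.1 hs1.2 h0.1 h0.2
    simp only [Sigma.mk.injEq]
    exact ⟨this, HEq.rfl⟩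
  · rintro ⟨y, w⟩ hp
    have h0 := hp
    simp only [Finset.mem_sigma, mem_cls] at h0
    generalize_proofs h1 h2
    have hs1 := Classical.choose_spec h2
    have := uniq w (Classical.choose h2) y hs1.1 hs1.2 h0.1 h0.2
    simp only [Sigma.mk.injEq]
    exact ⟨this, HEq.rfl⟩
  · intro p hp
    rfl

lemma cavg_comm {r s : Setoid Ω} (h : ∀ x, Rect r s x) (f : Ω → ℝ) :
    cavg r (cavg s f) = cavg s (cavg r f) := by
  funext x
  exact cavg_comm_at (A := fun _ => True) (fun x _ => h x) (fun _ _ _ _ => trivial)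
    (fun _ _ _ _ => trivial) f trivial

lemma cavg_comp_perm {r : Setoid Ω} (τ : Equiv.Perm Ω) (h : ∀ x y, r (τ x) (τ y) ↔ r x y)
    (f : Ω → ℝ) : cavg r (f ∘ τ) = cavg r f ∘ τ := by
  classical
  funext x
  have hmap : cls r (τ x) = (cls r x).map τ.toEmbedding := by
    ext y
    simp only [mem_cls, Finset.mem_map, Equiv.coe_toEmbedding]
    constructor
    · intro hy
      refine ⟨τ.symm y, ?_, τ.apply_symm_apply y⟩
      rw [← h, τ.apply_symm_apply]; exact hy
    · rintro ⟨z, hz, rfl⟩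
      exact (h x z).mpr hz
  simp only [cavg, Function.comp_apply]
  rw [hmap, Finset.sum_map, Finset.card_map]
  rfl

lemma ip_comp_perm (τ : Equiv.Perm Ω) (f g : Ω → ℝ) : ip (f ∘ τ) (g ∘ τ) = ip f g := by
  unfold ip
  exact Equiv.sum_comp τ (fun x => f x * g x)

lemma cdev_comp_perm {r : Setoid Ω} (τ : Equiv.Perm Ω) (h : ∀ x y, r (τ x) (τ y) ↔ r x y)
    (f : Ω → ℝ) : cdev r (f ∘ τ) = cdev r f ∘ τ := by
  unfold cdev; rw [cavg_comp_perm τ h]; rfl

/-- Pythagoras. -/
lemma ip_self_eq (r : Setoid Ω) (f : Ω → ℝ) :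
    ip f f = ip (cavg r f) (cavg r f) + ip (cdev r f) (cdev r f) := by
  have h1 : ip (cavg r f) (cavg r f) = ip f (cavg r f) := by
    rw [ip_cavg, cavg_idem]
  rw [h1, ← ip_cdev_self, ← ip_add_right]
  unfold cdev
  congr 1
  ring

lemma ip_cavg_self_le (r : Setoid Ω) (f : Ω → ℝ) : ip (cavg r f) (cavg r f) ≤ ip f f := by
  rw [ip_self_eq r f]
  have := ip_self_nonneg (cdev r f)
  linarith

lemma ip_cdev_self_le (r : Setoid Ω) (f : Ω → ℝ) : ip (cdev r f) (cdev r f) ≤ ip f f := by
  rw [ip_self_eq r f]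
  have := ip_self_nonneg (cavg r f)
  linarith

end Avg

section transfer

variable {Ω : Type*} [Fintype Ω]

lemma cavg_subtype {r s : Setoid Ω} (h : ∀ x y, r x y → s x y) (f : Ω → ℝ) (x0 : Ω)
    [Fintype {x // s x0 x}] (r' : Setoid {x // s x0 x})
    (hr' : ∀ x y : {x // s x0 x}, r' x y ↔ r x.1 y.1) (x : {x // s x0 x}) :
    cavg r' (fun z => f z.1) x = cavg r f x.1 := by
  classical
  have hmap : cls r x.1 = (cls r' x).map (Function.Embedding.subtype _) := by
    ext y
    simp only [mem_cls, Finset.mem_map, Function.Embedding.coe_subtype]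
    constructor
    · intro hy
      exact ⟨⟨y, s.trans x.2 (h _ _ hy)⟩, (hr' _ _).2 hy, rfl⟩
    · rintro ⟨z, hz, rfl⟩
      exact (hr' _ _).1 hz
  unfold cavg
  rw [hmap, Finset.sum_map, Finset.card_map]
  rfl

lemma sum_nonneg_of_classes (s : Setoid Ω) (g : Ω → ℝ)
    (h : ∀ x0, 0 ≤ ∑ x ∈ cls s x0, g x) : 0 ≤ ∑ x, g x := by
  have h1 : ∑ x, g x = ∑ x, cavg s g x := by
    have h2 := ip_cavg s g (fun _ => 1)
    rw [cavg_const] at h2
    unfold ip at h2
    simpa only [mul_one] using h2.symm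
  rw [h1]
  refine Finset.sum_nonneg fun x _ => ?_
  unfold cavg
  exact div_nonneg (h x) (Nat.cast_nonneg _)

end transfer

theorem spectral_gap {Ω : Type*} [Fintype Ω] (T : (Ω → ℝ) →ₗ[ℝ] (Ω → ℝ))
    (hsym : ∀ f g : Ω → ℝ, ∑ x, T f x * g x = ∑ x, f x * T g x)
    (hpos : ∀ f : Ω → ℝ, 0 ≤ ∑ x, f x * T f x)
    (hgap : ∀ f : Ω → ℝ, 2 * ∑ x, f x * T f x ≤ ∑ x, T f x ^ 2)
    (hker : ∀ f : Ω → ℝ, T f = 0 → ∀ x y, f x = f y) (f : Ω → ℝ) :
    2 * ∑ x, (f x - (∑ y, f y) / (Fintype.card Ω : ℝ)) ^ 2 ≤ ∑ x, f x * T f x := by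
  classical
  set e : EuclideanSpace ℝ Ω ≃ₗ[ℝ] (Ω → ℝ) := WithLp.linearEquiv 2 ℝ (Ω → ℝ) with he
  set T' : EuclideanSpace ℝ Ω →ₗ[ℝ] EuclideanSpace ℝ Ω :=
    e.symm.toLinearMap ∘ₗ T ∘ₗ e.toLinearMap with hT'
  have hinner : ∀ u v : EuclideanSpace ℝ Ω, inner ℝ u v = ∑ x, e u x * e v x := by
    intro u v
    rw [PiLp.inner_apply]
    refine Finset.sum_congr rfl fun x _ => ?_
    simp [he, mul_comm]
  have heT : ∀ u, e (T' u) = T (e u) := by
    intro u
    simp [hT']
  have hS : T'.IsSymmetric := by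
    intro u v
    rw [hinner, hinner, heT, heT]
    exact hsym _ _
  set N := Module.finrank ℝ (EuclideanSpace ℝ Ω) with hNdef
  set b := hS.eigenvectorBasis (n := N) rfl with hb
  set l := hS.eigenvalues (n := N) rfl with hl
  have hbe : ∀ i, T' (b i) = l i • b i := by
    intro i
    exact hS.apply_eigenvectorBasis (n := N) rfl i
  have hbb : ∀ i, inner ℝ (b i) (b i) = (1 : ℝ) := by
    intro i
    have := b.orthonormal.1 i
    rw [real_inner_self_eq_norm_sq, this]; norm_num
  -- eigenvalues are `0` or at least `2`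
  have hl2 : ∀ i, l i = 0 ∨ 2 ≤ l i := by
    intro i
    have h1 := hgap (e (b i))
    have h0 := hpos (e (b i))
    have e1 : ∑ x, e (b i) x * T (e (b i)) x = l i := by
      rw [← heT, ← hinner, hbe, inner_smul_right, hbb]; simp
    have e2 : ∑ x, T (e (b i)) x ^ 2 = l i ^ 2 := by
      have : ∑ x, T (e (b i)) x ^ 2 = ∑ x, e (T' (b i)) x * e (T' (b i)) x := by
        refine Finset.sum_congr rfl fun x _ => ?_
        rw [heT]; ring
      rw [this, ← hinner, hbe, inner_smul_right, inner_smul_left, hbb]; simp; ring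
    rw [e1] at h1 h0
    rw [e2] at h1
    rcases h0.eq_or_lt with h | h
    · left; exact h.symm
    · right; nlinarith only [h1, h]
  set u : EuclideanSpace ℝ Ω := e.symm f with hu
  have heu : e u = f := by simp [hu]
  set c : Fin N → ℝ := fun i => inner ℝ (b i) u with hc
  set g : EuclideanSpace ℝ Ω := ∑ i, (if l i = 0 then c i else 0) • b i with hg
  have hTg : T (e g) = 0 := by
    rw [← heT]
    have : T' g = 0 := by
      rw [hg, map_sum]
      refine Finset.sum_eq_zero fun i _ => ?_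
      rw [map_smul, hbe]
      split_ifs with h
      · rw [h]; simp
      · simp only [zero_smul]
    rw [this, map_zero]
  have hconst := hker _ hTg
  have hbg : ∀ j, inner ℝ (b j) g = (if l j = 0 then c j else 0) := by
    intro j
    rw [hg, inner_sum]
    simp_rw [inner_smul_right]
    rw [Finset.sum_eq_single j]
    · rw [hbb, mul_one]
    · intro i _ hij
      rw [b.orthonormal.2 (Ne.symm hij), mul_zero]
    · intro h; exact absurd (Finset.mem_univ j) h
  have hparseval : ∀ v : EuclideanSpace ℝ Ω, ∑ i, inner ℝ (b i) v ^ 2 = ∑ x, e v x ^ 2 := by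
    intro v
    have h1 := b.sum_inner_mul_inner v v
    have h2 : ∑ i, inner ℝ (b i) v ^ 2 = ∑ i, inner ℝ v (b i) * inner ℝ (b i) v := by
      refine Finset.sum_congr rfl fun i _ => ?_
      rw [real_inner_comm v (b i)]; ring
    rw [h2, h1, hinner]
    refine Finset.sum_congr rfl fun x _ => ?_
    ring
  have hnorm : ∑ x, (f x - e g x) ^ 2 = ∑ i, (if l i = 0 then 0 else c i ^ 2) := by
    have h1 := hparseval (u - g)
    have h2 : ∑ x, e (u - g) x ^ 2 = ∑ x, (f x - e g x) ^ 2 := by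
      rw [map_sub, heu]; rfl
    rw [← h2, ← h1]
    refine Finset.sum_congr rfl fun i _ => ?_
    rw [inner_sub_right, hbg]
    split_ifs with h
    · simp [hc]
    · simp [hc]
  have hquad : ∑ x, f x * T f x = ∑ i, l i * c i ^ 2 := by
    have h1 := b.sum_inner_mul_inner u (T' u)
    rw [hinner u (T' u), heT, heu] at h1
    rw [← h1]
    refine Finset.sum_congr rfl fun i _ => ?_
    rw [← hS (b i) u, hbe, inner_smul_left, real_inner_comm]
    simp only [Real.ringHom_apply, hc]
    ring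
  have hle : 2 * ∑ x, (f x - e g x) ^ 2 ≤ ∑ x, f x * T f x := by
    rw [hnorm, hquad, Finset.mul_sum]
    refine Finset.sum_le_sum fun i _ => ?_
    split_ifs with h
    · rw [h]; simp
    · rcases hl2 i with h' | h'
      · exact absurd h' h
      · exact mul_le_mul_of_nonneg_right h' (sq_nonneg _)
  refine le_trans ?_ hle
  refine mul_le_mul_of_nonneg_left ?_ (by norm_num)
  -- the mean is the best constant
  rcases isEmpty_or_nonempty Ω with hΩ | hΩ
  · simp only [univ_eq_empty, sum_empty, Fintype.card_eq_zero, CharP.cast_eq_zero, div_zero, sub_zero, Std.le_refl]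
  obtain ⟨x0⟩ := hΩ
  have hNpos : (0 : ℝ) < Fintype.card Ω := by
    have : 0 < Fintype.card Ω := Fintype.card_pos_iff.mpr ⟨x0⟩
    exact_mod_cast this
  set m := (∑ y, f y) / (Fintype.card Ω : ℝ) with hm
  have hmN : ∑ y, f y = m * (Fintype.card Ω : ℝ) := by
    rw [hm]; (clear * - hNpos; field_simp)
  set k := e g x0 with hk
  have hk' : ∀ x, e g x = k := fun x => hconst x x0
  simp_rw [hk']
  have h1 : ∑ x, (f x - k) ^ 2 = ∑ x, (f x - m) ^ 2 + (Fintype.card Ω : ℝ) * (m - k) ^ 2 := by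
    have : ∀ x, (f x - k) ^ 2 = (f x - m) ^ 2 + 2 * (m - k) * f x + (k ^ 2 - m ^ 2) := by
      intro x; ring
    simp_rw [this]
    rw [Finset.sum_add_distrib, Finset.sum_add_distrib, ← Finset.mul_sum, hmN]
    simp only [Finset.sum_const, Finset.card_univ, nsmul_eq_mul]
    ring
  rw [h1]
  have : 0 ≤ (Fintype.card Ω : ℝ) * (m - k) ^ 2 := by (clear * - hNpos; positivity)
  linarith only [this]

/-- A symmetric operator all of whose eigenvalues are at most zero or at least one satisfies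
`⟨f, T f⟩ ≤ |T f|^2`. -/
theorem quad_of_eigen {Ω : Type*} [Fintype Ω] (T : (Ω → ℝ) →ₗ[ℝ] (Ω → ℝ))
    (hsym : ∀ f g : Ω → ℝ, ip (T f) g = ip f (T g))
    (heig : ∀ (l : ℝ) (g : Ω → ℝ), g ≠ 0 → T g = l • g → l ≤ 0 ∨ 1 ≤ l) (f : Ω → ℝ) :
    ip f (T f) ≤ ip (T f) (T f) := by
  classical
  set e : EuclideanSpace ℝ Ω ≃ₗ[ℝ] (Ω → ℝ) := WithLp.linearEquiv 2 ℝ (Ω → ℝ) with he
  set T' : EuclideanSpace ℝ Ω →ₗ[ℝ] EuclideanSpace ℝ Ω :=
    e.symm.toLinearMap ∘ₗ T ∘ₗ e.toLinearMap with hT'
  have hinner : ∀ u v : EuclideanSpace ℝ Ω, inner ℝ u v = ip (e u) (e v) := by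
    intro u v
    rw [PiLp.inner_apply]
    unfold ip
    refine Finset.sum_congr rfl fun x _ => ?_
    simp [he, mul_comm]
  have heT : ∀ u, e (T' u) = T (e u) := by
    intro u
    simp [hT']
  have hS : T'.IsSymmetric := by
    intro u v
    rw [hinner, hinner, heT, heT]
    exact hsym _ _
  set N := Module.finrank ℝ (EuclideanSpace ℝ Ω) with hNdef
  set b := hS.eigenvectorBasis (n := N) rfl with hb
  set l := hS.eigenvalues (n := N) rfl with hl
  have hbe : ∀ i, T' (b i) = l i • b i := by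
    intro i
    exact hS.apply_eigenvectorBasis (n := N) rfl i
  have hl2 : ∀ i, l i ≤ 0 ∨ 1 ≤ l i := by
    intro i
    apply heig (l i) (e (b i))
    · intro h0
      have h1 : b i = 0 := by
        apply e.injective
        rw [h0, map_zero]
      have h2 := b.orthonormal.1 i
      rw [h1, norm_zero] at h2
      exact zero_ne_one h2
    · rw [← heT, hbe, map_smul]
  set u : EuclideanSpace ℝ Ω := e.symm f with hu
  have heu : e u = f := by simp [hu]
  set c : Fin N → ℝ := fun i => inner ℝ (b i) u with hc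
  have hcT : ∀ i, inner ℝ (b i) (T' u) = l i * c i := by
    intro i
    rw [← hS (b i) u, hbe, inner_smul_left]
    simp [hc]
  have hquad : ip f (T f) = ∑ i, l i * c i ^ 2 := by
    have h1 := b.sum_inner_mul_inner u (T' u)
    rw [hinner u (T' u), heT, heu] at h1
    rw [← h1]
    refine Finset.sum_congr rfl fun i _ => ?_
    rw [hcT, real_inner_comm]
    simp only [hc]
    ring
  have hsq : ip (T f) (T f) = ∑ i, l i ^ 2 * c i ^ 2 := by
    have h1 := b.sum_inner_mul_inner (T' u) (T' u)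
    rw [hinner (T' u) (T' u), heT, heu] at h1
    rw [← h1]
    refine Finset.sum_congr rfl fun i _ => ?_
    rw [real_inner_comm, hcT]
    ring
  rw [hquad, hsq]
  refine Finset.sum_le_sum fun i _ => ?_
  apply mul_le_mul_of_nonneg_right _ (sq_nonneg _)
  rcases hl2 i with h | h
  · exact le_trans h (sq_nonneg _)
  · nlinarith only [h]

end Vale.Agent.P328
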