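import Vale.Agent.P328.Prekopa

/-!
A discrete form of the variance inequality of Brascamp and Lieb for products of two weights.
-/

namespace Vale.Agent.P328

open Finset

variable {ι : Type*} [Fintype ι] [DecidableEq ι]

/-- The unit vectors. -/
def uv (a : ι) : ι → ℤ := Pi.single a 1

/-- A point with natural coordinates as an integer point. -/
def cz (x : ι → ℕ) : ι → ℤ := fun a => x a

omit [Fintype ι] in
theorem cz_update (x : ι → ℕ) (a : ι) : cz (Function.update x a (x a + 1)) = cz x + uv a := by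
  funext b
  by_cases h : b = a
  · subst h; simp [cz, uv]
  · simp [cz, uv, h]

/-- Shift of the first argument. -/
def sx : Option (ι ⊕ ι) → ι → ℤ
  | some (Sum.inl a) => uv a
  | _ => 0

/-- Shift of the second argument. -/
def sy : Option (ι ⊕ ι) → ι → ℤ
  | some (Sum.inr a) => uv a
  | _ => 0

/-- The jet of `F X * G Y` at `X = Y = z`, with a further direction. -/
def jet (F G g B : (ι → ℤ) → ℝ) (z : ι → ℤ) : Jet (Option (ι ⊕ ι)) :=
  (F z * G z,
    fun e => F (z + sx e) * G (z - sy e) * (if e = none then g z else 1),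
    fun e f => F (z + sx e + sx f) * G (z - sy e - sy f) *
      (if e = none then (if f = none then B z else g (z + sx f))
        else if f = none then g (z + sx e) else 1))

theorem quad_nonneg {κ D Δ : ℝ} (hκ : 0 ≤ κ) (hD : 0 ≤ D) (h : Δ ^ 2 ≤ κ * D) (y s : ℝ) :
    0 ≤ κ * y ^ 2 - 2 * s * y * Δ + s ^ 2 * D := by
  rcases hκ.eq_or_lt with h0 | h0
  · rw [← h0] at h ⊢
    have : Δ = 0 := by nlinarith [sq_nonneg Δ]
    rw [this]
    nlinarith [mul_nonneg (sq_nonneg s) hD]
  · have h1 : 0 ≤ κ * (κ * y ^ 2 - 2 * s * y * Δ + s ^ 2 * D) := by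
      nlinarith [sq_nonneg (κ * y - s * Δ), mul_nonneg (sq_nonneg s) (sub_nonneg.2 h)]
    exact le_of_mul_le_mul_left (by rwa [mul_zero]) h0

theorem good_jet {F G g : (ι → ℤ) → ℝ} {κ D : ι → ℝ} {B : (ι → ℤ) → ℝ} {z : ι → ℤ}
    (hF : 0 < F z) (hG : 0 < G z)
    (hFl : ∀ p : ι → ℝ, F z * ∑ a, ∑ b, p a * p b * F (z + uv a + uv b) ≤
      (∑ a, p a * F (z + uv a)) ^ 2 - ∑ a, κ a * (p a * F (z + uv a)) ^ 2)
    (hGl : ∀ p : ι → ℝ, G z * ∑ a, ∑ b, p a * p b * G (z - uv a - uv b) ≤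
      (∑ a, p a * G (z - uv a)) ^ 2)
    (hκ : ∀ a, 0 ≤ κ a) (hD : ∀ a, 0 ≤ D a) (hΔ : ∀ a, (g (z + uv a) - g z) ^ 2 ≤ κ a * D a)
    (hB : B z = g z ^ 2 - ∑ a, D a) : Jet3 (jet F G g B z) := by
  refine ⟨mul_pos hF hG, fun e f => ?_, fun v => ?_⟩
  · simp only [jet]
    rw [add_right_comm, sub_right_comm]
    by_cases he : e = none <;> by_cases hf : f = none <;> simp [he, hf]
  set p : ι → ℝ := fun a => v (some (Sum.inl a)) with hp
  set p' : ι → ℝ := fun a => v (some (Sum.inr a)) with hp'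
  set t := v none with ht
  set P := ∑ a, p a * F (z + uv a) with hP
  set P' := ∑ a, p' a * G (z - uv a) with hP'
  set Pg := ∑ a, p a * F (z + uv a) * g (z + uv a) with hPg
  set QF := ∑ a, ∑ b, p a * p b * F (z + uv a + uv b) with hQF
  set QG := ∑ a, ∑ b, p' a * p' b * G (z - uv a - uv b) with hQG
  have e1 : lin (jet F G g B z).2.1 v = t * (F z * G z * g z) + (P * G z + F z * P') := by
    simp only [lin, jet, Fintype.sum_option, Fintype.sum_sum_type, sx, sy, add_zero, sub_zero,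
      if_true, reduceCtorEq, if_false, mul_one]
    rw [hP, hP', sum_mul, mul_sum]
    congr 2 <;> exact sum_congr rfl fun a _ => by ring
  have e2 : quad (jet F G g B z).2.2 v = t ^ 2 * (F z * G z * B z) +
      2 * t * (Pg * G z + F z * P' * g z) + QF * G z + 2 * (P * P') + F z * QG := by
    simp only [quad, lin, jet, Fintype.sum_option, Fintype.sum_sum_type, sx, sy, add_zero,
      sub_zero, if_true, reduceCtorEq, if_false, mul_one, mul_add, sum_add_distrib]
    have a1 : ∑ a, v (some (Sum.inl a)) * (F (z + uv a) * G z * g (z + uv a)) = Pg * G z := by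
      rw [hPg, sum_mul]; exact sum_congr rfl fun a _ => by ring
    have a2 : ∑ a, v (some (Sum.inr a)) * (F z * G (z - uv a) * g z) = F z * P' * g z := by
      rw [hP', mul_sum, sum_mul]; exact sum_congr rfl fun a _ => by ring
    have a3 : ∑ a, v (some (Sum.inl a)) * (v none * (F (z + uv a) * G z * g (z + uv a))) =
        t * (Pg * G z) := by
      rw [← a1, mul_sum]; exact sum_congr rfl fun a _ => by ring
    have a4 : ∑ a, v (some (Sum.inr a)) * (v none * (F z * G (z - uv a) * g z)) =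
        t * (F z * P' * g z) := by
      rw [← a2, mul_sum]; exact sum_congr rfl fun a _ => by ring
    have a5 : ∑ a, v (some (Sum.inl a)) *
        ∑ b, v (some (Sum.inl b)) * (F (z + uv a + uv b) * G z) = QF * G z := by
      rw [hQF, sum_mul]
      refine sum_congr rfl fun a _ => ?_
      rw [mul_sum, sum_mul]; exact sum_congr rfl fun b _ => by ring
    have a6 : ∑ a, v (some (Sum.inr a)) *
        ∑ b, v (some (Sum.inr b)) * (F z * G (z - uv a - uv b)) = F z * QG := by
      rw [hQG, mul_sum]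
      refine sum_congr rfl fun a _ => ?_
      rw [mul_sum, mul_sum]; exact sum_congr rfl fun b _ => by ring
    have a7 : ∑ a, v (some (Sum.inl a)) *
        ∑ b, v (some (Sum.inr b)) * (F (z + uv a) * G (z - uv b)) = P * P' := by
      rw [hP, hP', sum_mul_sum]
      refine sum_congr rfl fun a _ => ?_
      rw [mul_sum]; exact sum_congr rfl fun b _ => by ring
    have a8 : ∑ a, v (some (Sum.inr a)) *
        ∑ b, v (some (Sum.inl b)) * (F (z + uv b) * G (z - uv a)) = P * P' := by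
      rw [mul_comm P, hP, hP', sum_mul_sum]
      refine sum_congr rfl fun a _ => ?_
      rw [mul_sum]; exact sum_congr rfl fun b _ => by ring
    rw [a1, a2, a3, a4, a5, a6, a7, a8]
    ring
  have h1 := hFl p
  have h2 := hGl p'
  rw [← hQF, ← hP] at h1
  rw [← hQG, ← hP'] at h2
  have h3 : 0 ≤ ∑ a, (κ a * (p a * F (z + uv a)) ^ 2 -
      2 * (t * F z) * (p a * F (z + uv a)) * (g (z + uv a) - g z) + (t * F z) ^ 2 * D a) :=
    sum_nonneg fun a _ => quad_nonneg (hκ a) (hD a) (hΔ a) _ _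
  have e3 : ∑ a, 2 * (t * F z) * (p a * F (z + uv a)) * (g (z + uv a) - g z) =
      2 * (t * F z) * (Pg - P * g z) := by
    rw [hPg, hP, sum_mul, ← sum_sub_distrib, mul_sum]
    exact sum_congr rfl fun a _ => by ring
  rw [sum_add_distrib, sum_sub_distrib, e3, ← mul_sum] at h3
  rw [e1, e2, hB]
  change F z * G z * _ ≤ _
  have h4 := mul_le_mul_of_nonneg_left h1 (sq_nonneg (G z))
  have h5 := mul_le_mul_of_nonneg_left h2 (sq_nonneg (F z))
  have h6 := mul_nonneg (sq_nonneg (G z)) h3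
  nlinarith [h4, h5, h6]

/-- **Discrete Brascamp-Lieb inequality.** -/
theorem brascamp_lieb {F G g : (ι → ℤ) → ℝ} {κ D : (ι → ℤ) → ι → ℝ}
    (hF : ∀ z, 0 < F z) (hG : ∀ z, 0 < G z)
    (hFl : ∀ z (p : ι → ℝ), F z * ∑ a, ∑ b, p a * p b * F (z + uv a + uv b) ≤
      (∑ a, p a * F (z + uv a)) ^ 2 - ∑ a, κ z a * (p a * F (z + uv a)) ^ 2)
    (hGl : ∀ z (p : ι → ℝ), G z * ∑ a, ∑ b, p a * p b * G (z - uv a - uv b) ≤
      (∑ a, p a * G (z - uv a)) ^ 2)
    (hκ : ∀ z a, 0 ≤ κ z a) (hD : ∀ z a, 0 ≤ D z a)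
    (hΔ : ∀ (x : ι → ℕ) a, (g (cz x + uv a) - g (cz x)) ^ 2 ≤ κ (cz x) a * D (cz x) a)
    {U : ι → ℕ} (hU : ∀ a, 0 < U a) : ∃ c0 : ℝ,
      ∑ x ∈ Fintype.piFinset (fun a => range (U a)), F (cz x) * G (cz x) * (g (cz x) - c0) ^ 2 ≤
      ∑ x ∈ Fintype.piFinset (fun a => range (U a)), F (cz x) * G (cz x) * ∑ a, D (cz x) a := by
  set B : (ι → ℤ) → ℝ := fun z => g z ^ 2 - ∑ a, D z a with hB
  have hfam : Fam (fun a => some (Sum.inl a)) (fun a => some (Sum.inr a)) univ
      (fun x : ι → ℕ => jet F G g B (cz x)) := by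
    refine ⟨fun x => good_jet (hF _) (hG _) (hFl _) (hGl _) (hκ _) (hD _) (hΔ x) rfl,
      fun a _ x => ?_, fun a _ x => ?_, fun a _ x f => ?_, fun a _ x => ?_⟩
    · rw [cz_update]
      simp only [jet, sx, sy, add_zero, sub_zero, add_sub_cancel_right, reduceCtorEq, if_false]
    · simp only [jet, reduceCtorEq, if_false, mul_one]
      exact mul_pos (hF _) (hG _)
    · rw [cz_update]
      simp only [jet, sx, sy, add_zero, sub_zero, add_sub_cancel_right, reduceCtorEq, if_false]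
    · simp only [jet, reduceCtorEq, if_false, mul_one]
      exact (mul_pos (hF _) (hG _)).le
  have hg := Fam.good_box hU hfam
  set S := Fintype.piFinset (fun a => range (U a)) with hS
  have hpos := hg.pos
  have hlc := hg.lc (fun e => if e = none then 1 else 0)
  rw [Prod.fst_sum] at hpos
  rw [Prod.fst_sum, Prod.snd_sum, Prod.fst_sum, Prod.snd_sum, lin_sum, quad_sum] at hlc
  have e1 : ∀ x : ι → ℕ, lin (jet F G g B (cz x)).2.1 (fun e => if e = none then 1 else 0) =
      F (cz x) * G (cz x) * g (cz x) := fun x => by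
    simp [lin, jet, sx, sy]
  have e2 : ∀ x : ι → ℕ, quad (jet F G g B (cz x)).2.2 (fun e => if e = none then 1 else 0) =
      F (cz x) * G (cz x) * B (cz x) := fun x => by
    simp [quad, lin, jet, sx, sy]
  simp only [e1, e2] at hlc
  change 0 < ∑ x ∈ S, F (cz x) * G (cz x) at hpos
  change (∑ x ∈ S, F (cz x) * G (cz x)) * _ ≤ _ at hlc
  set Z := ∑ x ∈ S, F (cz x) * G (cz x) with hZ
  set M := ∑ x ∈ S, F (cz x) * G (cz x) * g (cz x) with hM
  refine ⟨M / Z, ?_⟩
  have e3 : ∑ x ∈ S, F (cz x) * G (cz x) * (g (cz x) - M / Z) ^ 2 =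
      ∑ x ∈ S, F (cz x) * G (cz x) * g (cz x) ^ 2 - 2 * (M / Z) * M + (M / Z) ^ 2 * Z := by
    rw [hM, hZ, mul_sum, mul_sum, ← sum_sub_distrib, ← sum_add_distrib]
    exact sum_congr rfl fun x _ => by ring
  have e4 : ∑ x ∈ S, F (cz x) * G (cz x) * B (cz x) =
      ∑ x ∈ S, F (cz x) * G (cz x) * g (cz x) ^ 2 -
        ∑ x ∈ S, F (cz x) * G (cz x) * ∑ a, D (cz x) a := by
    rw [← sum_sub_distrib]
    exact sum_congr rfl fun x _ => by simp only [hB]; ring
  rw [e4] at hlc
  rw [e3]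
  have e5 : -(2 * (M / Z) * M) + (M / Z) ^ 2 * Z = -(M ^ 2 / Z) := by field_simp; ring
  have e6 : ∑ x ∈ S, F (cz x) * G (cz x) * g (cz x) ^ 2 -
      ∑ x ∈ S, F (cz x) * G (cz x) * ∑ a, D (cz x) a ≤ M ^ 2 / Z := by
    rw [le_div_iff₀ hpos, mul_comm]; exact hlc
  linarith

end Vale.Agent.P328
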