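import Vale.Agent.P328.Impl
import Mathlib.Analysis.SpecialFunctions.Log.Base

/-!
From the Poincare inequality to the statement about probabilistic Turing machines.
-/

namespace Vale.Agent.P328

open Finset hiding val
open Vale.Agent.Lib.PTM Vale.Agent.Lib.PolyTime

/-- The statement to be proved. -/
def Statement : Prop := ∃ (M : Machine) (d : ℕ), ∀ (m n : ℕ) (r : Fin m → ℕ) (c : Fin n → ℕ),
    1 ≤ m → 1 ≤ n → ∑ i, r i = ∑ j, c j → ∀ ε : ℚ, 0 < ε → ε < 1 → ∀ (L : ℝ) (T : ℕ),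
      L = m + n + ∑ i, Real.logb 2 (r i + 2) + ∑ j, Real.logb 2 (c j + 2) →
      (L + Real.logb 2 (1 / (ε : ℝ)) + Real.logb 2 ε.num) ^ d ≤ T →
      ∀ out : (Fin T → Bool) → M.Cfg,
        (∀ ρ, out ρ = M.run (pair (vec r) (pair (vec c) (rat ε))) (List.ofFn ρ)) →
        (∀ ρ, (out ρ).l = none ∧ ∃ X ∈ tables r c, (out ρ).stk 0 = mat X) ∧
        (1 / 2 : ℝ) * ∑ X ∈ tables r c, |(Nat.card {ρ // (out ρ).stk 0 = mat X} : ℝ) / 2 ^ T -
          1 / (tables r c).card| ≤ ε

/-- The Poincare inequality with a polynomial constant. -/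
def Poincare (d : ℕ) : Prop :=
  ∀ (m n : ℕ) (r : Fin m → ℕ) (c : Fin n → ℕ) (f : tables r c → ℝ), ∑ x, f x = 0 →
    ∑ x, f x ^ 2 ≤ ((m + n + ∑ i, (r i).size + ∑ j, (c j).size + 2 : ℕ) : ℝ) ^ d *
      (tabM r c).energy f

theorem poincare_of_triple (h : Triple) : Poincare 0 := by
  intro m n r c f hf
  have h1 := (tabM r c).box_gap h f hf
  have h2 : 0 ≤ ∑ x, f x ^ 2 := Finset.sum_nonneg fun _ _ => sq_nonneg _
  rw [pow_zero]
  linarith

/-- Inputs of the machine. -/
abbrev Inp : Type := List ℕ × List ℕ × ℕ × ℕ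

/-- The input as a tuple. -/
def inp {m n : ℕ} (r : Fin m → ℕ) (c : Fin n → ℕ) (ε : ℚ) : Inp :=
  (List.ofFn r, List.ofFn c, ε.num.natAbs, ε.den)

theorem code_eq {m n : ℕ} (r : Fin m → ℕ) (c : Fin n → ℕ) (ε : ℚ) :
    pair (vec r) (pair (vec c) (rat ε)) = enc (inp r c ε) := by
  rw [rat, pair_eq, pair_eq, pair_eq, vec_eq, vec_eq]
  rfl

theorem esize_ofFn {k : ℕ} (v : Fin k → ℕ) :
    esize (List.ofFn v) = 2 * ∑ i, (v i).size + k := by
  rw [esize_list, List.map_ofFn, List.sum_ofFn]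
  simp only [Function.comp, esize_nat, Finset.sum_add_distrib, Finset.mul_sum, Finset.sum_const,
    Finset.card_univ, Fintype.card_fin, smul_eq_mul, mul_one]

theorem esize_inp {m n : ℕ} (r : Fin m → ℕ) (c : Fin n → ℕ) (ε : ℚ) : esize (inp r c ε) =
    4 * ∑ i, (r i).size + 2 * m + 4 * ∑ j, (c j).size + 2 * n + 2 * ε.num.natAbs.size +
      ε.den.size + 3 := by
  simp only [inp, esize_pair, esize_ofFn, esize_nat]
  ring

/-- The number of steps of the chain. -/
def steps (d s : ℕ) : ℕ := 2 * (s + 2) ^ d * (2 * s + 1) ^ 4 * (s * s + s)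

theorem card_tables {m n : ℕ} (r : Fin m → ℕ) (c : Fin n → ℕ) :
    (tables r c).card ≤ 2 ^ ((∑ i, (r i).size) * n) := by
  refine (Finset.card_filter_le _ _).trans ?_
  simp only [Fintype.card_piFinset, Finset.card_range, Finset.prod_const, Finset.card_univ,
    Fintype.card_fin]
  rw [Finset.prod_pow, pow_mul, ← Finset.prod_pow_eq_pow_sum]
  exact Nat.pow_le_pow_left (Finset.prod_le_prod' fun i _ => Nat.lt_size_self (r i)) n

theorem size_le_logb {k : ℕ} (hk : 0 < k) : (Nat.size k : ℝ) ≤ Real.logb 2 k + 1 := by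
  have h1 : 0 < Nat.size k := Nat.size_pos.2 hk
  have h2 : 2 ^ (Nat.size k - 1) ≤ k := Nat.lt_size.1 (by omega)
  have h3 : ((Nat.size k - 1 : ℕ) : ℝ) ≤ Real.logb 2 k := by
    rw [Real.le_logb_iff_rpow_le one_lt_two (by exact_mod_cast hk), Real.rpow_natCast]
    exact_mod_cast h2
  rw [Nat.cast_sub h1, Nat.cast_one] at h3
  linarith

theorem one_le_logb (k : ℕ) : 1 ≤ Real.logb 2 (k + 2) := by
  rw [Real.le_logb_iff_rpow_le one_lt_two (by positivity), Real.rpow_one]
  have : (0 : ℝ) ≤ k := Nat.cast_nonneg k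
  linarith

theorem size_le_two (k : ℕ) : (Nat.size k : ℝ) ≤ 2 * Real.logb 2 (k + 2) := by
  have h1 := size_le_logb (k := k + 2) (by omega)
  have h2 : (Nat.size k : ℝ) ≤ Nat.size (k + 2) := by
    exact_mod_cast Nat.size_le_size (Nat.le_add_right k 2)
  have h3 := one_le_logb k
  push_cast at h1
  linarith

theorem num_cast {q : ℚ} (h : 0 < q) : ((q.num.natAbs : ℕ) : ℝ) = q.num := by
  rw [Nat.cast_natAbs, abs_of_pos (Rat.num_pos.2 h)]

theorem num_pos {q : ℚ} (h : 0 < q) : 0 < q.num.natAbs :=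
  Int.natAbs_pos.2 (Rat.num_pos.2 h).ne'

theorem size_den {q : ℚ} (h : 0 < q) : (Nat.size q.den : ℝ) ≤
    Real.logb 2 (1 / (q : ℝ)) + Real.logb 2 (q.num : ℝ) + 1 := by
  have h1 : (0 : ℝ) < (q.num.natAbs : ℕ) := by exact_mod_cast num_pos h
  have h2 : (0 : ℝ) < q.den := by exact_mod_cast q.den_pos
  have h3 : 1 / (q : ℝ) = (q.den : ℝ) / (q.num.natAbs : ℕ) := by
    rw [num_cast h, Rat.cast_def, one_div_div]
  rw [h3, Real.logb_div h2.ne' h1.ne', num_cast h, sub_add_cancel]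
  exact size_le_logb q.den_pos

theorem half_pow_le {q : ℚ} (h : 0 < q) {s : ℕ} (hs : q.den.size ≤ s) : (1 / 2 : ℝ) ^ s ≤ q := by
  have h1 : (q.den : ℝ) ≤ 2 ^ s := by exact_mod_cast (Nat.size_le.1 hs).le
  have h2 : (1 : ℝ) ≤ q.num := by exact_mod_cast Rat.num_pos.2 h
  have h3 : (0 : ℝ) < q.den := by exact_mod_cast q.den_pos
  rw [one_div_pow, Rat.cast_def]
  exact div_le_div₀ (by linarith) h2 h3 h1

theorem esize_le_mu {m n : ℕ} (r : Fin m → ℕ) (c : Fin n → ℕ) (hm : 1 ≤ m) (hn : 1 ≤ n) {ε : ℚ}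
    (h1 : 0 < ε) (h2 : ε < 1) {μ : ℝ} (hμ : μ = m + n + ∑ i, Real.logb 2 (r i + 2) +
      ∑ j, Real.logb 2 (c j + 2) + Real.logb 2 (1 / (ε : ℝ)) + Real.logb 2 ε.num) :
    ((esize (inp r c ε) + 2 : ℕ) : ℝ) ≤ μ ^ 3 := by
  have a1 : 0 < Real.logb 2 (1 / (ε : ℝ)) := Real.logb_pos one_lt_two
    (one_lt_one_div (by exact_mod_cast h1) (by exact_mod_cast h2))
  have a3 : (1 : ℝ) ≤ ε.num := by exact_mod_cast Rat.num_pos.2 h1
  have a5 := Real.logb_nonneg one_lt_two a3
  have a6 : (m : ℝ) ≤ ∑ i, Real.logb 2 (r i + 2) := by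
    simpa using Finset.sum_le_sum (s := (univ : Finset (Fin m))) fun i _ => one_le_logb (r i)
  have a7 : (n : ℝ) ≤ ∑ j, Real.logb 2 (c j + 2) := by
    simpa using Finset.sum_le_sum (s := (univ : Finset (Fin n))) fun j _ => one_le_logb (c j)
  have a8 : ((∑ i, (r i).size : ℕ) : ℝ) ≤ 2 * ∑ i, Real.logb 2 (r i + 2) := by
    rw [Nat.cast_sum, Finset.mul_sum]
    exact Finset.sum_le_sum fun i _ => size_le_two _
  have a9 : ((∑ j, (c j).size : ℕ) : ℝ) ≤ 2 * ∑ j, Real.logb 2 (c j + 2) := by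
    rw [Nat.cast_sum, Finset.mul_sum]
    exact Finset.sum_le_sum fun j _ => size_le_two _
  have b1 : (1 : ℝ) ≤ m := by exact_mod_cast hm
  have b2 : (1 : ℝ) ≤ n := by exact_mod_cast hn
  have c2 := size_le_logb (num_pos h1)
  have c4 := size_den h1
  rw [num_cast h1] at c2
  rw [esize_inp]
  generalize ∑ i, (r i).size = R at *
  generalize ∑ j, (c j).size = C at *
  push_cast
  have d1 : 4 ≤ μ := by linarith
  have d2 : 16 * μ ≤ μ ^ 3 := by nlinarith [mul_le_mul d1 d1 (by norm_num) (by linarith)]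
  linarith

theorem coins_le (x : Inp) : Model.coins x.1.length x.2.1.length x.1.sum ≤ 5 * esize x := by
  have h1 : esize x.1 ≤ esize x := esize_fst_le x
  have h2 : esize x.2.1 ≤ esize x := (esize_fst_le x.2).trans (esize_snd_le x)
  have h3 := length_le_esize x.1
  have h4 := length_le_esize x.2.1
  have h5 := esize_sum_le x.1
  have h6 := esize_nat_le_self x.1.length
  have h7 := esize_nat_le_self x.2.1.length
  simp only [esize_nat] at h5 h6 h7
  unfold Model.coins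
  omega

theorem total_le (d s B : ℕ) (hB : B ≤ 5 * s) : s + steps d s * B + 2 ≤ (s + 2) ^ (d + 15) := by
  have h1 : steps d s * B ≤ 2 * (s + 2) ^ d * (2 * (s + 2)) ^ 4 * ((s + 2) * (s + 2)) *
      (5 * (s + 2)) := by
    unfold steps
    gcongr
    · omega
    · nlinarith
    · omega
  have h2 : s + 2 ≤ (s + 2) ^ (d + 7) := Nat.le_self_pow (by omega) _
  have h3 : 2 ^ 8 ≤ (s + 2) ^ 8 := Nat.pow_le_pow_left (by omega) 8
  calc s + steps d s * B + 2 ≤ (s + 2) ^ (d + 7) + 160 * (s + 2) ^ (d + 7) := by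
        have : 2 * (s + 2) ^ d * (2 * (s + 2)) ^ 4 * ((s + 2) * (s + 2)) * (5 * (s + 2)) =
          160 * (s + 2) ^ (d + 7) := by ring
        omega
    _ ≤ 2 ^ 8 * (s + 2) ^ (d + 7) := by omega
    _ ≤ (s + 2) ^ 8 * (s + 2) ^ (d + 7) := Nat.mul_le_mul_right _ h3
    _ = _ := by ring

/-- The law of the state after `steps d s` steps. -/
theorem walk_tv {d : ℕ} (hP : Poincare d) {m n : ℕ} (r : Fin m → ℕ) (c : Fin n → ℕ) {s : ℕ}
    (hs : m + n + ∑ i, (r i).size + ∑ j, (c j).size ≤ s) (ω : tables r c) :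
    ∑ y : tables r c, |ex (steps d s * Model.coins m n (∑ i, r i)) (fun ρ => ind (walk
      (tabM r c).step (Model.coins m n (∑ i, r i)) (steps d s) ω ρ = y)) -
        1 / ((tables r c).card : ℝ)| ≤ (1 / 2) ^ s := by
  have hκ : (1 : ℝ) ≤ ((s + 2 : ℕ) : ℝ) ^ d := one_le_pow₀ (by exact_mod_cast (by omega))
  have hG := (tabM r c).good_op hκ fun f hf => (hP m n r c f hf).trans
    (mul_le_mul_of_nonneg_right (pow_le_pow_left₀ (Nat.cast_nonneg _)
      (Nat.cast_le.2 (by omega)) d) (by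
      refine Finset.sum_nonneg fun _ _ => Finset.sum_nonneg fun _ _ => Finset.sum_nonneg
        fun _ _ => Finset.sum_nonneg fun _ _ => ?_
      split_ifs
      · exact ip_self_nonneg _
      · exact le_rfl))
  have h1 := hG.tv (a := s * s) (l := s) (t := steps d s) (by
    rw [Fintype.card_coe]
    exact (card_tables r c).trans ((Nat.pow_le_pow_right two_pos
      (Nat.mul_le_mul (by omega) (by omega))).trans (Nat.pow_le_pow_left (by omega) _))) (by
    have e1 : ((2 : ℝ) ^ m.size) ≤ 2 * s + 1 := by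
      exact_mod_cast (Model.two_pow_size_le m).trans (by omega)
    have e2 : ((2 : ℝ) ^ n.size) ≤ 2 * s + 1 := by
      exact_mod_cast (Model.two_pow_size_le n).trans (by omega)
    have e3 : (2 : ℝ) ^ m.size * 2 ^ m.size * 2 ^ n.size * 2 ^ n.size ≤ (2 * s + 1) ^ 4 := by
      rw [show ((2 : ℝ) * s + 1) ^ 4 = (2 * s + 1) * (2 * s + 1) * (2 * s + 1) * (2 * s + 1) by ring]
      gcongr
    rw [div_div, div_mul_eq_mul_div, one_mul, le_div_iff₀ (by positivity), steps]
    push_cast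
    calc ((s : ℝ) * s + s) * (2 ^ m.size * 2 ^ m.size * 2 ^ n.size * 2 ^ n.size *
          (2 * (s + 2) ^ d)) ≤ (s * s + s) * ((2 * s + 1) ^ 4 * (2 * (s + 2) ^ d)) := by gcongr
      _ = _ := by ring) ω
  rw [Fintype.card_coe] at h1
  refine le_trans (le_of_eq (Finset.sum_congr rfl fun y _ => ?_)) h1
  rw [← ex_walk (tabM r c).step _ (tabM r c).op (fun _ _ => rfl)]
  rfl

/-- **Bridge.** -/
theorem statement_of_poincare {d : ℕ} (hP : Poincare d) : Statement := by
  have hs : PT ∅ fun x : Inp => steps d (esize x) :=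
    PT.mul (PT.mul (PT.mul (PT.const 2) (PT.powConst (PT.add PT.id.size (PT.const 2)) d))
      (PT.powConst (PT.add (PT.mul (PT.const 2) PT.id.size) (PT.const 1)) 4))
      (PT.add (PT.mul PT.id.size PT.id.size) PT.id.size)
  have hs' : PBd fun x : Inp => steps d (esize x) := by
    have := PBd.esize (α := Inp)
    unfold steps
    fun_prop
  have ht : PT ∅ fun x : Inp => steps d (esize x) *
      Model.coins x.1.length x.2.1.length x.1.sum :=
    PT.mul hs (pt_coins PT.fst'.length PT.snd'.fst.length PT.fst'.sum)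
  have hf : PT ∅ fun s : Inp × List Bool => sample s.1.1 s.1.2.1 (steps d (esize s.1)) s.2 :=
    pt_sample PT.fst'.fst PT.fst'.snd.fst (hs.comp PT.fst') (hs'.comp (PT.fst' (A := ∅))) PT.snd'
  obtain ⟨M, e, HM⟩ := exists_machine ht hf
  refine ⟨M, 3 * ((d + 15) * e), fun m n r c hm hn hrc ε h1 h2 L T hL hT out hout => ?_⟩
  have b1 := esize_le_mu r c hm hn h1 h2 (μ := L + Real.logb 2 (1 / (ε : ℝ)) + Real.logb 2 ε.num)
    (by rw [hL])
  have b2 : (esize (inp r c ε) + 2) ^ ((d + 15) * e) ≤ T := by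
    rw [pow_mul] at hT
    exact_mod_cast (pow_le_pow_left₀ (Nat.cast_nonneg _) b1 _).trans hT
  obtain ⟨h5, h6⟩ := HM (inp r c ε) T (le_trans (by
    rw [pow_mul]
    exact Nat.pow_le_pow_left (total_le d _ _ (coins_le _)) e) b2)
  simp only [code_eq] at hout
  simp only [hout]
  have h7 : ∀ ρ, enc (sample (inp r c ε).1 (inp r c ε).2.1 (steps d (esize (inp r c ε))) ρ) = _ :=
    fun ρ => enc_sample hrc _ ρ
  simp only [h7] at h6
  have h8 : Model.coins (inp r c ε).1.length (inp r c ε).2.1.length (inp r c ε).1.sum =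
      Model.coins m n (∑ i, r i) := by
    simp only [inp, List.length_ofFn, List.sum_ofFn]
  rw [h8] at h6
  refine ⟨fun ρ => ⟨h5 ρ, ?_⟩, ?_⟩
  · refine all_of_frq (P := fun ρ => ∃ X ∈ tables r c, (M.run (enc (inp r c ε)) ρ).stk 0 = mat X)
      ?_ ρ
    rw [h6 fun w => ∃ X ∈ tables r c, w = mat X, frq_congr (Q := fun _ => True)
      fun ρ _ => iff_true_intro ⟨_, Subtype.property _, rfl⟩, frq_const, ind, if_pos trivial]
  · have h9 := walk_tv hP r c (s := esize (inp r c ε)) (by rw [esize_inp]; omega)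
      ⟨_, first_mem hrc⟩
    have h10 := half_pow_le h1 (s := esize (inp r c ε)) (by rw [esize_inp]; omega)
    have h11 : (0 : ℝ) < ε := by exact_mod_cast h1
    rw [← Finset.sum_coe_sort (tables r c)]
    refine le_trans (mul_le_mul_of_nonneg_left (le_trans (le_of_eq
      (Finset.sum_congr rfl fun y _ => ?_)) (h9.trans h10)) (by norm_num)) (by linarith)
    rw [frq_eq T fun ρ => (M.run (enc (inp r c ε)) ρ).stk 0 = mat y.1,
      mul_div_cancel_right₀ _ (by positivity), h6 fun w => w = mat y.1, frq_eq_ex]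
    congr 3
    funext ρ
    exact congrArg ind (propext ⟨fun h => Subtype.ext (mat_inj h), fun h => by rw [h]⟩)

theorem statement_of_triple (h : Triple) : Statement :=
  statement_of_poincare (poincare_of_triple h)

end Vale.Agent.P328
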