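import Vale.Agent.P328.Avg
import Vale.Agent.Lib.PTM.Freq
import Vale.Agent.Lib.PolyTime.Bits

/-!
Expectations over coin strings, chains driven by coins, and mixing of symmetric chains.
-/

namespace Vale.Agent.P328

open Finset hiding val
open Vale.Agent.Lib.PTM Vale.Agent.Lib.PolyTime

/-- The expectation of `F` over the words of length `m`. -/
noncomputable def ex : ℕ → (List Bool → ℝ) → ℝ
  | 0, F => F []
  | m + 1, F => (ex m (fun ρ => F (false :: ρ)) + ex m fun ρ => F (true :: ρ)) / 2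

theorem ex_zero (F : List Bool → ℝ) : ex 0 F = F [] := rfl

theorem ex_succ (m : ℕ) (F : List Bool → ℝ) :
    ex (m + 1) F = (ex m (fun ρ => F (false :: ρ)) + ex m fun ρ => F (true :: ρ)) / 2 := rfl

theorem frq_eq_ex (m : ℕ) (P : List Bool → Prop) : frq m P = ex m fun ρ => ind (P ρ) := by
  induction m generalizing P with
  | zero => exact frq_zero P
  | succ m ih => rw [frq_succ, ih, ih, ex_succ]

theorem ex_congr {m : ℕ} {F G : List Bool → ℝ} (h : ∀ ρ, ρ.length = m → F ρ = G ρ) :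
    ex m F = ex m G := by
  induction m generalizing F G with
  | zero => exact h [] rfl
  | succ m ih =>
    rw [ex_succ, ex_succ, ih fun ρ hρ => h (false :: ρ) (by simp [hρ]),
      ih fun ρ hρ => h (true :: ρ) (by simp [hρ])]

theorem ex_const (m : ℕ) (c : ℝ) : ex m (fun _ => c) = c := by
  induction m with
  | zero => rfl
  | succ m ih => rw [ex_succ, ih]; ring

theorem ex_add (m : ℕ) (F G : List Bool → ℝ) :
    ex m (fun ρ => F ρ + G ρ) = ex m F + ex m G := by
  induction m generalizing F G with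
  | zero => rfl
  | succ m ih => rw [ex_succ, ex_succ, ex_succ, ih, ih]; ring

theorem ex_mul (m : ℕ) (c : ℝ) (F : List Bool → ℝ) : ex m (fun ρ => c * F ρ) = c * ex m F := by
  induction m generalizing F with
  | zero => rfl
  | succ m ih => rw [ex_succ, ex_succ, ih, ih]; ring

theorem ex_mono {m : ℕ} {F G : List Bool → ℝ} (h : ∀ ρ, ρ.length = m → F ρ ≤ G ρ) :
    ex m F ≤ ex m G := by
  induction m generalizing F G with
  | zero => exact h [] rfl
  | succ m ih =>
    have h1 := ih fun ρ hρ => h (false :: ρ) (by simp [hρ])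
    have h2 := ih fun ρ hρ => h (true :: ρ) (by simp [hρ])
    rw [ex_succ, ex_succ]
    linarith

theorem ex_append (a b : ℕ) (F : List Bool → ℝ) :
    ex (a + b) F = ex a fun u => ex b fun v => F (u ++ v) := by
  induction a generalizing F with
  | zero => rw [zero_add]; rfl
  | succ a ih => rw [Nat.add_right_comm, ex_succ, ex_succ, ih, ih]; rfl

theorem ex_split (a b : ℕ) (F : List Bool → List Bool → ℝ) :
    ex (a + b) (fun ρ => F (ρ.take a) (ρ.drop a)) = ex a fun u => ex b fun v => F u v := by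
  rw [ex_append]
  refine ex_congr fun u hu => ex_congr fun v _ => ?_
  rw [List.take_left' hu, List.drop_left' hu]

theorem ex_val (m : ℕ) (G : ℕ → ℝ) :
    ex m (fun ρ => G (val ρ)) = (∑ v ∈ range (2 ^ m), G v) / 2 ^ m := by
  induction m generalizing G with
  | zero => simp [ex_zero]
  | succ m ih =>
    have h1 := ih fun v => G (2 * v)
    have h2 := ih fun v => G (2 * v + 1)
    have h3 : ∑ v ∈ range (2 ^ (m + 1)), G v =
        ∑ v ∈ range (2 ^ m), G (2 * v) + ∑ v ∈ range (2 ^ m), G (2 * v + 1) := by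
      rw [pow_succ, mul_comm, ← Finset.sum_add_distrib]
      generalize 2 ^ m = k
      induction k with
      | zero => simp
      | succ k ih2 =>
        rw [Nat.mul_succ, Finset.sum_range_succ, Finset.sum_range_succ, Finset.sum_range_succ, ih2]
        ring
    rw [ex_succ, h3, pow_succ]
    simp only [val_cons, Bool.toNat_false, Bool.toNat_true, zero_add]
    simp only [add_comm 1]
    rw [h1, h2]
    field_simp

theorem ex_val_take {s m : ℕ} (h : s ≤ m) (G : ℕ → ℝ) :
    ex m (fun ρ => G (val (ρ.take s))) = (∑ v ∈ range (2 ^ s), G v) / 2 ^ s := by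
  obtain ⟨k, rfl⟩ := Nat.exists_eq_add_of_le h
  rw [ex_split s k fun u _ => G (val u), ← ex_val]
  exact ex_congr fun u _ => ex_const _ _

/-- The state after `t` steps, each of which uses `B` coins. -/
def walk {Ω : Type} (step : Ω → List Bool → Ω) (B : ℕ) : ℕ → Ω → List Bool → Ω
  | 0, x, _ => x
  | t + 1, x, ρ => walk step B t (step x (ρ.take B)) (ρ.drop B)

theorem ex_walk {Ω : Type} (step : Ω → List Bool → Ω) (B : ℕ) (A : (Ω → ℝ) → Ω → ℝ)
    (hA : ∀ f x, A f x = ex B fun ρ => f (step x ρ)) (f : Ω → ℝ) (t : ℕ) (x : Ω) :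
    ex (t * B) (fun ρ => f (walk step B t x ρ)) = A^[t] f x := by
  induction t generalizing x with
  | zero => rw [zero_mul]; rfl
  | succ t ih =>
    rw [Function.iterate_succ_apply', hA, Nat.succ_mul, add_comm,
      ← ex_congr fun u _ => ih (step x u)]
    exact ex_split B (t * B) fun u v => f (walk step B t (step x u) v)

section Mixing

variable {Ω : Type} [Fintype Ω]

/-- A symmetric positive semidefinite Markov operator with gap `γ`. -/
structure UGood (A : (Ω → ℝ) →ₗ[ℝ] (Ω → ℝ)) (γ : ℝ) : Prop where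
  symm : ∀ f g, ip (A f) g = ip f (A g)
  one : A (fun _ => 1) = fun _ => 1
  psd : ∀ f, 0 ≤ ip f (A f)
  le_one : γ ≤ 1
  gap : ∀ f, ∑ x, f x = 0 → ip f (A f) ≤ (1 - γ) * ip f f

variable {A : (Ω → ℝ) →ₗ[ℝ] (Ω → ℝ)} {γ : ℝ}

theorem UGood.sum (h : UGood A γ) (f : Ω → ℝ) : ∑ x, A f x = ∑ x, f x := by
  have h1 := h.symm f fun _ => 1
  rw [h.one] at h1
  simpa only [ip, mul_one] using h1

theorem UGood.step (h : UGood A γ) (g : Ω → ℝ) (hg : ∑ x, g x = 0) :
    ip (A g) (A g) ≤ (1 - γ) ^ 2 * ip g g := by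
  set c := 1 - γ with hc
  have hc0 : 0 ≤ c := by have := h.le_one; linarith
  have h1 := h.gap g hg
  have h2 := h.gap (A g) (by rw [h.sum, hg])
  have hB0 := h.psd g
  have hD0 := h.psd (A g)
  have h3 : ∀ s : ℝ, 0 ≤ s ^ 2 * ip g (A g) - 2 * s * ip (A g) (A g) + ip (A g) (A (A g)) := by
    intro s
    have h4 := h.psd (s • g - A g)
    rw [map_sub, map_smul, ip_sub_left, ip_sub_right, ip_sub_right, ip_smul_left, ip_smul_left,
      ip_smul_right, ip_smul_right, ← h.symm g (A g)] at h4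
    linarith
  rw [← hc] at h1 h2
  generalize ip g g = a at *
  generalize ip g (A g) = b at *
  generalize ip (A g) (A (A g)) = d at *
  generalize ip (A g) (A g) = e at *
  rcases hc0.eq_or_lt with hc1 | hc1
  · rw [← hc1] at h1 ⊢
    have hB1 : b = 0 := le_antisymm (by linarith) hB0
    have hC0 : e ≤ 0 := by
      by_contra hcon
      push Not at hcon
      have h5 := h3 (d / e + 1)
      rw [hB1] at h5
      have e1 : 2 * (d / e + 1) * e = 2 * d + 2 * e := by field_simp
      rw [e1] at h5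
      linarith
    linarith
  · have h5 : 0 ≤ c * (c * b - e) := by linarith only [h2, h3 c]
    have h6 : e ≤ c * b := by
      by_contra hcon
      push Not at hcon
      have : c * (c * b - e) < 0 := mul_neg_of_pos_of_neg hc1 (by linarith)
      linarith
    calc e ≤ c * b := h6
      _ ≤ c * (c * a) := mul_le_mul_of_nonneg_left h1 hc0
      _ = c ^ 2 * a := by ring

theorem UGood.iter (h : UGood A γ) (g : Ω → ℝ) (hg : ∑ x, g x = 0) (t : ℕ) :
    ∑ x, A^[t] g x = 0 ∧ ip (A^[t] g) (A^[t] g) ≤ ((1 - γ) ^ t) ^ 2 * ip g g := by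
  induction t with
  | zero => exact ⟨hg, by simp⟩
  | succ t ih =>
    rw [Function.iterate_succ_apply']
    refine ⟨by rw [h.sum, ih.1], (h.step _ ih.1).trans ?_⟩
    calc (1 - γ) ^ 2 * ip (A^[t] g) (A^[t] g) ≤ (1 - γ) ^ 2 * (((1 - γ) ^ t) ^ 2 * ip g g) :=
          mul_le_mul_of_nonneg_left ih.2 (sq_nonneg _)
      _ = _ := by ring

theorem UGood.iter_symm (h : UGood A γ) (t : ℕ) (f g : Ω → ℝ) :
    ip (A^[t] f) g = ip f (A^[t] g) := by
  induction t generalizing g with
  | zero => rfl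
  | succ t ih =>
    rw [Function.iterate_succ_apply', h.symm, ih, Function.iterate_succ_apply]

theorem ip_ind (f : Ω → ℝ) (x : Ω) : ip f (fun z => ind (z = x)) = f x := by
  classical
  unfold ip ind
  rw [Finset.sum_eq_single x (fun z _ hz => by simp [hz]) (by simp)]
  simp

/-- Total variation distance after `t` steps. -/
theorem UGood.tv (h : UGood A γ) {a l t : ℕ} (ha : Fintype.card Ω ≤ 4 ^ a)
    (ht : ((a : ℝ) + l) ≤ γ * t) (x : Ω) :
    ∑ y, |A^[t] (fun z => ind (z = y)) x - 1 / (Fintype.card Ω : ℝ)| ≤ (1 / 2) ^ l := by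
  have hN : (0 : ℝ) < Fintype.card Ω := by exact_mod_cast Fintype.card_pos_iff.2 ⟨x⟩
  set g : Ω → ℝ := (fun z => ind (z = x)) - (1 / (Fintype.card Ω : ℝ)) • fun _ => (1 : ℝ) with hg
  have h1 : ∑ z, ind (z = x) = 1 := by
    simpa only [ip, one_mul] using ip_ind (fun _ => 1) x
  have hg0 : ∑ z, g z = 0 := by
    simp only [hg, Pi.sub_apply, Pi.smul_apply, smul_eq_mul, mul_one, Finset.sum_sub_distrib, h1,
      Finset.sum_const, Finset.card_univ, nsmul_eq_mul]
    field_simp
    ring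
  have hg1 : ip g g ≤ 1 := by
    have e1 : ip g (fun _ => (1 : ℝ)) = 0 := by simpa only [ip, mul_one] using hg0
    nth_rw 2 [hg]
    rw [ip_sub_right, ip_smul_right, e1, ip_ind, hg]
    simp only [Pi.sub_apply, Pi.smul_apply, smul_eq_mul, ind, if_true]
    have : 0 < 1 / (Fintype.card Ω : ℝ) := by positivity
    linarith
  have h2 : ∀ y, A^[t] (fun z => ind (z = y)) x - 1 / (Fintype.card Ω : ℝ) = A^[t] g y := by
    intro y
    have e1 : A^[t] (fun _ => (1 : ℝ)) = fun _ => 1 := Function.iterate_fixed h.one t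
    rw [← ip_ind (A^[t] _) x, h.iter_symm, ip_comm, ip_ind, hg, ← Module.End.pow_apply,
      ← Module.End.pow_apply, map_sub, map_smul, Module.End.pow_apply, Module.End.pow_apply, e1]
    simp
  simp only [h2]
  have h3 : (∑ y, |A^[t] g y|) ^ 2 ≤ (Fintype.card Ω : ℝ) * ip (A^[t] g) (A^[t] g) := by
    have := sq_sum_le_card_mul_sum_sq (s := (univ : Finset Ω)) (f := fun y => |A^[t] g y|)
    simpa only [sq_abs, Finset.card_univ, ip_self_eq_sum_sq] using this
  have hc0 : 0 ≤ 1 - γ := by have := h.le_one; linarith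
  have h4 : (1 - γ) ^ t ≤ (1 / 2) ^ (a + l) := by
    have h5 : 1 - γ ≤ Real.exp (-γ) := by
      have := Real.add_one_le_exp (-γ); linarith
    have h6 : Real.exp (-1) ≤ 1 / 2 := by
      rw [Real.exp_neg, one_div]
      refine inv_anti₀ two_pos ?_
      have := Real.add_one_le_exp 1
      linarith
    calc (1 - γ) ^ t ≤ Real.exp (-γ) ^ t := pow_le_pow_left₀ hc0 h5 t
      _ = Real.exp (-(γ * t)) := by rw [← Real.exp_nat_mul]; congr 1; ring
      _ ≤ Real.exp (((a + l : ℕ) : ℝ) * (-1)) := Real.exp_le_exp.2 (by push_cast; linarith)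
      _ = Real.exp (-1) ^ (a + l) := Real.exp_nat_mul _ _
      _ ≤ _ := pow_le_pow_left₀ (Real.exp_pos _).le h6 _
  have h7 : (∑ y, |A^[t] g y|) ^ 2 ≤ ((1 / 2 : ℝ) ^ l) ^ 2 := by
    have h8 : (Fintype.card Ω : ℝ) ≤ 4 ^ a := by exact_mod_cast ha
    have h9 : ip (A^[t] g) (A^[t] g) ≤ ((1 / 2 : ℝ) ^ (a + l)) ^ 2 := by
      refine (h.iter g hg0 t).2.trans ?_
      calc ((1 - γ) ^ t) ^ 2 * ip g g ≤ ((1 - γ) ^ t) ^ 2 * 1 :=
            mul_le_mul_of_nonneg_left hg1 (sq_nonneg _)
        _ ≤ _ := by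
            rw [mul_one]
            exact pow_le_pow_left₀ (by positivity) h4 2
    refine h3.trans ((mul_le_mul h8 h9 (ip_self_nonneg _) (by positivity)).trans (le_of_eq ?_))
    rw [pow_add, mul_pow, ← mul_assoc, ← pow_mul, mul_comm a 2, pow_mul, ← mul_pow]
    norm_num
  exact (le_abs_self _).trans (abs_le_of_sq_le_sq h7 (by positivity))

theorem cdev_mul {r : Setoid Ω} {θ : Ω → ℝ} (hθ : ∀ x y, r x y → θ x = θ y) (f : Ω → ℝ) :
    cdev r (θ * f) = θ * cdev r f := by
  funext x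
  simp only [cdev, cavg, Pi.sub_apply, Pi.mul_apply]
  rw [Finset.sum_congr rfl fun y hy => by rw [← hθ x y (mem_cls.1 hy)], ← Finset.mul_sum]
  ring

theorem ip_mul (θ f g : Ω → ℝ) : ip (θ * f) g = ip f (θ * g) :=
  Finset.sum_congr rfl fun x _ => by simp only [Pi.mul_apply]; ring

/-- A mixture of lazy resamplings. -/
theorem good_mix {J : Type} (s : Finset J) (r : J → Setoid Ω) (θ : J → Ω → ℝ) {w κ : ℝ}
    (hθ : ∀ j x y, r j x y → θ j x = θ j y) (h1 : ∀ j x, 1 / 2 ≤ θ j x) (h2 : ∀ j x, θ j x ≤ 1)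
    (hw : 0 ≤ w) (hw1 : w * s.card ≤ 1) (hκ : 0 < κ) (hwκ : w / (2 * κ) ≤ 1)
    (hA : ∀ f x, A f x = f x - w * ∑ j ∈ s, θ j x * cdev (r j) f x)
    (hgap : ∀ f : Ω → ℝ, ∑ x, f x = 0 →
      ip f f ≤ κ * ∑ j ∈ s, ip (cdev (r j) f) (cdev (r j) f)) : UGood A (w / (2 * κ)) := by
  have key : ∀ f g, ip (A f) g = ip f g - w * ∑ j ∈ s, ip (θ j * cdev (r j) f) g := by
    intro f g
    simp only [ip, hA, sub_mul, Finset.sum_sub_distrib, Pi.mul_apply]
    congr 1
    rw [Finset.sum_comm, Finset.mul_sum]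
    exact Finset.sum_congr rfl fun x _ => by rw [mul_assoc, Finset.sum_mul]
  have key2 : ∀ j f g, ip (θ j * cdev (r j) f) g = ip (θ j * cdev (r j) f) (cdev (r j) g) := by
    intro j f g
    rw [← ip_cdev, cdev_mul (hθ j), cdev_cdev]
  have key3 : ∀ j f, ip (θ j * cdev (r j) f) f ≤ ip (cdev (r j) f) (cdev (r j) f) ∧
      (1 / 2) * ip (cdev (r j) f) (cdev (r j) f) ≤ ip (θ j * cdev (r j) f) f := by
    intro j f
    rw [key2, ip, ip, Finset.mul_sum]
    constructor
    · refine Finset.sum_le_sum fun x _ => ?_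
      have := mul_le_mul_of_nonneg_right (h2 j x) (mul_self_nonneg (cdev (r j) f x))
      simp only [Pi.mul_apply]
      linarith
    · refine Finset.sum_le_sum fun x _ => ?_
      have := mul_le_mul_of_nonneg_right (h1 j x) (mul_self_nonneg (cdev (r j) f x))
      simp only [Pi.mul_apply]
      linarith
  refine ⟨fun f g => ?_, ?_, fun f => ?_, hwκ, fun f hf => ?_⟩
  · rw [ip_comm f, key, key, ip_comm f]
    congr 2
    refine Finset.sum_congr rfl fun j _ => ?_
    rw [key2, key2 j g, ip_mul, ip_comm]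
  · funext x
    rw [hA]
    simp [cdev, cavg_const]
  · rw [ip_comm, key]
    have h3 : ∑ j ∈ s, ip (θ j * cdev (r j) f) f ≤ ∑ j ∈ s, ip f f :=
      Finset.sum_le_sum fun j _ => (key3 j f).1.trans (ip_cdev_self_le _ _)
    rw [Finset.sum_const, nsmul_eq_mul] at h3
    have h4 := mul_le_mul_of_nonneg_left h3 hw
    have h5 := mul_le_mul_of_nonneg_right hw1 (ip_self_nonneg f)
    nlinarith
  · rw [ip_comm, key]
    have h3 : (1 / 2) * ∑ j ∈ s, ip (cdev (r j) f) (cdev (r j) f) ≤
        ∑ j ∈ s, ip (θ j * cdev (r j) f) f := by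
      rw [Finset.mul_sum]
      exact Finset.sum_le_sum fun j _ => (key3 j f).2
    have h4 := mul_le_mul_of_nonneg_left h3 hw
    have h5 := mul_le_mul_of_nonneg_left (hgap f hf) (show 0 ≤ w / (2 * κ) by positivity)
    have h6 : w / (2 * κ) * (κ * ∑ j ∈ s, ip (cdev (r j) f) (cdev (r j) f)) =
        w * ((1 / 2) * ∑ j ∈ s, ip (cdev (r j) f) (cdev (r j) f)) := by field_simp
    nlinarith

end Mixing

end Vale.Agent.P328
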