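import Vale.Agent.P328.Gap
import Vale.Agent.P328.Mix

/-!
The `2 × 2` heat bath chain driven by coins.
-/

namespace Vale.Agent.P328

open Finset hiding val
open Vale.Agent.Lib.PTM Vale.Agent.Lib.PolyTime

section Move

variable {ι κ : Type} [DecidableEq ι] [DecidableEq κ]

/-- The number of tables in the class of `X`, minus one. -/
def len (X : ι → κ → ℕ) (a b : ι) (p q : κ) : ℕ := min (X a p) (X b q) + min (X a q) (X b p)

/-- The table number `u` in the class of `X`. -/
def hmv (X : ι → κ → ℕ) (a b : ι) (p q : κ) (u : ℕ) (i : ι) (j : κ) : ℕ :=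
  if (i = a ∧ j = p) ∨ (i = b ∧ j = q) then X i j - min (X a p) (X b q) + u
  else if (i = a ∧ j = q) ∨ (i = b ∧ j = p) then X i j + min (X a p) (X b q) - u else X i j

variable {X : ι → κ → ℕ} {a b : ι} {p q : κ} {u : ℕ}

theorem mv_ap : hmv X a b p q u a p = X a p - min (X a p) (X b q) + u := by simp [hmv]

theorem mv_bq : hmv X a b p q u b q = X b q - min (X a p) (X b q) + u := by simp [hmv]

theorem mv_aq (hab : a ≠ b) (hpq : p ≠ q) :
    hmv X a b p q u a q = X a q + min (X a p) (X b q) - u := by simp [hmv, hab, hpq.symm]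

theorem mv_bp (hab : a ≠ b) (hpq : p ≠ q) :
    hmv X a b p q u b p = X b p + min (X a p) (X b q) - u := by simp [hmv, hab.symm, hpq]

theorem mv_off {i : ι} {j : κ} (h : ¬ ((i = a ∨ i = b) ∧ (j = p ∨ j = q))) :
    hmv X a b p q u i j = X i j := by
  unfold hmv
  rw [if_neg (by tauto), if_neg (by tauto)]

end Move

theorem sum_two {α : Type} [Fintype α] [DecidableEq α] {a b : α} (h : a ≠ b) (F : α → ℕ) :
    ∑ i, F i = F a + F b + ∑ i ∈ (univ.erase a).erase b, F i := by
  rw [← Finset.add_sum_erase univ F (mem_univ a),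
    ← Finset.add_sum_erase (univ.erase a) F (Finset.mem_erase.2 ⟨h.symm, mem_univ b⟩), add_assoc]

theorem mem_two {α : Type} [Fintype α] [DecidableEq α] {a b i : α}
    (h : i ∈ (univ.erase a).erase b) : i ≠ a ∧ i ≠ b :=
  ⟨(Finset.mem_erase.1 (Finset.mem_erase.1 h).2).1, (Finset.mem_erase.1 h).1⟩

/-- Read a number from `K` coins; continue with `k` if it is below `m`. -/
def pick {β : Type} (K m : ℕ) (ρ : List Bool) (k : Fin m → List Bool → β) (d : β) : β :=
  if h : val (ρ.take K) < m then k ⟨_, h⟩ (ρ.drop K) else d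

theorem ex_pick {β : Type} {K m : ℕ} (hm : m ≤ 2 ^ K) (R : ℕ) (k : Fin m → List Bool → β) (d : β)
    (f : β → ℝ) : f d - ex (K + R) (fun ρ => f (pick K m ρ k d)) =
      (∑ a, (f d - ex R fun ρ => f (k a ρ))) / 2 ^ K := by
  have h1 := ex_split K R fun u v => f (if h : val u < m then k ⟨_, h⟩ v else d)
  have h2 := ex_val K fun n => ex R fun v => f (if h : n < m then k ⟨_, h⟩ v else d)
  unfold pick
  rw [h1, h2, eq_div_iff (by positivity), sub_mul, div_mul_cancel₀ _ (by positivity)]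
  have h3 : f d * 2 ^ K = ∑ _n ∈ range (2 ^ K), f d := by
    rw [Finset.sum_const, Finset.card_range, nsmul_eq_mul]
    push_cast
    ring
  rw [h3, ← Finset.sum_sub_distrib, ← Finset.sum_range_add_sum_Ico _ hm,
    Finset.sum_eq_zero (s := Ico m (2 ^ K)) fun n hn => by
      simp only [dif_neg (not_lt.2 (Finset.mem_Ico.1 hn).1), ex_const, sub_self],
    add_zero, ← Fin.sum_univ_eq_sum_range
      (fun n => f d - ex R fun v => f (if h : n < m then k ⟨_, h⟩ v else d))]
  exact Finset.sum_congr rfl fun a _ => by simp only [dif_pos a.2]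

namespace Model

section General

variable {Ω ι κ : Type} [Fintype ι] [Fintype κ] [DecidableEq ι] [DecidableEq κ] (M : Model Ω ι κ)
  {a b : ι} {p q : κ}

theorem exists_mv (hab : a ≠ b) (hpq : p ≠ q) (ω : Ω) {u : ℕ} (hu : u ≤ len (M.x ω) a b p q) :
    ∃ ω', M.x ω' = hmv (M.x ω) a b p q u := by
  unfold len at hu
  refine M.surj _ (fun i => ?_) fun j => ?_
  · have h3 := M.row ω i
    rw [sum_two hpq] at h3 ⊢
    rw [Finset.sum_congr rfl fun j hj => mv_off (i := i) fun h =>
      h.2.elim (mem_two hj).1 (mem_two hj).2]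
    by_cases hia : i = a
    · subst hia
      rw [mv_ap, mv_aq hab hpq]
      omega
    · by_cases hib : i = b
      · subst hib
        rw [mv_bq, mv_bp hab hpq]
        omega
      · rw [mv_off (by tauto), mv_off (by tauto)]
        exact h3
  · have h3 := M.col ω j
    rw [sum_two hab] at h3 ⊢
    rw [Finset.sum_congr rfl fun i hi => mv_off (j := j) fun h =>
      h.1.elim (mem_two hi).1 (mem_two hi).2]
    by_cases hjp : j = p
    · subst hjp
      rw [mv_ap, mv_bp hab hpq]
      omega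
    · by_cases hjq : j = q
      · subst hjq
        rw [mv_bq, mv_aq hab hpq]
        omega
      · rw [mv_off (by tauto), mv_off (by tauto)]
        exact h3

open Classical in
/-- The state number `u` in the class of `ω`. -/
noncomputable def move (a b : ι) (p q : κ) (ω : Ω) (u : ℕ) : Ω :=
  if h : ∃ ω', M.x ω' = hmv (M.x ω) a b p q u then Classical.choose h else ω

theorem x_move (hab : a ≠ b) (hpq : p ≠ q) (ω : Ω) {u : ℕ} (hu : u ≤ len (M.x ω) a b p q) :
    M.x (M.move a b p q ω u) = hmv (M.x ω) a b p q u := by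
  unfold move
  rw [dif_pos (M.exists_mv hab hpq ω hu)]
  exact Classical.choose_spec (M.exists_mv hab hpq ω hu)

theorem box_sums (hab : a ≠ b) (hpq : p ≠ q) {ω ω' : Ω} (h : M.box a b p q ω ω') :
    M.x ω a p + M.x ω a q = M.x ω' a p + M.x ω' a q ∧
    M.x ω b p + M.x ω b q = M.x ω' b p + M.x ω' b q ∧
    M.x ω a p + M.x ω b p = M.x ω' a p + M.x ω' b p := by
  have hr : ∀ i, M.x ω i p + M.x ω i q = M.x ω' i p + M.x ω' i q := by
    intro i
    have h1 := M.row ω i
    have h2 := M.row ω' i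
    rw [sum_two hpq] at h1 h2
    have h3 : ∑ j ∈ (univ.erase p).erase q, M.x ω i j = ∑ j ∈ (univ.erase p).erase q, M.x ω' i j :=
      Finset.sum_congr rfl fun j hj => h i j fun e => e.2.elim (mem_two hj).1 (mem_two hj).2
    omega
  refine ⟨hr a, hr b, ?_⟩
  have h1 := M.col ω p
  have h2 := M.col ω' p
  rw [sum_two hab] at h1 h2
  rw [Finset.sum_congr rfl fun i hi => h i p fun e =>
    e.1.elim (mem_two hi).1 (mem_two hi).2] at h1
  omega

variable [Fintype Ω]

theorem sum_box (hab : a ≠ b) (hpq : p ≠ q) (ω : Ω) (f : Ω → ℝ) :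
    ∑ y ∈ cls (M.box a b p q) ω, f y =
      ∑ u ∈ range (len (M.x ω) a b p q + 1), f (M.move a b p q ω u) := by
  symm
  refine Finset.sum_bij (fun u _ => M.move a b p q ω u) (fun u hu => ?_) (fun u hu v hv h => ?_)
    (fun y hy => ?_) fun _ _ => rfl
  · refine mem_cls.2 fun i j h => ?_
    rw [M.x_move hab hpq ω (Nat.lt_succ_iff.1 (Finset.mem_range.1 hu)), mv_off h]
  · have h1 := congrFun (congrFun (congrArg M.x h) a) p
    rw [M.x_move hab hpq ω (Nat.lt_succ_iff.1 (Finset.mem_range.1 hu)),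
      M.x_move hab hpq ω (Nat.lt_succ_iff.1 (Finset.mem_range.1 hv)), mv_ap, mv_ap] at h1
    omega
  · have h1 := mem_cls.1 hy
    obtain ⟨h2, h3, h4⟩ := M.box_sums hab hpq h1
    have hu : M.x y a p + min (M.x ω a p) (M.x ω b q) - M.x ω a p ≤ len (M.x ω) a b p q := by
      unfold len
      omega
    refine ⟨_, Finset.mem_range.2 (Nat.lt_succ_iff.2 hu), M.inj ?_⟩
    rw [M.x_move hab hpq ω hu]
    funext i j
    by_cases h : (i = a ∨ i = b) ∧ (j = p ∨ j = q)
    · obtain ⟨rfl | rfl, rfl | rfl⟩ := h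
      · rw [mv_ap]; omega
      · rw [mv_aq hab hpq]; omega
      · rw [mv_bp hab hpq]; omega
      · rw [mv_bq]; omega
    · rw [mv_off h, h1 i j h]

theorem card_box (hab : a ≠ b) (hpq : p ≠ q) (ω : Ω) :
    (cls (M.box a b p q) ω).card = len (M.x ω) a b p q + 1 := by
  have h := M.sum_box hab hpq ω fun _ => 1
  simp only [Finset.sum_const, Finset.card_range, nsmul_eq_mul, mul_one] at h
  exact_mod_cast h

/-- The resampling of the box, with rejection. -/
noncomputable def last (a b : ι) (p q : κ) (ω : Ω) (ρ : List Bool) : Ω :=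
  if a ≠ b ∧ p ≠ q ∧ val (ρ.take (len (M.x ω) a b p q).size) ≤ len (M.x ω) a b p q then
    M.move a b p q ω (val (ρ.take (len (M.x ω) a b p q).size)) else ω

/-- The probability of acceptance. -/
noncomputable def acc (r : Setoid Ω) (ω : Ω) : ℝ :=
  ((cls r ω).card : ℝ) / 2 ^ ((cls r ω).card - 1).size

theorem acc_bounds (r : Setoid Ω) (ω : Ω) : 1 / 2 ≤ acc r ω ∧ acc r ω ≤ 1 := by
  unfold acc
  obtain ⟨k, hk⟩ : ∃ k, (cls r ω).card = k + 1 := ⟨_, (Nat.succ_pred_eq_of_pos
    (cls_card_pos r ω)).symm⟩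
  rw [hk, Nat.add_sub_cancel]
  have h1 : k + 1 ≤ 2 ^ k.size := Nat.lt_size_self k
  have h2 : 2 ^ k.size ≤ 2 * (k + 1) := by
    rcases Nat.eq_zero_or_pos k with rfl | h
    · simp
    · have h3 : 0 < k.size := Nat.size_pos.2 h
      have h4 : 2 ^ (k.size - 1) ≤ k := Nat.lt_size.1 (by omega)
      obtain ⟨s, hs⟩ : ∃ s, k.size = s + 1 := ⟨k.size - 1, by omega⟩
      rw [hs] at h4 ⊢
      rw [Nat.add_sub_cancel] at h4
      rw [pow_succ]
      omega
  constructor
  · rw [div_le_div_iff₀ two_pos (by positivity), one_mul, mul_comm]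
    exact_mod_cast h2
  · rw [div_le_one (by positivity)]
    exact_mod_cast h1

theorem ex_last (a b : ι) (p q : κ) (ω : Ω) {K : ℕ} (hK : (∑ i, M.r i).size ≤ K) (f : Ω → ℝ) :
    f ω - ex K (fun ρ => f (M.last a b p q ω ρ)) =
      if a ≠ b ∧ p ≠ q then acc (M.box a b p q) ω * cdev (M.box a b p q) f ω else 0 := by
  split_ifs with h
  · obtain ⟨hab, hpq⟩ := h
    have h1 : len (M.x ω) a b p q ≤ ∑ i, M.r i := by
      have h2 := M.row ω a
      rw [sum_two hpq] at h2
      have h3 : M.r a ≤ ∑ i, M.r i :=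
        Finset.single_le_sum (fun i _ => Nat.zero_le (M.r i)) (mem_univ a)
      unfold len
      omega
    have h4 := ex_val_take ((Nat.size_le_size h1).trans hK) fun u =>
      f (if u ≤ len (M.x ω) a b p q then M.move a b p q ω u else ω)
    have h5 : len (M.x ω) a b p q + 1 ≤ 2 ^ (len (M.x ω) a b p q).size := Nat.lt_size_self _
    simp only [last, ne_eq, hab, hpq, not_false_eq_true, true_and]
    rw [h4, ← Finset.sum_range_add_sum_Ico _ h5,
      Finset.sum_congr rfl fun u hu => by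
        rw [if_pos (Nat.lt_succ_iff.1 (Finset.mem_range.1 hu))],
      Finset.sum_congr (s₁ := Ico _ _) rfl fun u hu => by
        rw [if_neg (not_le.2 (Finset.mem_Ico.1 hu).1)],
      ← M.sum_box hab hpq, Finset.sum_const, Nat.card_Ico, nsmul_eq_mul, Nat.cast_sub h5, acc,
      cdev_apply, cavg, M.card_box hab hpq, Nat.add_sub_cancel]
    push_cast
    field_simp
    ring
  · have h1 : ∀ ρ, M.last a b p q ω ρ = ω := fun ρ => if_neg fun e => h ⟨e.1, e.2.1⟩
    simp only [h1, ex_const, sub_self]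

end General

variable {Ω : Type} [Fintype Ω] {m n : ℕ} (M : Model Ω (Fin m) (Fin n))

/-- One step of the chain. -/
noncomputable def step (ω : Ω) (ρ : List Bool) : Ω :=
  pick m.size m ρ (fun a ρ => pick m.size m ρ (fun b ρ => pick n.size n ρ (fun p ρ =>
    pick n.size n ρ (fun q ρ => M.last a b p q ω ρ) ω) ω) ω) ω

/-- The number of coins for one step. -/
def coins (m n N : ℕ) : ℕ := m.size + (m.size + (n.size + (n.size + N.size)))

/-- The transition operator. -/
noncomputable def op : (Ω → ℝ) →ₗ[ℝ] (Ω → ℝ) where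
  toFun f ω := ex (coins m n (∑ i, M.r i)) fun ρ => f (M.step ω ρ)
  map_add' _ _ := funext fun _ => ex_add _ _ _
  map_smul' _ _ := funext fun _ => ex_mul _ _ _

theorem two_pow_size_le (k : ℕ) : 2 ^ k.size ≤ 2 * k + 1 := by
  rcases Nat.eq_zero_or_pos k with rfl | h
  · simp
  · have h3 : 0 < k.size := Nat.size_pos.2 h
    have h4 : 2 ^ (k.size - 1) ≤ k := Nat.lt_size.1 (by omega)
    obtain ⟨s, hs⟩ : ∃ s, k.size = s + 1 := ⟨k.size - 1, by omega⟩
    rw [hs] at h4 ⊢
    rw [Nat.add_sub_cancel] at h4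
    rw [pow_succ]
    omega

theorem good_op {κ : ℝ} (hκ : 1 ≤ κ)
    (hgap : ∀ f : Ω → ℝ, ∑ x, f x = 0 → ∑ x, f x ^ 2 ≤ κ * M.energy f) :
    UGood M.op ((1 / (2 ^ m.size * 2 ^ m.size * 2 ^ n.size * 2 ^ n.size)) / (2 * κ)) := by
  have hm : m ≤ 2 ^ m.size := (Nat.lt_size_self m).le
  have hn : n ≤ 2 ^ n.size := (Nat.lt_size_self n).le
  have hm' : (m : ℝ) ≤ 2 ^ m.size := by exact_mod_cast hm
  have hn' : (n : ℝ) ≤ 2 ^ n.size := by exact_mod_cast hn
  have h1m : (1 : ℝ) ≤ 2 ^ m.size := one_le_pow₀ one_le_two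
  have h1n : (1 : ℝ) ≤ 2 ^ n.size := one_le_pow₀ one_le_two
  refine good_mix (univ.filter fun j : Fin m × Fin m × Fin n × Fin n => j.1 ≠ j.2.1 ∧ j.2.2.1 ≠ j.2.2.2)
    (fun j => M.box j.1 j.2.1 j.2.2.1 j.2.2.2) (fun j => acc (M.box j.1 j.2.1 j.2.2.1 j.2.2.2))
    (fun j x y h => by unfold acc; rw [cls_eq h]) (fun j x => (acc_bounds _ x).1)
    (fun j x => (acc_bounds _ x).2) (by positivity) ?_ (by linarith) ?_ (fun f x => ?_)
    fun f hf => ?_
  · have h2 := Finset.card_filter_le (univ : Finset (Fin m × Fin m × Fin n × Fin n))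
      fun j => j.1 ≠ j.2.1 ∧ j.2.2.1 ≠ j.2.2.2
    simp only [Finset.card_univ, Fintype.card_prod, Fintype.card_fin] at h2
    rw [one_div, inv_mul_le_iff₀ (by positivity), mul_one]
    refine (Nat.cast_le.2 h2).trans ?_
    push_cast
    rw [mul_assoc, mul_assoc]
    gcongr
  · rw [div_le_one (by linarith), div_le_iff₀ (by positivity)]
    have h2 : (1 : ℝ) ≤ 2 ^ m.size * 2 ^ m.size * 2 ^ n.size * 2 ^ n.size :=
      one_le_mul_of_one_le_of_one_le (one_le_mul_of_one_le_of_one_le
        (one_le_mul_of_one_le_of_one_le h1m h1m) h1n) h1n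
    nlinarith
  · have h2 : f x - M.op f x = _ := ex_pick hm _ _ x f
    simp only [ex_pick hm, ex_pick hn, M.ex_last _ _ _ _ x le_rfl] at h2
    rw [Finset.sum_filter]
    simp only [Fintype.sum_prod_type, ← Finset.sum_div] at h2 ⊢
    rw [← sub_sub_cancel (f x) (M.op f x), h2]
    field_simp
  · rw [ip_self_eq_sum_sq, Finset.sum_filter]
    simp only [Fintype.sum_prod_type]
    exact hgap f hf

end Model

end Vale.Agent.P328
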