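import Vale.Agent.Lib.PTM.Defs
import Mathlib.Algebra.BigOperators.Fin
import Mathlib.Data.Fintype.Pi
import Mathlib.Data.Rat.Defs

/-!
Contingency tables, and the words which code the input and the output of the sampler.
-/

namespace Vale.Agent.P328

open Vale.Agent.Lib.PTM

/-- The set of the contingency tables with row sums `r` and column sums `c`, as a finite set (the
entries of row `i` are at most `r i`). -/
def tables {m n : ℕ} (r : Fin m → ℕ) (c : Fin n → ℕ) : Finset (Fin m → Fin n → ℕ) :=
  (Fintype.piFinset fun i => Fintype.piFinset fun _ => Finset.range (r i + 1)).filter fun X =>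
    (∀ i, ∑ j, X i j = r i) ∧ ∀ j, ∑ i, X i j = c j

/-- A list of words as one word (nested pairs). -/
def words : List (List Bool) → List Bool
  | [] => []
  | w :: l => pair w (words l)

/-- A vector of numbers, each in binary. -/
def vec {k : ℕ} (v : Fin k → ℕ) : List Bool := words (List.ofFn fun i => (v i).bits)

/-- A matrix of numbers, row after row. -/
def mat {m n : ℕ} (X : Fin m → Fin n → ℕ) : List Bool := words (List.ofFn fun i => vec (X i))

/-- A rational number: numerator and denominator in binary. -/
def rat (q : ℚ) : List Bool := pair q.num.natAbs.bits q.den.bits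

end Vale.Agent.P328
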