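import Vale.Agent.P328.GMass0

/-!
Elementary facts about the penalty, the heights, the box and the tables.
-/

namespace Vale.Agent.P328

open Finset

theorem two_pow_size_le' (k : ℕ) : 2 ^ k.size ≤ 2 * k + 1 := by
  rcases Nat.eq_zero_or_pos k with rfl | h
  · simp
  · have h3 : 0 < k.size := Nat.size_pos.2 h
    have h4 : 2 ^ (k.size - 1) ≤ k := Nat.lt_size.1 (by omega)
    obtain ⟨s, hs⟩ : ∃ s, k.size = s + 1 := ⟨k.size - 1, by omega⟩
    rw [hs] at h4 ⊢
    rw [Nat.add_sub_cancel] at h4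
    rw [pow_succ]
    omega

theorem mem_tables' {m n : ℕ} {r : Fin m → ℕ} {c : Fin n → ℕ} {X : Fin m → Fin n → ℕ} :
    X ∈ tables r c ↔ (∀ i, ∑ j, X i j = r i) ∧ ∀ j, ∑ i, X i j = c j := by
  unfold tables
  rw [Finset.mem_filter, and_iff_right_iff_imp]
  intro h
  simp only [Fintype.mem_piFinset, Finset.mem_range]
  intro i j
  rw [← h.1 i]
  exact Nat.lt_succ_of_le (Finset.single_le_sum (fun j _ => Nat.zero_le (X i j)) (mem_univ j))

namespace Par

variable {m n : ℕ} (P : Par m n)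

theorem r_le (i : Fin m) : P.r i ≤ P.N := single_le_sum (fun i _ => Nat.zero_le (P.r i)) (mem_univ i)

theorem c_le (j : Fin n) : P.c j ≤ P.N := by
  rw [N, P.hN]
  exact single_le_sum (fun i _ => Nat.zero_le (P.c i)) (mem_univ j)

theorem slope_ge (ρ : ℕ) : 4 * tau m n * (P.N + 1) ≤ P.slope ρ * lam m n ρ := P.slope_lam_ge ρ

theorem slope_le {ρ : ℕ} (h : ρ ≤ P.N) : P.slope ρ * lam m n ρ ≤ 8 * tau m n * (P.N + 1) := by
  have h1 : lam m n ρ ≤ P.N + 1 := Nat.succ_le_succ ((Nat.div_le_self _ _).trans h)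
  have h2 := Nat.div_mul_le_self (P.N + 1) (lam m n ρ)
  calc P.slope ρ * lam m n ρ = 4 * tau m n * ((P.N + 1) / lam m n ρ * lam m n ρ + lam m n ρ) := by
        unfold slope; ring
    _ ≤ 4 * tau m n * ((P.N + 1) + (P.N + 1)) := Nat.mul_le_mul_left _ (add_le_add h2 h1)
    _ = _ := by ring

theorem slope_le' {ρ : ℕ} (h : ρ ≤ P.N) : P.slope ρ ≤ 8 * tau m n * (P.N + 1) :=
  (Nat.le_mul_of_pos_right _ (Nat.succ_pos _)).trans (P.slope_le h)

theorem slope_mul_le {ρ u : ℕ} (h : ρ ≤ P.N) (hu : u ≤ ρ) :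
    P.slope ρ * u ≤ 8 * tau m n * (P.N + 1) * MM m n ^ 6 := by
  have h1 : ρ < lam m n ρ * MM m n ^ 6 := by
    rw [mul_comm]
    exact Nat.lt_mul_div_succ _ (pow_pos (MM_pos m n) 6)
  calc P.slope ρ * u ≤ P.slope ρ * (lam m n ρ * MM m n ^ 6) :=
        Nat.mul_le_mul_left _ (hu.trans h1.le)
    _ ≤ _ := by
        rw [← mul_assoc]
        exact Nat.mul_le_mul_right _ (P.slope_le h)

theorem slope_pos (ρ : ℕ) : 0 < P.slope ρ := by
  have := P.two_le_tau
  unfold slope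
  positivity

theorem pr_le (i : Fin m) : P.pr i ≤ 8 * tau m n * (P.N + 1) := by
  unfold pr
  split_ifs
  · exact Nat.zero_le _
  · exact P.slope_le' ((min_le_left _ _).trans (P.r_le i))

theorem pc_le (j : Fin n) : P.pc j ≤ 8 * tau m n * (P.N + 1) := by
  unfold pc
  split_ifs
  · exact Nat.zero_le _
  · exact P.slope_le' ((min_le_left _ _).trans (P.r_le _))

theorem pr_mul_le (a : Fin m × Fin n) :
    P.pr a.1 * min (P.r a.1) (P.c a.2) ≤ 8 * tau m n * (P.N + 1) * MM m n ^ 6 := by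
  unfold pr
  split_ifs
  · rw [zero_mul]; exact Nat.zero_le _
  · exact P.slope_mul_le ((min_le_left _ _).trans (P.r_le _)) (min_le_min le_rfl (P.hc _))

theorem pc_mul_le (a : Fin m × Fin n) :
    P.pc a.2 * min (P.r a.1) (P.c a.2) ≤ 8 * tau m n * (P.N + 1) * MM m n ^ 6 := by
  unfold pc
  split_ifs
  · rw [zero_mul]; exact Nat.zero_le _
  · exact P.slope_mul_le ((min_le_left _ _).trans (P.r_le _)) (min_le_min (P.hr _) le_rfl)

theorem p0_mul_le (a : Fin m × Fin n) :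
    P.p0 * min (P.r a.1) (P.c a.2) ≤ 8 * tau m n * (P.N + 1) * MM m n ^ 6 :=
  P.slope_mul_le ((min_le_left _ _).trans (P.r_le _)) (min_le_min (P.hr _) (P.hc _))

theorem pen_add_le (x y : Pt m n) :
    P.pen (fun a => x a + y a) ≤ P.pen x + ∑ a, y a * (P.pr a.1 + P.pc a.2) := by
  have h1 : ∑ a : Fin m × Fin n, y a * (P.pr a.1 + P.pc a.2) =
      ∑ i, P.pr i * ∑ j, y (i, j) + ∑ j, P.pc j * ∑ i, y (i, j) := by
    simp only [mul_add, sum_add_distrib, mul_sum]
    congr 1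
    · rw [Fintype.sum_prod_type]
      simp only [mul_comm]
    · rw [Fintype.sum_prod_type_right]
      simp only [mul_comm]
  have h2 : ∑ i, P.pr i * (∑ j, (x (i, j) + y (i, j)) - P.r i) ≤
      ∑ i, P.pr i * (∑ j, x (i, j) - P.r i) + ∑ i, P.pr i * ∑ j, y (i, j) := by
    rw [← sum_add_distrib]
    refine sum_le_sum fun i _ => ?_
    rw [← mul_add, sum_add_distrib]
    exact Nat.mul_le_mul_left _ (by omega)
  have h3 : ∑ j, P.pc j * (∑ i, (x (i, j) + y (i, j)) - P.c j) ≤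
      ∑ j, P.pc j * (∑ i, x (i, j) - P.c j) + ∑ j, P.pc j * ∑ i, y (i, j) := by
    rw [← sum_add_distrib]
    refine sum_le_sum fun i _ => ?_
    rw [← mul_add, sum_add_distrib]
    exact Nat.mul_le_mul_left _ (by omega)
  have h4 : P.p0 * (P.N - (P.r P.i0 + P.c P.j0 + ∑ a, (x a + y a))) ≤
      P.p0 * (P.N - (P.r P.i0 + P.c P.j0 + ∑ a, x a)) := by
    rw [sum_add_distrib]
    exact Nat.mul_le_mul_left _ (by omega)
  simp only [pen]
  omega

theorem pen_le_add (x y : Pt m n) :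
    P.pen x ≤ P.pen (fun a => x a + y a) + ∑ a, y a * P.p0 := by
  have h2 : ∑ i, P.pr i * (∑ j, x (i, j) - P.r i) ≤
      ∑ i, P.pr i * (∑ j, (x (i, j) + y (i, j)) - P.r i) := by
    refine sum_le_sum fun i _ => ?_
    rw [sum_add_distrib]
    exact Nat.mul_le_mul_left _ (by omega)
  have h3 : ∑ j, P.pc j * (∑ i, x (i, j) - P.c j) ≤
      ∑ j, P.pc j * (∑ i, (x (i, j) + y (i, j)) - P.c j) := by
    refine sum_le_sum fun i _ => ?_
    rw [sum_add_distrib]
    exact Nat.mul_le_mul_left _ (by omega)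
  have h4 : P.p0 * (P.N - (P.r P.i0 + P.c P.j0 + ∑ a, x a)) ≤
      P.p0 * (P.N - (P.r P.i0 + P.c P.j0 + ∑ a, (x a + y a))) + ∑ a, y a * P.p0 := by
    rw [← sum_mul, mul_comm _ P.p0, ← mul_add, sum_add_distrib]
    exact Nat.mul_le_mul_left _ (by omega)
  simp only [pen]
  omega

theorem pen_up_le (a : Fin m × Fin n) (x : Pt m n) :
    P.pen (up a x) ≤ P.pen x + 16 * tau m n * (P.N + 1) := by
  have h1 : up a x = fun b => x b + (if b = a then 1 else 0) := by
    funext b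
    by_cases hb : b = a
    · subst hb
      rw [up, Function.update_self, if_pos rfl]
    · rw [up, Function.update_of_ne hb, if_neg hb, add_zero]
  have h2 := P.pen_add_le x fun b => if b = a then 1 else 0
  simp only [ite_mul, one_mul, zero_mul, sum_ite_eq', mem_univ, if_true] at h2
  have h3 := P.pr_le a.1
  have h4 := P.pc_le a.2
  rw [h1]
  linarith

theorem del_mul_le (a : Fin m × Fin n) :
    P.del a * P.Kc a ≤ 2 * min (P.r a.1) (P.c a.2) + P.Kc a := by
  unfold del Kc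
  split_ifs
  · have h1 := two_pow_size_le' (min (P.r a.1) (P.c a.2) / MM m n ^ 13)
    have h2 := Nat.div_mul_le_self (min (P.r a.1) (P.c a.2)) (MM m n ^ 13)
    have h3 := Nat.mul_le_mul_right (MM m n ^ 13) h1
    rw [add_mul, one_mul, mul_assoc] at h3
    omega
  · omega

theorem lt_del_mul {a : Fin m × Fin n} (h : a.1 ≠ P.i0 ∧ a.2 ≠ P.j0) :
    min (P.r a.1) (P.c a.2) < P.del a * P.Kc a := by
  unfold del Kc
  rw [if_pos h, if_pos h, ← Nat.div_lt_iff_lt_mul (pow_pos (MM_pos m n) 13)]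
  exact Nat.lt_size_self _

theorem cube_mul_le {y : Pt m n} (hy : y ∈ P.cube) (a : Fin m × Fin n) :
    y a * MM m n ^ 13 ≤ 2 * min (P.r a.1) (P.c a.2) := by
  have h1 := mem_range.1 (Fintype.mem_piFinset.1 hy a)
  have h2 := P.del_mul_le a
  by_cases h : a.1 ≠ P.i0 ∧ a.2 ≠ P.j0
  · rw [Kc, if_pos h] at h2
    nlinarith [Nat.mul_le_mul_right (MM m n ^ 13) (Nat.succ_le_of_lt h1)]
  · rw [del, if_neg h] at h1
    rw [show y a = 0 by omega, zero_mul]
    exact Nat.zero_le _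

theorem sum_le_mul {F : Fin m × Fin n → ℕ} {B : ℕ} (h : ∀ a, F a ≤ B) :
    4 * ∑ a, F a ≤ MM m n ^ 2 * B := by
  have h1 := sum_le_card_nsmul univ F B fun a _ => h a
  rw [card_univ, Fintype.card_prod, Fintype.card_fin, Fintype.card_fin, smul_eq_mul] at h1
  have h2 := Nat.mul_le_mul_right B (four_mul_le m n)
  linarith

theorem cube_sum_le {y : Pt m n} (hy : y ∈ P.cube) {s : Fin m × Fin n → ℕ}
    (hs : ∀ a, s a * min (P.r a.1) (P.c a.2) ≤ 16 * tau m n * (P.N + 1) * MM m n ^ 6) :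
    2 * ∑ a, y a * s a ≤ P.N + 1 := by
  have h1 : ∀ a, y a * s a * MM m n ^ 13 ≤ 32 * (P.N + 1) * MM m n ^ 7 := fun a => by
    have h2 := Nat.mul_le_mul_left (s a) (P.cube_mul_le hy a)
    have h3 := hs a
    have h4 := Nat.mul_le_mul_right ((P.N + 1) * MM m n ^ 6) (tau_lt_MM m n).le
    calc y a * s a * MM m n ^ 13 = s a * (y a * MM m n ^ 13) := by ring
      _ ≤ 2 * (s a * min (P.r a.1) (P.c a.2)) := by linarith
      _ ≤ 32 * (tau m n * ((P.N + 1) * MM m n ^ 6)) := by linarith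
      _ ≤ 32 * (MM m n * ((P.N + 1) * MM m n ^ 6)) := by linarith
      _ = _ := by ring
  have h2 := sum_le_mul h1
  rw [← sum_mul] at h2
  have h3 : 4 ^ 4 ≤ MM m n ^ 4 := Nat.pow_le_pow_left P.four_le_MM 4
  have h4 := Nat.mul_le_mul_right ((P.N + 1) * MM m n ^ 9) h3
  refine Nat.le_of_mul_le_mul_right ?_ (pow_pos (MM_pos m n) 13)
  have h5 : MM m n ^ 2 * (32 * (P.N + 1) * MM m n ^ 7) = 32 * ((P.N + 1) * MM m n ^ 9) := by ring
  have h6 : MM m n ^ 4 * ((P.N + 1) * MM m n ^ 9) = (P.N + 1) * MM m n ^ 13 := by ring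
  rw [mul_assoc 2]
  omega

theorem pt_eq (k y : Pt m n) : P.pt k y = fun a => P.pt k 0 a + y a := by
  funext a
  simp [pt]

theorem pen_pt_le (k : Pt m n) {y : Pt m n} (hy : y ∈ P.cube) :
    2 * P.pen (P.pt k y) ≤ 2 * P.pen (P.pt k 0) + (P.N + 1) ∧
    2 * P.pen (P.pt k 0) ≤ 2 * P.pen (P.pt k y) + (P.N + 1) := by
  have h1 := P.pen_add_le (P.pt k 0) y
  have h2 := P.pen_le_add (P.pt k 0) y
  rw [← pt_eq] at h1 h2
  have h3 := P.cube_sum_le hy (s := fun a => P.pr a.1 + P.pc a.2) fun a => by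
    have := P.pr_mul_le a
    have := P.pc_mul_le a
    linarith
  have h4 := P.cube_sum_le hy (s := fun _ => P.p0) fun a => by
    have := P.p0_mul_le a
    have := Nat.zero_le (8 * tau m n * (P.N + 1) * MM m n ^ 6)
    linarith
  omega

theorem w_le (k : Pt m n) {y : Pt m n} (hy : y ∈ P.cube) :
    P.w k ≤ 4 * P.eta ^ P.pen (P.pt k y) := by
  have h1 := (P.pen_pt_le k hy).1
  have h2 : P.pen (P.pt k 0) < (P.N + 1) * (P.hgt k + 1) := Nat.lt_mul_div_succ _ (Nat.succ_pos _)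
  have h3 := pow_le_pow_of_le_one P.eta_pos.le P.eta_le_one
    (show P.pen (P.pt k y) ≤ (P.N + 1) * (P.hgt k + 2) by nlinarith)
  rw [pow_mul, eta_pow, pow_add] at h3
  unfold w
  linarith

theorem le_w (k : Pt m n) {y : Pt m n} (hy : y ∈ P.cube) :
    P.eta ^ P.pen (P.pt k y) ≤ 2 * P.w k := by
  have h1 := (P.pen_pt_le k hy).2
  have h2 : (P.N + 1) * P.hgt k ≤ P.pen (P.pt k 0) := Nat.mul_div_le _ _
  have h3 := pow_le_pow_of_le_one P.eta_pos.le P.eta_le_one
    (show (P.N + 1) * P.hgt k ≤ P.pen (P.pt k y) + (P.N + 1) by omega)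
  rw [← w_eq, pow_add, eta_pow] at h3
  linarith

theorem hgt_eq_zero (k : Pt m n) {y : Pt m n} (hy : y ∈ P.cube) (h : P.pen (P.pt k y) = 0) :
    P.hgt k = 0 := by
  have h1 := (P.pen_pt_le k hy).2
  exact Nat.div_eq_of_lt (by omega)

theorem N_le : P.N ≤ MM m n * min (P.r P.i0) (P.c P.j0) := by
  have h1 := sum_le_card_nsmul univ P.r _ fun i _ => P.hr i
  have h2 := sum_le_card_nsmul univ P.c _ fun i _ => P.hc i
  rw [card_univ, Fintype.card_fin, smul_eq_mul] at h1 h2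
  have h3 := lt_MM m n
  rw [← P.hN] at h2
  rw [← Nat.mul_min_mul_left]
  exact le_min (h1.trans (Nat.mul_le_mul_right _ (by omega)))
    (h2.trans (Nat.mul_le_mul_right _ (by omega)))

theorem Kc_le (a : Fin m × Fin n) : P.Kc a ≤ MM m n ^ 13 := by
  unfold Kc
  split_ifs
  · exact le_rfl
  · exact Nat.one_le_pow _ _ (MM_pos m n)

theorem hgt_le {k : Pt m n} (hk : k ∈ P.grid) : P.hgt k ≤ MM m n ^ 20 := by
  have hM := P.four_le_MM
  have ht := (tau_lt_MM m n).le
  have h1 := P.pen_add_le 0 (P.pt k 0)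
  simp only [Pi.zero_apply, zero_add] at h1
  have h2 : P.pen 0 ≤ 8 * tau m n * (P.N + 1) * MM m n ^ 7 := by
    simp only [pen, Pi.zero_apply, sum_const_zero, Nat.zero_sub, mul_zero, zero_add, add_zero]
    calc P.p0 * (P.N - (P.r P.i0 + P.c P.j0)) ≤ P.p0 * (MM m n * min (P.r P.i0) (P.c P.j0)) :=
          Nat.mul_le_mul_left _ ((Nat.sub_le _ _).trans P.N_le)
      _ = MM m n * (P.p0 * min (P.r P.i0) (P.c P.j0)) := by ring
      _ ≤ MM m n * (8 * tau m n * (P.N + 1) * MM m n ^ 6) :=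
          Nat.mul_le_mul_left _ (P.p0_mul_le (P.i0, P.j0))
      _ = _ := by ring
  have h3 : ∀ a, P.pt k 0 a * (P.pr a.1 + P.pc a.2) ≤
      48 * (tau m n * (P.N + 1) * MM m n ^ 13) := fun a => by
    have h4 := mem_range.1 (Fintype.mem_piFinset.1 hk a)
    have h5 : P.pt k 0 a ≤ 2 * min (P.r a.1) (P.c a.2) + MM m n ^ 13 := by
      have := P.del_mul_le a
      have := P.Kc_le a
      have := Nat.mul_le_mul_left (P.del a) h4.le
      simp only [pt, Pi.zero_apply]
      omega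
    have h6 := P.pr_mul_le a
    have h7 := P.pc_mul_le a
    have h8 := Nat.mul_le_mul_right (MM m n ^ 13) (P.pr_le a.1)
    have h9 := Nat.mul_le_mul_right (MM m n ^ 13) (P.pc_le a.2)
    have h10 : MM m n ^ 6 ≤ MM m n ^ 13 := Nat.pow_le_pow_right (MM_pos m n) (by norm_num)
    have h11 := Nat.mul_le_mul_left (tau m n * (P.N + 1)) h10
    have h12 := Nat.mul_le_mul_right (P.pr a.1 + P.pc a.2) h5
    nlinarith
  have h4 := sum_le_mul h3
  refine Nat.div_le_of_le_mul ?_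
  have h5 : MM m n ^ 7 ≤ MM m n ^ 15 := Nat.pow_le_pow_right (MM_pos m n) (by norm_num)
  have h6 := Nat.mul_le_mul_left (tau m n * (P.N + 1)) h5
  have h7 := Nat.mul_le_mul_right ((P.N + 1) * MM m n ^ 15) ht
  have h8 : 4 ^ 4 ≤ MM m n ^ 4 := Nat.pow_le_pow_left hM 4
  have h9 := Nat.mul_le_mul_right ((P.N + 1) * MM m n ^ 16) h8
  have e1 : MM m n ^ 2 * (48 * (tau m n * (P.N + 1) * MM m n ^ 13)) =
      48 * (tau m n * ((P.N + 1) * MM m n ^ 15)) := by ring
  have e2 : MM m n * ((P.N + 1) * MM m n ^ 15) = (P.N + 1) * MM m n ^ 16 := by ring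
  have e3 : MM m n ^ 4 * ((P.N + 1) * MM m n ^ 16) = (P.N + 1) * MM m n ^ 20 := by ring
  have e4 : 8 * tau m n * (P.N + 1) * MM m n ^ 7 = 8 * (tau m n * (P.N + 1) * MM m n ^ 7) := by
    ring
  have e5 : tau m n * (P.N + 1) * MM m n ^ 15 = tau m n * ((P.N + 1) * MM m n ^ 15) := by ring
  change P.pen (P.pt k 0) ≤ _ at h1
  omega

theorem card_grid_le : P.grid.card ≤ 2 ^ (MM m n ^ 5) := by
  have h1 := prod_le_pow_card univ P.Kc _ fun a _ => P.Kc_le a
  rw [card_univ, Fintype.card_prod, Fintype.card_fin, Fintype.card_fin, MM, ← pow_mul,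
    ← pow_mul] at h1
  simp only [grid, Fintype.card_piFinset, card_range]
  refine h1.trans (Nat.pow_le_pow_right two_pos ?_)
  have h2 := four_mul_le m n
  have h3 := (tau_lt_MM m n).le
  have h4 : 4 ^ 2 ≤ MM m n ^ 2 := Nat.pow_le_pow_left P.four_le_MM 2
  calc tau m n * (13 * (m * n)) ≤ MM m n * (MM m n ^ 2 * MM m n ^ 2) := by
        refine Nat.mul_le_mul h3 (Nat.mul_le_mul ?_ ?_) <;> omega
    _ = _ := by ring

theorem sum_box (F : Pt m n → ℝ) :
    ∑ x ∈ P.box, F x = ∑ k ∈ P.grid, ∑ y ∈ P.cube, F (P.pt k y) := by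
  rw [← sum_product']
  refine sum_nbij' (fun x => (fun a => x a / P.del a, fun a => x a % P.del a))
    (fun p => P.pt p.1 p.2) (fun x hx => ?_) (fun p hp => ?_) (fun x _ => ?_) (fun p hp => ?_)
    fun x _ => ?_
  · refine mem_product.2 ⟨Fintype.mem_piFinset.2 fun a => mem_range.2 ?_,
      Fintype.mem_piFinset.2 fun a => mem_range.2 (Nat.mod_lt _ (P.del_pos a))⟩
    exact Nat.div_lt_of_lt_mul (mem_range.1 (Fintype.mem_piFinset.1 hx a))
  · obtain ⟨h1, h2⟩ := mem_product.1 hp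
    refine Fintype.mem_piFinset.2 fun a => mem_range.2 ?_
    have h3 := mem_range.1 (Fintype.mem_piFinset.1 h1 a)
    have h4 := mem_range.1 (Fintype.mem_piFinset.1 h2 a)
    have h5 := Nat.mul_le_mul_left (P.del a) (Nat.succ_le_of_lt h3)
    rw [Nat.mul_succ] at h5
    unfold pt
    omega
  · funext a
    exact Nat.div_add_mod _ _
  · have h2 := fun a => mem_range.1 (Fintype.mem_piFinset.1 (mem_product.1 hp).2 a)
    refine Prod.ext (funext fun a => ?_) (funext fun a => ?_)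
    · simp only [pt]
      rw [Nat.mul_add_div (P.del_pos a), Nat.div_eq_of_lt (h2 a), add_zero]
    · simp only [pt]
      rw [Nat.mul_add_mod, Nat.mod_eq_of_lt (h2 a)]
  · congr 1
    funext a
    exact (Nat.div_add_mod _ _).symm

theorem pen_eq_zero {x : Pt m n} : P.pen x = 0 ↔ (∀ i, i ≠ P.i0 → ∑ j, x (i, j) ≤ P.r i) ∧
    (∀ j, j ≠ P.j0 → ∑ i, x (i, j) ≤ P.c j) ∧ P.N ≤ P.r P.i0 + P.c P.j0 + ∑ a, x a := by
  have h0 := fun ρ => (P.slope_pos ρ).ne'
  simp only [pen, Nat.add_eq_zero_iff, sum_eq_zero_iff, mem_univ, true_imp_iff, mul_eq_zero,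
    Nat.sub_eq_zero_iff_le, pr, pc, p0, h0, not_false_eq_true, ite_eq_left_iff, and_assoc, imp_false,
    not_not, or_iff_not_imp_left, ne_eq]

theorem tab_cast {x : Pt m n} (h : P.pen x = 0) (i : Fin m) (j : Fin n) :
    (P.tab x i j : ℤ) = P.itab x (i, j) := by
  obtain ⟨h1, h2, h3⟩ := P.pen_eq_zero.1 h
  unfold tab itab
  simp only [← Nat.cast_sum]
  split_ifs with hi hj hj
  · omega
  · have := h2 j hj
    omega
  · have := h1 i hi
    omega
  · rfl

theorem tab_mem {x : Pt m n} (hx : x ∈ P.box) (h : P.pen x = 0) : P.tab x ∈ tables P.r P.c := by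
  refine mem_tables'.2 ⟨fun i => ?_, fun j => ?_⟩
  · have h1 := P.itab_row hx i
    simp only [← P.tab_cast h] at h1
    exact_mod_cast h1
  · have h1 := P.itab_col hx j
    simp only [← P.tab_cast h] at h1
    exact_mod_cast h1

/-- The point of a table. -/
def untab (X : Fin m → Fin n → ℕ) : Pt m n := fun a =>
  if a.1 ≠ P.i0 ∧ a.2 ≠ P.j0 then X a.1 a.2 else 0

theorem untab_row {X : Fin m → Fin n → ℕ} (hX : X ∈ tables P.r P.c) {i : Fin m} (hi : i ≠ P.i0) :
    ∑ j, P.untab X (i, j) + X i P.j0 = P.r i := by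
  rw [← (mem_tables'.1 hX).1 i, ← sum_erase_add _ _ (mem_univ P.j0),
    ← sum_erase_add _ (X i) (mem_univ P.j0), untab, if_neg (by simp), add_zero]
  congr 1
  exact sum_congr rfl fun j hj => if_pos ⟨hi, ne_of_mem_erase hj⟩

theorem untab_col {X : Fin m → Fin n → ℕ} (hX : X ∈ tables P.r P.c) {j : Fin n} (hj : j ≠ P.j0) :
    ∑ i, P.untab X (i, j) + X P.i0 j = P.c j := by
  rw [← (mem_tables'.1 hX).2 j, ← sum_erase_add _ _ (mem_univ P.i0),
    ← sum_erase_add _ (fun i => X i j) (mem_univ P.i0), untab, if_neg (by simp), add_zero]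
  congr 1
  exact sum_congr rfl fun i hi => if_pos ⟨ne_of_mem_erase hi, hj⟩

theorem untab_all {X : Fin m → Fin n → ℕ} (hX : X ∈ tables P.r P.c) :
    P.r P.i0 + P.c P.j0 + ∑ a, P.untab X a = P.N + X P.i0 P.j0 := by
  have h1 : ∑ j, P.untab X (P.i0, j) = 0 := sum_eq_zero fun j _ => if_neg (by simp)
  have h2 := sum_congr (s₁ := univ.erase P.i0) rfl fun i hi => P.untab_row hX (ne_of_mem_erase hi)
  rw [sum_add_distrib] at h2
  rw [← (mem_tables'.1 hX).2 P.j0, Fintype.sum_prod_type, N, ← sum_erase_add _ _ (mem_univ P.i0),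
    ← sum_erase_add _ P.r (mem_univ P.i0), ← h2,
    ← sum_erase_add _ (fun i => ∑ j, P.untab X (i, j)) (mem_univ P.i0), h1]
  ring

theorem sum_tab (F : (Fin m → Fin n → ℕ) → ℝ) :
    ∑ x ∈ P.box with P.pen x = 0, F (P.tab x) = ∑ X ∈ tables P.r P.c, F X := by
  refine sum_nbij' P.tab P.untab (fun x hx => ?_) (fun X hX => ?_) (fun x hx => ?_)
    (fun X hX => ?_) fun _ _ => rfl
  · exact P.tab_mem (mem_filter.1 hx).1 (mem_filter.1 hx).2
  · refine mem_filter.2 ⟨Fintype.mem_piFinset.2 fun a => mem_range.2 ?_,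
      P.pen_eq_zero.2 ⟨fun i hi => ?_, fun j hj => ?_, ?_⟩⟩
    · unfold untab
      split_ifs with h
      · refine lt_of_le_of_lt (le_min ?_ ?_) (P.lt_del_mul h)
        · rw [← (mem_tables'.1 hX).1]
          exact single_le_sum (fun j _ => Nat.zero_le (X a.1 j)) (mem_univ _)
        · rw [← (mem_tables'.1 hX).2]
          exact single_le_sum (fun i _ => Nat.zero_le (X i a.2)) (mem_univ _)
      · exact mul_pos (P.del_pos a) (P.Kc_pos a)
    · exact le_of_add_le_left (P.untab_row hX hi).le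
    · exact le_of_add_le_left (P.untab_col hX hj).le
    · rw [P.untab_all hX]
      exact Nat.le_add_right _ _
  · funext a
    unfold untab
    split_ifs with h
    · rw [tab, if_neg h.1, if_neg h.2]
    · exact (P.slack_zero (mem_filter.1 hx).1 (by tauto)).symm
  · funext i j
    unfold tab
    split_ifs with hi hj hj
    · rw [P.untab_all hX, hi, hj, Nat.add_sub_cancel_left]
    · rw [← P.untab_col hX hj, hi, Nat.add_sub_cancel_left]
    · rw [← P.untab_row hX hi, hj, Nat.add_sub_cancel_left]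
    · exact if_pos ⟨hi, hj⟩

theorem Z_le : (∑ k ∈ P.grid, P.w k) * P.cube.card ≤ 8 * (tables P.r P.c).card :=
  P.Z_le_of (fun k _ hy => P.w_le k hy) P.sum_box

end Par

end Vale.Agent.P328
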