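import Vale.Agent.P328.GPoly
import Vale.Agent.P328.Bridge

/-!
From the facts on the coarse grid to the statement about probabilistic Turing machines.
-/

namespace Vale.Agent.P328

open Finset hiding val
open Vale.Agent.Lib.PTM Vale.Agent.Lib.PolyTime

/-- A polynomial time function of the input and the coins with the right law gives a machine. -/
theorem statement_of_sampler {t : Inp → ℕ} (ht : PT ∅ t) (ht' : PBd t)
    {f : Inp × List Bool → List (List ℕ)} (hf : PT ∅ f)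
    (H : ∀ (m n : ℕ) (r : Fin m → ℕ) (c : Fin n → ℕ) (ε : ℚ), 1 ≤ m → 1 ≤ n →
      ∑ i, r i = ∑ j, c j → ∃ g : List Bool → Fin m → Fin n → ℕ,
        (∀ ρ, g ρ ∈ tables r c ∧ enc (f (inp r c ε, ρ)) = mat (g ρ)) ∧
        ∑ X ∈ tables r c, |ex (t (inp r c ε)) (fun ρ => ind (g ρ = X)) - 1 / (tables r c).card| ≤
          2 * (1 / 2) ^ esize (inp r c ε)) : Statement := by
  obtain ⟨M, e, HM⟩ := exists_machine ht hf
  obtain ⟨d, hd⟩ := (PBd.esize.add ht').add (PBd.const 2)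
  refine ⟨M, 3 * (d * e), fun m n r c hm hn hrc ε h1 h2 L T hL hT out hout => ?_⟩
  have b1 := esize_le_mu r c hm hn h1 h2 (μ := L + Real.logb 2 (1 / (ε : ℝ)) + Real.logb 2 ε.num)
    (by rw [hL])
  have b2 : (esize (inp r c ε) + 2) ^ (d * e) ≤ T := by
    rw [pow_mul] at hT
    exact_mod_cast (pow_le_pow_left₀ (Nat.cast_nonneg _) b1 _).trans hT
  obtain ⟨h5, h6⟩ := HM (inp r c ε) T (le_trans (by
    rw [pow_mul]
    exact Nat.pow_le_pow_left (hd _) e) b2)
  obtain ⟨g, hg, h9⟩ := H m n r c ε hm hn hrc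
  simp only [code_eq] at hout
  simp only [hout]
  simp only [fun ρ => (hg ρ).2] at h6
  refine ⟨fun ρ => ⟨h5 ρ, ?_⟩, ?_⟩
  · refine all_of_frq (P := fun ρ => ∃ X ∈ tables r c, (M.run (enc (inp r c ε)) ρ).stk 0 = mat X)
      ?_ ρ
    rw [h6 fun w => ∃ X ∈ tables r c, w = mat X, frq_congr (Q := fun _ => True)
      fun ρ _ => iff_true_intro ⟨_, (hg ρ).1, rfl⟩, frq_const, ind, if_pos trivial]
  · have h10 := half_pow_le h1 (s := esize (inp r c ε)) (by rw [esize_inp]; omega)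
    refine le_trans (mul_le_mul_of_nonneg_left (le_trans (le_of_eq
      (Finset.sum_congr rfl fun y _ => ?_)) h9) (by norm_num)) (by linarith)
    rw [frq_eq T fun ρ => (M.run (enc (inp r c ε)) ρ).stk 0 = mat y,
      mul_div_cancel_right₀ _ (by positivity), h6 fun w => w = mat y, frq_eq_ex]
    congr 3
    funext ρ
    exact congrArg ind (propext ⟨mat_inj, fun h => by rw [h]⟩)

/-- **Bridge.** -/
theorem statement_of_facts (hF : ∀ (m n : ℕ) (P : Par m n), P.Facts) : Statement := by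
  have hD : PT ∅ fun x : Inp => ((x.1, x.2.1) : Dat) := PT.fst'.pair PT.snd'.fst
  have hs : PT ∅ fun x : Inp => esize x := PT.id.size
  refine statement_of_sampler (t := fun x => 16 * (esize x + 1) * tcoins (Dat.m (x.1, x.2.1))
    (Dat.n (x.1, x.2.1)) (Dat.N (x.1, x.2.1))
      (gsteps (Dat.m (x.1, x.2.1)) (Dat.n (x.1, x.2.1)) (esize x)))
    (PT.mul (PT.mul (PT.const 16) (PT.add hs (PT.const 1))) (Dat.pt_tcoins hD (Dat.pt_gsteps hD hs)))
    (((PBd.const 16).mul (PBd.esize.add (PBd.const 1))).mul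
      (Dat.pb_tcoins hD (Dat.pb_gsteps hD PBd.esize)))
    (f := fun p => Dat.output (p.1.1, p.1.2.1) (esize p.1) p.2)
    (Dat.pt_output (hD.comp PT.fst') (hs.comp PT.fst') (PBd.esize.comp (PT.fst' (A := ∅))) PT.snd')
    fun m n r c ε hm hn hrc => ?_
  obtain ⟨i0, hi, hr⟩ := amax_spec hm r
  obtain ⟨j0, hj, hc⟩ := amax_spec hn c
  have hR : Dat.Rel (List.ofFn r, List.ofFn c) (⟨r, c, i0, j0, hr, hc, hrc⟩ : Par m n) :=
    ⟨List.length_ofFn, List.length_ofFn, List.sum_ofFn, getD_ofFn r, getD_ofFn c, hi, hj⟩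
  have h1 := hF m n ⟨r, c, i0, j0, hr, hc, hrc⟩
  refine ⟨_, fun ρ => ⟨Par.output_mem h1 (first_mem hrc) _ ρ,
    hR.output h1 (first_mem hrc) (fun _ _ => rfl) _ ρ⟩, ?_⟩
  have h2 := Par.output_tv h1 (first_mem hrc) (esize (inp r c ε))
  rw [← hR.N] at h2
  simpa only [inp, hR.m, hR.n] using h2

end Vale.Agent.P328
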