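import Vale.Agent.P328.Defs
import Mathlib.Analysis.SpecialFunctions.Pow.Real
import Mathlib.Data.Nat.Size
import Mathlib.Tactic

/-!
The coarse grid, the penalty and the weights of the sampler for contingency tables.
The largest row `i0` and the largest column `j0` are slack; the other cells are the coordinates.
-/

namespace Vale.Agent.P328

open Finset

/-- Margins together with a largest row and a largest column. -/
structure Par (m n : ℕ) where
  r : Fin m → ℕ
  c : Fin n → ℕ
  i0 : Fin m
  j0 : Fin n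
  hr : ∀ i, r i ≤ r i0
  hc : ∀ j, c j ≤ c j0
  hN : ∑ i, r i = ∑ j, c j

/-- Points: a number for each cell. -/
abbrev Pt (m n : ℕ) : Type := Fin m × Fin n → ℕ

/-- Number of bits of an index. -/
def tau (m n : ℕ) : ℕ := Nat.size (m + n)

/-- A power of two above `m + n`. -/
def MM (m n : ℕ) : ℕ := 2 ^ tau m n

/-- The length over which the penalty of a slack cell of range `ρ` costs the factor `MM ^ 4`. -/
def lam (m n ρ : ℕ) : ℕ := ρ / MM m n ^ 6 + 1

/-- One step up in the coordinate `a`. -/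
def up {m n : ℕ} (a : Fin m × Fin n) (k : Pt m n) : Pt m n := Function.update k a (k a + 1)

namespace Par

variable {m n : ℕ} (P : Par m n)

/-- The total. -/
def N : ℕ := ∑ i, P.r i

/-- The slope of the penalty (in units of `1 / (N + 1)` bits) for a slack cell of range `ρ`. -/
def slope (ρ : ℕ) : ℕ := 4 * tau m n * ((P.N + 1) / lam m n ρ + 1)

/-- Slopes of the rows. -/
def pr (i : Fin m) : ℕ := if i = P.i0 then 0 else P.slope (min (P.r i) (P.c P.j0))

/-- Slopes of the columns. -/
def pc (j : Fin n) : ℕ := if j = P.j0 then 0 else P.slope (min (P.r P.i0) (P.c j))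

/-- Slope of the corner. -/
def p0 : ℕ := P.slope (min (P.r P.i0) (P.c P.j0))

/-- Number of blocks of a cell. -/
def Kc (a : Fin m × Fin n) : ℕ := if a.1 ≠ P.i0 ∧ a.2 ≠ P.j0 then MM m n ^ 13 else 1

/-- Length of the blocks of a cell. -/
def del (a : Fin m × Fin n) : ℕ :=
  if a.1 ≠ P.i0 ∧ a.2 ≠ P.j0 then 2 ^ Nat.size (min (P.r a.1) (P.c a.2) / MM m n ^ 13) else 1

/-- The penalty of a point. -/
def pen (x : Pt m n) : ℕ :=
  ∑ i, P.pr i * (∑ j, x (i, j) - P.r i) + ∑ j, P.pc j * (∑ i, x (i, j) - P.c j) +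
    P.p0 * (P.N - (P.r P.i0 + P.c P.j0 + ∑ a, x a))

/-- The point with block numbers `k` and offsets `y`. -/
def pt (k y : Pt m n) : Pt m n := fun a => P.del a * k a + y a

/-- The height of a point of the coarse grid. -/
def hgt (k : Pt m n) : ℕ := P.pen (P.pt k 0) / (P.N + 1)

/-- The coarse grid. -/
def grid : Finset (Pt m n) := Fintype.piFinset fun a => range (P.Kc a)

/-- The offsets. -/
def cube : Finset (Pt m n) := Fintype.piFinset fun a => range (P.del a)

/-- The fine box. -/
def box : Finset (Pt m n) := Fintype.piFinset fun a => range (P.del a * P.Kc a)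

/-- The weight of a point of the coarse grid. -/
noncomputable def w (k : Pt m n) : ℝ := (1 / 2) ^ P.hgt k

/-- The base of the weights of the fine box. -/
noncomputable def eta : ℝ := (1 / 2 : ℝ) ^ ((1 : ℝ) / (P.N + 1))

/-- The table of a point: the slack cells are filled in. -/
def tab (x : Pt m n) (i : Fin m) (j : Fin n) : ℕ :=
  if i = P.i0 then
    (if j = P.j0 then P.r P.i0 + P.c P.j0 + ∑ a, x a - P.N else P.c j - ∑ i', x (i', j))
  else if j = P.j0 then P.r i - ∑ j', x (i, j') else x (i, j)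

theorem eta_pos : 0 < P.eta := Real.rpow_pos_of_pos (by norm_num) _

theorem eta_le_one : P.eta ≤ 1 :=
  Real.rpow_le_one (by norm_num) (by norm_num) (by positivity)

theorem eta_pow : P.eta ^ (P.N + 1) = 1 / 2 := by
  unfold eta
  rw [← Real.rpow_natCast, ← Real.rpow_mul (by norm_num)]
  have h : (1 : ℝ) / (P.N + 1) * ((P.N + 1 : ℕ) : ℝ) = 1 := by
    push_cast
    field_simp
  rw [h, Real.rpow_one]

theorem w_pos (k : Pt m n) : 0 < P.w k := by unfold w; positivity

theorem w_le_one (k : Pt m n) : P.w k ≤ 1 := pow_le_one₀ (by norm_num) (by norm_num)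

theorem w_eq (k : Pt m n) : P.w k = P.eta ^ ((P.N + 1) * P.hgt k) := by
  rw [pow_mul, eta_pow, w]

theorem Kc_pos (a : Fin m × Fin n) : 0 < P.Kc a := by
  unfold Kc MM
  split_ifs <;> positivity

theorem del_pos (a : Fin m × Fin n) : 0 < P.del a := by
  unfold del
  split_ifs <;> positivity

include P in
theorem two_le_tau : 2 ≤ tau m n := by
  have h1 := P.i0.pos
  have h2 := P.j0.pos
  have : 1 < Nat.size (m + n) := Nat.lt_size.2 (by omega)
  exact this

include P in
theorem four_le_MM : 4 ≤ MM m n :=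
  (Nat.pow_le_pow_right (by norm_num) P.two_le_tau : 2 ^ 2 ≤ 2 ^ tau m n)

end Par

theorem lt_MM (m n : ℕ) : m + n < MM m n := Nat.lt_size_self _

theorem tau_lt_MM (m n : ℕ) : tau m n < MM m n := Nat.lt_two_pow_self

theorem MM_pos (m n : ℕ) : 0 < MM m n := by unfold MM; positivity

theorem MM_le {m n : ℕ} (h : 0 < m + n) : MM m n ≤ 2 * (m + n) := by
  have h1 : 0 < Nat.size (m + n) := Nat.size_pos.2 h
  have h2 : 2 ^ (Nat.size (m + n) - 1) ≤ m + n := Nat.lt_size.1 (by omega)
  unfold MM tau
  obtain ⟨s, hs⟩ : ∃ s, Nat.size (m + n) = s + 1 := ⟨_, (Nat.succ_pred_eq_of_pos h1).symm⟩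
  rw [hs] at h2 ⊢
  rw [pow_succ]
  simp only [Nat.add_sub_cancel] at h2
  omega

theorem four_mul_le (m n : ℕ) : 4 * (m * n) ≤ MM m n ^ 2 := by
  have h := lt_MM m n
  have h1 : 4 * (m * n) ≤ (m + n) ^ 2 := by
    nlinarith [sq_nonneg ((m : ℤ) - n)]
  exact h1.trans (Nat.pow_le_pow_left h.le 2)

end Vale.Agent.P328
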