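import Vale.Agent.P328.GMix
import Vale.Agent.P328.GDefs
import Vale.Agent.P328.Chain

/-!
The Metropolis chain on the coarse grid, driven by coins.
-/

namespace Vale.Agent.P328

open Finset hiding val
open Vale.Agent.Lib.PTM Vale.Agent.Lib.PolyTime

/-- The number of coins for one step of the chain on the coarse grid. -/
def gcoins (m n : ℕ) : ℕ := tau m n + (tau m n + (MM m n ^ 20 + 1))

namespace Par

variable {m n : ℕ} (P : Par m n)

/-- The facts on the grid and the weights which the analysis of the sampler uses. -/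
structure Facts : Prop where
  hgt_le : ∀ {k : Pt m n}, k ∈ P.grid → P.hgt k ≤ MM m n ^ 20
  card_grid_le : P.grid.card ≤ 2 ^ (MM m n ^ 5)
  poincare : ∀ f : Pt m n → ℝ, ∃ c0 : ℝ, ∑ k ∈ P.grid, P.w k * (f k - c0) ^ 2 ≤
    (MM m n : ℝ) ^ 60 * ∑ a, ∑ k ∈ P.grid with k a + 1 < P.Kc a,
      min (P.w k) (P.w (up a k)) * (f (up a k) - f k) ^ 2
  Z_le : (∑ k ∈ P.grid, P.w k) * P.cube.card ≤ 8 * (tables P.r P.c).card
  hgt_eq_zero : ∀ (k : Pt m n) {y : Pt m n}, y ∈ P.cube → P.pen (P.pt k y) = 0 → P.hgt k = 0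
  sum_box : ∀ F : Pt m n → ℝ, ∑ x ∈ P.box, F x = ∑ k ∈ P.grid, ∑ y ∈ P.cube, F (P.pt k y)
  sum_tab : ∀ F : (Fin m → Fin n → ℕ) → ℝ,
    ∑ x ∈ P.box with P.pen x = 0, F (P.tab x) = ∑ X ∈ tables P.r P.c, F X
  tab_mem : ∀ {x : Pt m n}, x ∈ P.box → P.pen x = 0 → P.tab x ∈ tables P.r P.c

/-- The move of the coordinate `a` to the value `v`, with the Metropolis filter. -/
def gtry (a : Fin m × Fin n) (k : Pt m n) (v : ℕ) (ρ : List Bool) : Pt m n :=
  if v < P.Kc a ∧ val (ρ.take (P.hgt (Function.update k a v) - P.hgt k)) = 0 then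
    Function.update k a v else k

/-- One step of the chain. -/
def gstep (k : Pt m n) (ρ : List Bool) : Pt m n :=
  pick (tau m n) m ρ (fun i ρ => pick (tau m n) n ρ (fun j ρ => P.gtry (i, j) k
    (if ρ.headD false then k (i, j) + 1 else k (i, j) - 1) ρ.tail) k) k

theorem mem_grid_iff {k : Pt m n} : k ∈ P.grid ↔ ∀ a, k a < P.Kc a := by
  simp only [grid, Fintype.mem_piFinset, Finset.mem_range]

theorem update_mem {k : Pt m n} (hk : k ∈ P.grid) {a : Fin m × Fin n} {v : ℕ} (hv : v < P.Kc a) :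
    Function.update k a v ∈ P.grid := by
  rw [mem_grid_iff] at hk ⊢
  intro b
  by_cases h : b = a
  · rw [h, Function.update_self]
    exact hv
  · rw [Function.update_of_ne h]
    exact hk b

theorem gstep_mem {k : Pt m n} (hk : k ∈ P.grid) (ρ : List Bool) : P.gstep k ρ ∈ P.grid := by
  unfold gstep pick
  split_ifs
  · dsimp only
    split_ifs <;> first | exact hk | skip
    all_goals
      unfold gtry
      split_ifs with h
      · exact P.update_mem hk h.1
      · exact hk
  · exact hk

theorem zero_mem_grid : (0 : Pt m n) ∈ P.grid := P.mem_grid_iff.2 fun a => P.Kc_pos a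

theorem w_mul (k k' : Pt m n) :
    P.w k * (1 / 2) ^ (P.hgt k' - P.hgt k) = min (P.w k) (P.w k') := by
  unfold w
  rcases le_total (P.hgt k) (P.hgt k') with h | h
  · rw [← pow_add, Nat.add_sub_cancel' h,
      min_eq_right (pow_le_pow_of_le_one (by norm_num) (by norm_num) h)]
  · rw [Nat.sub_eq_zero_of_le h, pow_zero, mul_one,
      min_eq_left (pow_le_pow_of_le_one (by norm_num) (by norm_num) h)]

variable {P}

theorem ex_gtry (hF : P.Facts) {k : Pt m n} (hk : k ∈ P.grid) (a : Fin m × Fin n) (v : ℕ)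
    (f : Pt m n → ℝ) : P.w k * (f k - ex (MM m n ^ 20) fun ρ => f (P.gtry a k v ρ)) =
      if v < P.Kc a then min (P.w k) (P.w (Function.update k a v)) *
        (f k - f (Function.update k a v)) else 0 := by
  unfold gtry
  split_ifs with h
  · have h1 : P.hgt (Function.update k a v) - P.hgt k ≤ MM m n ^ 20 :=
      (Nat.sub_le _ _).trans (hF.hgt_le (P.update_mem hk h))
    rw [ex_val_take h1 fun u => f (if v < P.Kc a ∧ u = 0 then Function.update k a v else k),
      ← w_mul]
    obtain ⟨s, hs⟩ : ∃ s, 2 ^ (P.hgt (Function.update k a v) - P.hgt k) = s + 1 :=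
      ⟨_, (Nat.succ_pred_eq_of_pos (by positivity)).symm⟩
    have hs' : (2 : ℝ) ^ (P.hgt (Function.update k a v) - P.hgt k) = s + 1 := by exact_mod_cast hs
    rw [hs, Finset.sum_range_succ', one_div_pow, hs']
    simp only [h, true_and, Nat.succ_ne_zero, if_false, if_true, Finset.sum_const,
      Finset.card_range, nsmul_eq_mul]
    field_simp
    ring
  · simp only [h, false_and, if_false, ex_const, sub_self, mul_zero]

variable (P)

/-- The transition operator. -/
noncomputable def gop : (Pt m n → ℝ) →ₗ[ℝ] (Pt m n → ℝ) where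
  toFun f k := ex (gcoins m n) fun ρ => f (P.gstep k ρ)
  map_add' _ _ := funext fun _ => ex_add _ _ _
  map_smul' _ _ := funext fun _ => ex_mul _ _ _

/-- The Dirichlet form. -/
noncomputable def dir (f g : Pt m n → ℝ) : ℝ := ∑ a, ∑ k ∈ P.grid with k a + 1 < P.Kc a,
  min (P.w k) (P.w (up a k)) * ((f (up a k) - f k) * (g (up a k) - g k))

theorem sum_up (a : Fin m × Fin n) (F : Pt m n → Pt m n → ℝ) :
    ∑ k ∈ P.grid with k a + 1 < P.Kc a, F k (up a k) =
      ∑ k ∈ P.grid with k a ≠ 0, F (Function.update k a (k a - 1)) k := by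
  refine Finset.sum_nbij' (up a) (fun k => Function.update k a (k a - 1)) (fun k hk => ?_)
    (fun k hk => ?_) (fun k _ => ?_) (fun k hk => ?_) fun k _ => ?_
  · rw [Finset.mem_filter] at hk ⊢
    exact ⟨P.update_mem hk.1 hk.2, by simp [up]⟩
  · rw [Finset.mem_filter] at hk ⊢
    have h1 := P.mem_grid_iff.1 hk.1 a
    have h2 := hk.2
    exact ⟨P.update_mem hk.1 (by omega), by rw [Function.update_self]; omega⟩
  · simp [up]
  · have h2 := (Finset.mem_filter.1 hk).2
    rw [up, Function.update_self, Function.update_idem, Nat.sub_add_cancel (by omega),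
      Function.update_eq_self]
  · simp [up]

variable {P}

theorem wip_gop (hF : P.Facts) (f g : Pt m n → ℝ) : wip P.grid P.w g (P.gop f) =
    wip P.grid P.w g f - P.dir f g / (2 * (MM m n : ℝ) ^ 2) := by
  have hm : m ≤ 2 ^ tau m n := le_trans (by omega) (lt_MM m n).le
  have hn : n ≤ 2 ^ tau m n := le_trans (by omega) (lt_MM m n).le
  have hM : (MM m n : ℝ) = 2 ^ tau m n := by simp [MM]
  have h1 : ∀ k ∈ P.grid, P.w k * (g k * P.gop f k) = P.w k * (g k * f k) -
      (∑ a, ((if k a + 1 < P.Kc a then min (P.w k) (P.w (up a k)) * (f k - f (up a k)) * g k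
        else 0) + if k a ≠ 0 then min (P.w k) (P.w (Function.update k a (k a - 1))) *
        (f k - f (Function.update k a (k a - 1))) * g k else 0)) / (2 * (MM m n : ℝ) ^ 2) := by
    intro k hk
    have h2 : f k - P.gop f k = _ := ex_pick hm _ _ k f
    simp only [ex_pick hn, ex_succ, List.headD_cons, List.tail_cons, Bool.false_eq_true, if_false,
      if_true, ← Finset.sum_div] at h2
    rw [← Fintype.sum_prod_type' (f := fun i j => f k - ((ex (MM m n ^ 20) fun ρ =>
      f (P.gtry (i, j) k (k (i, j) - 1) ρ)) + ex (MM m n ^ 20) fun ρ =>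
        f (P.gtry (i, j) k (k (i, j) + 1) ρ)) / 2)] at h2
    rw [← sub_sub_cancel (f k) (P.gop f k), h2, mul_sub (g k), mul_sub (P.w k), hM]
    congr 1
    rw [div_div, ← mul_div_assoc, ← mul_div_assoc, Finset.mul_sum, Finset.mul_sum,
      div_eq_div_iff (by positivity) (by positivity), Finset.sum_mul, Finset.sum_mul]
    refine Finset.sum_congr rfl fun a _ => ?_
    have h3 := ex_gtry hF hk a (k a + 1) f
    have h4 := ex_gtry hF hk a (k a - 1) f
    have h5 := P.mem_grid_iff.1 hk a
    rw [if_pos (by omega)] at h4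
    have h6 : (if k a ≠ 0 then min (P.w k) (P.w (Function.update k a (k a - 1))) *
        (f k - f (Function.update k a (k a - 1))) * g k else 0) =
        min (P.w k) (P.w (Function.update k a (k a - 1))) *
        (f k - f (Function.update k a (k a - 1))) * g k := by
      split_ifs with h
      · rfl
      · rw [show k a - 1 = k a by omega, Function.update_eq_self, sub_self, mul_zero, zero_mul]
    rw [h6, ← h4, ← ite_zero_mul, up, ← h3]
    ring
  unfold wip
  rw [Finset.sum_congr rfl h1, Finset.sum_sub_distrib, ← Finset.sum_div, Finset.sum_comm, dir]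
  congr 2
  refine Finset.sum_congr rfl fun a _ => ?_
  rw [Finset.sum_add_distrib, ← Finset.sum_filter, ← Finset.sum_filter,
    ← P.sum_up a fun k k' => min (P.w k') (P.w k) * (f k' - f k) * g k', ← Finset.sum_add_distrib]
  refine Finset.sum_congr rfl fun k _ => ?_
  rw [min_comm (P.w (up a k))]
  ring

theorem dir_le (f : Pt m n → ℝ) : P.dir f f ≤ (MM m n : ℝ) ^ 2 * wip P.grid P.w f f := by
  have h0 : ∀ k, 0 ≤ P.w k * (f k * f k) := fun k => mul_nonneg (P.w_pos k).le (mul_self_nonneg _)
  have h1 : ∀ a, ∑ k ∈ P.grid with k a + 1 < P.Kc a, min (P.w k) (P.w (up a k)) *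
      ((f (up a k) - f k) * (f (up a k) - f k)) ≤ 4 * wip P.grid P.w f f := by
    intro a
    have h2 : ∑ k ∈ P.grid with k a + 1 < P.Kc a, P.w k * (f k * f k) ≤ wip P.grid P.w f f :=
      Finset.sum_le_sum_of_subset_of_nonneg (Finset.filter_subset _ _) fun k _ _ => h0 k
    have h3 : ∑ k ∈ P.grid with k a + 1 < P.Kc a, P.w (up a k) * (f (up a k) * f (up a k)) ≤
        wip P.grid P.w f f := by
      rw [P.sum_up a fun _ k => P.w k * (f k * f k)]
      exact Finset.sum_le_sum_of_subset_of_nonneg (Finset.filter_subset _ _) fun k _ _ => h0 k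
    refine le_trans (Finset.sum_le_sum (g := fun k => 2 * (P.w k * (f k * f k)) +
      2 * (P.w (up a k) * (f (up a k) * f (up a k)))) fun k _ => ?_) ?_
    · have h4 := mul_le_mul_of_nonneg_right (min_le_left (P.w k) (P.w (up a k)))
        (mul_self_nonneg (f k))
      have h5 := mul_le_mul_of_nonneg_right (min_le_right (P.w k) (P.w (up a k)))
        (mul_self_nonneg (f (up a k)))
      have h6 := mul_nonneg (le_min (P.w_pos k).le (P.w_pos (up a k)).le)
        (mul_self_nonneg (f (up a k) + f k))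
      linarith
    · rw [Finset.sum_add_distrib, ← Finset.mul_sum, ← Finset.mul_sum]
      linarith
  refine (Finset.sum_le_sum fun a _ => h1 a).trans ?_
  rw [Finset.sum_const, Finset.card_univ, Fintype.card_prod, Fintype.card_fin, Fintype.card_fin,
    nsmul_eq_mul, ← mul_assoc]
  refine mul_le_mul_of_nonneg_right ?_ (Finset.sum_nonneg fun k _ => h0 k)
  rw [mul_comm]
  exact_mod_cast four_mul_le m n

theorem wgood_gop (hF : P.Facts) : WGood P.grid P.w P.gop (1 / (2 * (MM m n : ℝ) ^ 62)) := by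
  have hM : (1 : ℝ) ≤ MM m n := by exact_mod_cast MM_pos m n
  refine ⟨P.w_pos, fun f g => ?_, funext fun _ => ex_const _ _, fun f => ?_, ?_, fun f hf => ?_⟩
  · rw [wip_comm, wip_gop hF, wip_gop hF, wip_comm]
    congr 2
    exact Finset.sum_congr rfl fun a _ => Finset.sum_congr rfl fun k _ => by ring
  · have h1 := dir_le (P := P) f
    have h2 : 0 ≤ wip P.grid P.w f f :=
      Finset.sum_nonneg fun k _ => mul_nonneg (P.w_pos k).le (mul_self_nonneg _)
    rw [wip_gop hF, sub_nonneg, div_le_iff₀ (by positivity)]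
    nlinarith [mul_nonneg h2 (sq_nonneg (MM m n : ℝ))]
  · rw [div_le_one (by positivity)]
    have := one_le_pow₀ (n := 62) hM
    linarith
  · obtain ⟨c0, h1⟩ := hF.poincare f
    have h2 : wip P.grid P.w f f ≤ ∑ k ∈ P.grid, P.w k * (f k - c0) ^ 2 := by
      have h3 : wip P.grid P.w f f = ∑ k ∈ P.grid, (P.w k * (f k * f k) -
          2 * c0 * (P.w k * (f k * 1))) := by
        rw [Finset.sum_sub_distrib, ← Finset.mul_sum]
        unfold wip at hf ⊢
        rw [hf, mul_zero, sub_zero]
      rw [h3]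
      refine Finset.sum_le_sum fun k _ => ?_
      have := mul_nonneg (P.w_pos k).le (sq_nonneg c0)
      linarith
    have h4 : wip P.grid P.w f f ≤ (MM m n : ℝ) ^ 60 * P.dir f f := by
      simpa only [dir, ← sq] using h2.trans h1
    rw [wip_gop hF, sub_mul, one_mul, sub_le_sub_iff_left, div_mul_eq_mul_div, one_mul,
      div_le_div_iff₀ (by positivity) (by positivity)]
    calc wip P.grid P.w f f * (2 * (MM m n : ℝ) ^ 2)
        ≤ (MM m n : ℝ) ^ 60 * P.dir f f * (2 * (MM m n : ℝ) ^ 2) :=
          mul_le_mul_of_nonneg_right h4 (by positivity)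
      _ = _ := by ring

theorem Z_le_w0 (hF : P.Facts) : ∑ k ∈ P.grid, P.w k ≤ 4 ^ (MM m n ^ 20) * P.w 0 := by
  have h1 : ∑ k ∈ P.grid, P.w k ≤ (2 : ℝ) ^ (MM m n ^ 20) := by
    refine (Finset.sum_le_card_nsmul _ _ 1 fun k _ => P.w_le_one k).trans ?_
    rw [nsmul_eq_mul, mul_one]
    exact_mod_cast hF.card_grid_le.trans (Nat.pow_le_pow_right two_pos
      (Nat.pow_le_pow_right (MM_pos m n) (by norm_num)))
  have h2 : (1 / 2 : ℝ) ^ (MM m n ^ 20) ≤ P.w 0 :=
    pow_le_pow_of_le_one (by norm_num) (by norm_num) (hF.hgt_le P.zero_mem_grid)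
  refine h1.trans (le_trans (le_of_eq ?_) (mul_le_mul_of_nonneg_left h2 (by positivity)))
  rw [← mul_pow]
  norm_num

end Par

end Vale.Agent.P328
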