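import Vale.Agent.P328.GDefs

/-!
Extended tables: integer matrices with given margins whose negative entries are penalised.
The total weight is at most twice the number of tables.
-/

namespace Vale.Agent.P328

open Finset

section Ext

variable {m n : ℕ}

/-- Integer matrices with margins `r`, `c` and entries at least `-A`. -/
noncomputable def ext (r : Fin m → ℕ) (c : Fin n → ℕ) (A : ℕ) : Finset (Fin m × Fin n → ℤ) :=
  (Fintype.piFinset fun a : Fin m × Fin n => Icc (-(A : ℤ)) (r a.1 + n * A)).filter fun Y =>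
    (∀ i, ∑ j, Y (i, j) = r i) ∧ ∀ j, ∑ i, Y (i, j) = c j

theorem mem_ext {r : Fin m → ℕ} {c : Fin n → ℕ} {A : ℕ} {Y : Fin m × Fin n → ℤ} :
    Y ∈ ext r c A ↔ (∀ a, -(A : ℤ) ≤ Y a) ∧ (∀ i, ∑ j, Y (i, j) = r i) ∧
      ∀ j, ∑ i, Y (i, j) = c j := by
  unfold ext
  simp only [mem_filter, Fintype.mem_piFinset, mem_Icc]
  refine ⟨fun h => ⟨fun a => (h.1 a).1, h.2⟩, fun h => ⟨fun a => ⟨h.1 a, ?_⟩, h.2⟩⟩
  obtain ⟨i, j⟩ := a
  have h1 : Y (i, j) + A ≤ ∑ j', (Y (i, j') + A) :=
    single_le_sum (f := fun j' => Y (i, j') + A) (fun j' _ => by linarith [h.1 (i, j')])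
      (mem_univ j)
  rw [sum_add_distrib, h.2.1 i] at h1
  simp only [sum_const, card_univ, Fintype.card_fin, nsmul_eq_mul] at h1
  have : (0 : ℤ) ≤ A := Int.natCast_nonneg _
  linarith

/-- The weight of an extended table. -/
noncomputable def om (e : Fin m × Fin n → ℝ) (Y : Fin m × Fin n → ℤ) : ℝ :=
  ∏ a, e a ^ (-Y a).toNat

/-- The weight off the cell `s`. -/
noncomputable def omS (e : Fin m × Fin n → ℝ) (s : Fin m × Fin n) (Y : Fin m × Fin n → ℤ) : ℝ :=
  ∏ a ∈ univ.erase s, e a ^ (-Y a).toNat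

/-- The weight of the extended tables with value `t` at `s`. -/
noncomputable def nn (r : Fin m → ℕ) (c : Fin n → ℕ) (A : ℕ) (e : Fin m × Fin n → ℝ)
    (s : Fin m × Fin n) (t : ℤ) : ℝ :=
  ∑ Y ∈ ext r c A with Y s = t, omS e s Y

variable {r : Fin m → ℕ} {c : Fin n → ℕ} {A : ℕ} {e : Fin m × Fin n → ℝ}

theorem om_eq (s : Fin m × Fin n) (Y : Fin m × Fin n → ℤ) :
    om e Y = e s ^ (-Y s).toNat * omS e s Y :=
  (mul_prod_erase univ (fun a => e a ^ (-Y a).toNat) (mem_univ s)).symm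

theorem om_nonneg (h0 : ∀ a, 0 ≤ e a) (Y : Fin m × Fin n → ℤ) : 0 ≤ om e Y :=
  prod_nonneg fun a _ => pow_nonneg (h0 a) _

theorem omS_nonneg (h0 : ∀ a, 0 ≤ e a) (s : Fin m × Fin n) (Y : Fin m × Fin n → ℤ) :
    0 ≤ omS e s Y :=
  prod_nonneg fun a _ => pow_nonneg (h0 a) _

theorem nn_nonneg (h0 : ∀ a, 0 ≤ e a) (s : Fin m × Fin n) (t : ℤ) : 0 ≤ nn r c A e s t :=
  sum_nonneg fun Y _ => omS_nonneg h0 s Y

/-- The difference of two unit vectors. -/
def sg {k : ℕ} (i p a : Fin k) : ℤ := (if a = i then 1 else 0) - if a = p then 1 else 0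

theorem sum_sg {k : ℕ} (i p : Fin k) : ∑ a, sg i p a = 0 := by
  simp [sg, sum_sub_distrib]

/-- The move on four cells. -/
def emv (i p : Fin m) (j q : Fin n) (l : ℤ) (Y : Fin m × Fin n → ℤ) : Fin m × Fin n → ℤ :=
  fun a => Y a + l * (sg i p a.1 * sg j q a.2)

theorem mv_inj (i p : Fin m) (j q : Fin n) (l : ℤ) : Function.Injective (emv i p j q l) := by
  intro Y Y' h
  funext a
  exact add_right_cancel (congrFun h a)

theorem mv_ge {i p : Fin m} {j q : Fin n} {l : ℤ} {Y : Fin m × Fin n → ℤ} (hp : p ≠ i)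
    (hq : q ≠ j) (hl : 0 ≤ l) (h1 : l ≤ Y (i, q)) (h2 : l ≤ Y (p, j)) (a : Fin m × Fin n) :
    Y a ≤ emv i p j q l Y a ∨ 0 ≤ emv i p j q l Y a := by
  obtain ⟨a, b⟩ := a
  unfold emv sg
  by_cases ha : a = i
  · subst ha
    by_cases hb : b = j
    · subst hb
      simp [hp.symm, hq.symm, hl]
    · by_cases hb' : b = q
      · subst hb'
        simp [hp.symm, hq, h1]
      · simp [hb, hb']
  · by_cases ha' : a = p
    · subst ha'
      by_cases hb : b = j
      · subst hb
        simp [hp, hq.symm, h2]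
      · by_cases hb' : b = q
        · subst hb'
          simp [hp, hq, hl]
        · simp [hb, hb']
    · simp [ha, ha']

theorem mv_mem {i p : Fin m} {j q : Fin n} {l : ℤ} {Y : Fin m × Fin n → ℤ} (hp : p ≠ i)
    (hq : q ≠ j) (hl : 0 ≤ l) (h1 : l ≤ Y (i, q)) (h2 : l ≤ Y (p, j)) (hY : Y ∈ ext r c A) :
    emv i p j q l Y ∈ ext r c A := by
  rw [mem_ext] at hY ⊢
  refine ⟨fun a => ?_, fun a => ?_, fun b => ?_⟩
  · have := hY.1 a
    have h0 : (0 : ℤ) ≤ A := Int.natCast_nonneg _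
    rcases mv_ge hp hq hl h1 h2 a with h | h <;> linarith
  · simp only [emv]
    rw [sum_add_distrib, hY.2.1 a, ← mul_sum, ← mul_sum, sum_sg]
    simp
  · simp only [emv]
    rw [sum_add_distrib, hY.2.2 b, ← mul_sum, ← sum_mul, sum_sg]
    simp

theorem omS_le_mv (h0 : ∀ a, 0 ≤ e a) (h1 : ∀ a, e a ≤ 1) {i p : Fin m} {j q : Fin n} {l : ℤ}
    {Y : Fin m × Fin n → ℤ} (hp : p ≠ i) (hq : q ≠ j) (hl : 0 ≤ l) (hq' : l ≤ Y (i, q))
    (hp' : l ≤ Y (p, j)) (s : Fin m × Fin n) : omS e s Y ≤ omS e s (emv i p j q l Y) := by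
  refine prod_le_prod (fun a _ => pow_nonneg (h0 a) _) fun a _ => ?_
  refine pow_le_pow_of_le_one (h0 a) (h1 a) ?_
  rcases mv_ge hp hq hl hq' hp' a with h | h <;> omega

theorem exists_big {k : ℕ} (f : Fin k → ℤ) (j : Fin k) {M l : ℤ} (hM : (k : ℤ) ≤ M) (hl : 1 ≤ l)
    (h : M * (l - 1) < ∑ q, f q - f j) : ∃ q, q ≠ j ∧ l ≤ f q := by
  by_contra hcon
  push Not at hcon
  have h1 : ∑ q ∈ univ.erase j, f q ≤ ∑ _q ∈ univ.erase j, (l - 1) :=
    sum_le_sum fun q hq => by have := hcon q (ne_of_mem_erase hq); omega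
  have h2 := add_sum_erase univ f (mem_univ j)
  have h3 : ((univ.erase j).card : ℤ) ≤ k := by
    have := card_le_univ (univ.erase j)
    rw [Fintype.card_fin] at this
    exact_mod_cast this
  rw [sum_const, nsmul_eq_mul] at h1
  nlinarith

/-- The move lemma. -/
theorem nn_le (h0 : ∀ a, 0 ≤ e a) (h1 : ∀ a, e a ≤ 1) (s : Fin m × Fin n) {t l : ℤ} (hl : 1 ≤ l)
    (h : (MM m n : ℤ) * (l - 1) < (min (r s.1) (c s.2) : ℕ) - t) :
    nn r c A e s t ≤ (m * n : ℕ) * nn r c A e s (t + l) := by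
  obtain ⟨i, j⟩ := s
  have hM := lt_MM m n
  have hr : ((min (r i) (c j) : ℕ) : ℤ) ≤ r i := by exact_mod_cast min_le_left _ _
  have hc : ((min (r i) (c j) : ℕ) : ℤ) ≤ c j := by exact_mod_cast min_le_right _ _
  calc nn r c A e (i, j) t
      ≤ ∑ Y ∈ ext r c A with Y (i, j) = t, ∑ b : Fin m × Fin n,
          if b.1 ≠ i ∧ b.2 ≠ j ∧ l ≤ Y (i, b.2) ∧ l ≤ Y (b.1, j) then omS e (i, j) Y else 0 := by
        refine sum_le_sum fun Y hY => ?_
        rw [mem_filter, mem_ext] at hY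
        obtain ⟨q, hq, hq'⟩ := exists_big (fun q => Y (i, q)) j (M := MM m n) (by omega) hl
          (by rw [hY.1.2.1 i, hY.2]; simp only at h; linarith)
        obtain ⟨p, hp, hp'⟩ := exists_big (fun p => Y (p, j)) i (M := MM m n) (by omega) hl
          (by rw [hY.1.2.2 j, hY.2]; simp only at h; linarith)
        refine le_trans ?_ (single_le_sum (f := fun b : Fin m × Fin n =>
          if b.1 ≠ i ∧ b.2 ≠ j ∧ l ≤ Y (i, b.2) ∧ l ≤ Y (b.1, j) then omS e (i, j) Y else 0)
          (fun b _ => ?_) (mem_univ (p, q)))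
        · simp only
          rw [if_pos ⟨hp, hq, hq', hp'⟩]
        · split_ifs
          · exact omS_nonneg h0 _ _
          · exact le_rfl
    _ ≤ ∑ _b : Fin m × Fin n, nn r c A e (i, j) (t + l) := by
        rw [sum_comm]
        refine sum_le_sum fun b _ => ?_
        obtain ⟨p, q⟩ := b
        rw [← sum_filter]
        set S := ((ext r c A).filter fun Y => Y (i, j) = t).filter fun Y =>
          p ≠ i ∧ q ≠ j ∧ l ≤ Y (i, q) ∧ l ≤ Y (p, j) with hS
        calc ∑ Y ∈ S, omS e (i, j) Y ≤ ∑ Y ∈ S, omS e (i, j) (emv i p j q l Y) := by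
              refine sum_le_sum fun Y hY => ?_
              rw [hS, mem_filter] at hY
              exact omS_le_mv h0 h1 hY.2.1 hY.2.2.1 (by omega) hY.2.2.2.1 hY.2.2.2.2 _
          _ = ∑ Y ∈ S.image (emv i p j q l), omS e (i, j) Y :=
              (sum_image fun _ _ _ _ h => mv_inj i p j q l h).symm
          _ ≤ nn r c A e (i, j) (t + l) := by
              refine sum_le_sum_of_subset_of_nonneg (fun Y hY => ?_)
                fun Y _ _ => omS_nonneg h0 _ _
              obtain ⟨Y', hY', rfl⟩ := mem_image.1 hY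
              rw [hS, mem_filter, mem_filter] at hY'
              obtain ⟨⟨hY1, hY2⟩, hp, hq, hq', hp'⟩ := hY'
              refine mem_filter.2 ⟨mv_mem hp hq (by omega) hq' hp' hY1, ?_⟩
              simp [emv, sg, hY2, hp.symm, hq.symm]
    _ = (m * n : ℕ) * nn r c A e (i, j) (t + l) := by simp

theorem sum_nn_le (h0 : ∀ a, 0 ≤ e a) (s : Fin m × Fin n) (L : ℕ) :
    ∑ t ∈ range L, nn r c A e s t ≤ ∑ Y ∈ ext r c A, om e Y := by
  have h : ∀ t ∈ range L, nn r c A e s t =
      ∑ Y ∈ (ext r c A).filter (fun Y => 0 ≤ Y s ∧ (Y s).toNat < L) with (Y s).toNat = t,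
        om e Y := by
    intro t ht
    rw [filter_filter, nn]
    refine sum_congr (filter_congr fun Y _ => ?_) fun Y hY => ?_
    · have := mem_range.1 ht
      omega
    · have h1 := (mem_filter.1 hY).2
      rw [om_eq s, show (-Y s).toNat = 0 by omega, pow_zero, one_mul]
  rw [sum_congr rfl h, sum_fiberwise_of_maps_to (fun Y hY => mem_range.2 (mem_filter.1 hY).2.2)]
  exact sum_le_sum_of_subset_of_nonneg (filter_subset _ _) fun Y _ _ => om_nonneg h0 Y

theorem sum_neg_eq (s : Fin m × Fin n) {L : ℕ} (hL : A ≤ L) :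
    ∑ Y ∈ ext r c A with Y s < 0, om e Y =
      ∑ a ∈ range L, e s ^ (a + 1) * nn r c A e s (-((a : ℤ) + 1)) := by
  rw [← sum_fiberwise_of_maps_to (t := range L) (g := fun Y => (-Y s - 1).toNat)]
  · refine sum_congr rfl fun a _ => ?_
    rw [filter_filter, nn, mul_sum]
    refine sum_congr (filter_congr fun Y _ => by omega) fun Y hY => ?_
    have h1 := (mem_filter.1 hY).2
    rw [om_eq s, show (-Y s).toNat = a + 1 by omega]
  · intro Y hY
    rw [mem_filter, mem_ext] at hY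
    have := hY.1.1 s
    have := hY.2
    rw [mem_range]
    omega

/-- The weight of the matrices with a negative entry at `s` is small. -/
theorem sum_neg_le (hM : 4 ≤ MM m n) (h0 : ∀ a, 0 ≤ e a) (h1 : ∀ a, e a ≤ 1) (s : Fin m × Fin n)
    (he : e s ^ lam m n (min (r s.1) (c s.2)) * (MM m n : ℝ) ^ 4 ≤ 1) :
    (∑ Y ∈ ext r c A with Y s < 0, om e Y) * (2 * (MM m n : ℝ) ^ 2) ≤
      ∑ Y ∈ ext r c A, om e Y := by
  set ρ := min (r s.1) (c s.2) with hρ
  set l := lam m n ρ with hl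
  set M := MM m n with hMM
  set Z := ∑ Y ∈ ext r c A, om e Y with hZ
  set T := ∑ Y ∈ ext r c A with Y s < 0, om e Y with hT
  set S := ∑ a ∈ range l, nn r c A e s (-((a : ℤ) + 1)) with hS
  have hD : 4 * ((m * n : ℕ) : ℝ) ≤ (M : ℝ) ^ 2 := by exact_mod_cast four_mul_le m n
  have hM' : (4 : ℝ) ≤ M := by exact_mod_cast hM
  have hT0 : 0 ≤ T := sum_nonneg fun Y _ => om_nonneg h0 Y
  have hZ0 : 0 ≤ Z := sum_nonneg fun Y _ => om_nonneg h0 Y
  have hS0 : 0 ≤ S := sum_nonneg fun a _ => nn_nonneg h0 _ _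
  have hl1 : l = ρ / M ^ 6 + 1 := rfl
  have hdiv : ρ / M ^ 6 * M ^ 6 ≤ ρ := Nat.div_mul_le_self _ _
  have hM6 : M ≤ M ^ 6 := Nat.le_self_pow (by norm_num) _
  have hshift : T ≤ e s * S + e s ^ l * (m * n : ℕ) * T := by
    have e1 := sum_neg_eq (r := r) (c := c) (e := e) s (Nat.le_add_left A l)
    have e2 := sum_neg_eq (r := r) (c := c) (e := e) s (le_refl A)
    rw [← hT] at e1 e2
    rw [sum_range_add] at e1
    refine e1.le.trans (add_le_add ?_ ?_)
    · rw [hS, mul_sum]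
      refine sum_le_sum fun a _ => mul_le_mul_of_nonneg_right ?_ (nn_nonneg h0 _ _)
      exact pow_le_of_le_one (h0 s) (h1 s) (by omega)
    · rw [e2, mul_sum]
      refine sum_le_sum fun a _ => ?_
      have h2 := nn_le (r := r) (c := c) (A := A) h0 h1 s (t := -(((l + a : ℕ) : ℤ) + 1)) (l := l)
        (by exact_mod_cast (by rw [hl1]; exact Nat.le_add_left _ _ : 1 ≤ l)) (by
          have h3 : M * (ρ / M ^ 6) ≤ ρ :=
            le_trans (by rw [mul_comm]; exact Nat.mul_le_mul_left _ hM6) hdiv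
          have h4 : ((M * (ρ / M ^ 6) : ℕ) : ℤ) ≤ ρ := by exact_mod_cast h3
          have h5 : (l : ℤ) - 1 = ((ρ / M ^ 6 : ℕ) : ℤ) := by rw [hl1]; push_cast; ring
          rw [h5, ← hMM, ← hρ]
          push_cast at h4 ⊢
          have := Int.natCast_nonneg l
          have := Int.natCast_nonneg a
          linarith)
      rw [show -(((l + a : ℕ) : ℤ) + 1) + l = -((a : ℤ) + 1) by push_cast; ring] at h2
      calc e s ^ (l + a + 1) * nn r c A e s (-(((l + a : ℕ) : ℤ) + 1))
          ≤ e s ^ (l + a + 1) * ((m * n : ℕ) * nn r c A e s (-((a : ℤ) + 1))) :=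
            mul_le_mul_of_nonneg_left h2 (pow_nonneg (h0 s) _)
        _ = _ := by ring
  have hq : e s ^ l * (m * n : ℕ) ≤ 1 / 2 := by
    have h2 : 0 ≤ e s ^ l := pow_nonneg (h0 s) _
    have h3 : (M : ℝ) ^ 2 ≤ M ^ 4 := pow_le_pow_right₀ (by linarith) (by norm_num)
    nlinarith
  have hTS : T ≤ 2 * (e s * S) := by nlinarith
  have hkey : e s * S * (M : ℝ) ^ 4 ≤ (m * n : ℕ) * Z := by
    rcases Nat.eq_zero_or_pos (ρ / M ^ 6) with hz | hz
    · have hl2 : l = 1 := by omega
      rw [hl2, pow_one] at he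
      have h2 := nn_le (r := r) (c := c) (A := A) h0 h1 s (t := -1) (l := 1) le_rfl (by
        have := Int.natCast_nonneg (min (r s.1) (c s.2))
        linarith)
      have h3 := sum_nn_le (r := r) (c := c) (A := A) h0 s 1
      have h4 : S = nn r c A e s (-1) := by rw [hS, hl2]; simp
      simp only [range_one, sum_singleton, Nat.cast_zero] at h3
      rw [show (-1 : ℤ) + 1 = 0 by norm_num] at h2
      have h5 : S ≤ (m * n : ℕ) * Z :=
        h4.le.trans (h2.trans (mul_le_mul_of_nonneg_left h3 (Nat.cast_nonneg _)))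
      nlinarith
    · have h2 : ∀ a ∈ range l,
          ((M ^ 4 * l : ℕ) : ℝ) * nn r c A e s (-((a : ℤ) + 1)) ≤ (m * n : ℕ) * Z := by
        intro a ha
        have ha' := mem_range.1 ha
        refine le_trans ?_ (mul_le_mul_of_nonneg_left (sum_nn_le h0 s (M ^ 4 * l))
          (Nat.cast_nonneg _))
        rw [mul_sum, ← nsmul_eq_mul, ← card_range (M ^ 4 * l), ← sum_const, card_range]
        refine sum_le_sum fun t ht => ?_
        have ht' := mem_range.1 ht
        have h3 := nn_le (r := r) (c := c) (A := A) h0 h1 s (t := -((a : ℤ) + 1))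
          (l := a + 1 + t) (by omega) (by
            have h4 : M * (a + t) ≤ ρ := by
              have h5 : 1 ≤ M ^ 4 := Nat.one_le_pow _ _ (by omega)
              have h6 : a + t ≤ 2 * (M ^ 4 * l) := by nlinarith
              have h7 : l ≤ 2 * (ρ / M ^ 6) := by omega
              calc M * (a + t) ≤ M * (2 * (M ^ 4 * (2 * (ρ / M ^ 6)))) :=
                    Nat.mul_le_mul_left _ (h6.trans (Nat.mul_le_mul_left _
                      (Nat.mul_le_mul_left _ h7)))
                _ = ρ / M ^ 6 * (4 * M ^ 5) := by ring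
                _ ≤ ρ / M ^ 6 * (M * M ^ 5) :=
                    Nat.mul_le_mul_left _ (Nat.mul_le_mul_right _ hM)
                _ = ρ / M ^ 6 * M ^ 6 := by ring
                _ ≤ ρ := hdiv
            have h5 : ((M * (a + t) : ℕ) : ℤ) ≤ ρ := by exact_mod_cast h4
            rw [← hMM, ← hρ]
            push_cast at h5
            have := Int.natCast_nonneg a
            linarith)
        rwa [show -((a : ℤ) + 1) + (a + 1 + t) = t by ring] at h3
      have h3 := sum_le_sum h2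
      rw [← mul_sum, ← hS, sum_const, card_range, nsmul_eq_mul] at h3
      have hlpos : (0 : ℝ) < l := by exact_mod_cast (by omega : 0 < l)
      have h4 : S * (M : ℝ) ^ 4 ≤ (m * n : ℕ) * Z := by
        refine le_of_mul_le_mul_left ?_ hlpos
        push_cast at h3 ⊢
        linarith
      have h5 : 0 ≤ S * (M : ℝ) ^ 4 := by positivity
      calc e s * S * (M : ℝ) ^ 4 = e s * (S * (M : ℝ) ^ 4) := by ring
        _ ≤ 1 * (S * (M : ℝ) ^ 4) := mul_le_mul_of_nonneg_right (h1 s) h5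
        _ ≤ _ := by linarith
  have hM2 : (0 : ℝ) < (M : ℝ) ^ 2 := by positivity
  refine le_of_mul_le_mul_right ?_ hM2
  have h6 : T * (M : ℝ) ^ 4 ≤ 2 * (e s * S) * (M : ℝ) ^ 4 :=
    mul_le_mul_of_nonneg_right hTS (by positivity)
  nlinarith

theorem sum_nonneg_le :
    ∑ Y ∈ ext r c A with ∀ a, 0 ≤ Y a, om e Y ≤ (tables r c).card := by
  have h1 : ∀ Y ∈ (ext r c A).filter fun Y => ∀ a, 0 ≤ Y a, om e Y = 1 := by
    intro Y hY
    refine prod_eq_one fun a _ => ?_
    have := (mem_filter.1 hY).2 a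
    rw [show (-Y a).toNat = 0 by omega, pow_zero]
  rw [sum_congr rfl h1, sum_const, nsmul_eq_mul, mul_one, Nat.cast_le]
  refine card_le_card_of_injOn (fun Y i j => (Y (i, j)).toNat) (fun Y hY => ?_) ?_
  · rw [mem_coe, mem_filter, mem_ext] at hY
    obtain ⟨⟨-, hr, hc⟩, hY⟩ := hY
    have hr' : ∀ i, ∑ j, (Y (i, j)).toNat = r i := fun i => by
      have : ((∑ j, (Y (i, j)).toNat : ℕ) : ℤ) = r i := by
        rw [← hr i, Nat.cast_sum]
        exact sum_congr rfl fun j _ => Int.toNat_of_nonneg (hY _)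
      exact_mod_cast this
    have hc' : ∀ j, ∑ i, (Y (i, j)).toNat = c j := fun j => by
      have : ((∑ i, (Y (i, j)).toNat : ℕ) : ℤ) = c j := by
        rw [← hc j, Nat.cast_sum]
        exact sum_congr rfl fun i _ => Int.toNat_of_nonneg (hY _)
      exact_mod_cast this
    rw [mem_coe, tables, mem_filter]
    refine ⟨?_, hr', hc'⟩
    simp only [Fintype.mem_piFinset, mem_range]
    intro i j
    have := single_le_sum (f := fun j => (Y (i, j)).toNat) (fun _ _ => Nat.zero_le _) (mem_univ j)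
    rw [hr' i] at this
    omega
  · intro Y hY Y' hY' h
    rw [mem_coe, mem_filter] at hY hY'
    funext a
    have h1 := congrFun (congrFun h a.1) a.2
    have h2 := hY.2 a
    have h3 := hY'.2 a
    simp only [Prod.mk.eta] at h1
    omega

/-- The total weight of the extended tables is at most twice the number of tables. -/
theorem sum_om_le (hM : 4 ≤ MM m n) (h0 : ∀ a, 0 ≤ e a) (h1 : ∀ a, e a ≤ 1)
    (he : ∀ s, e s ^ lam m n (min (r s.1) (c s.2)) * (MM m n : ℝ) ^ 4 ≤ 1) :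
    ∑ Y ∈ ext r c A, om e Y ≤ 2 * (tables r c).card := by
  set Z := ∑ Y ∈ ext r c A, om e Y with hZ
  have hZ0 : 0 ≤ Z := sum_nonneg fun Y _ => om_nonneg h0 Y
  have hD : 4 * ((m * n : ℕ) : ℝ) ≤ (MM m n : ℝ) ^ 2 := by exact_mod_cast four_mul_le m n
  have hM' : (4 : ℝ) ≤ MM m n := by exact_mod_cast hM
  have hM2 : (0 : ℝ) < 2 * (MM m n : ℝ) ^ 2 := by positivity
  have hu : Z ≤ ∑ Y ∈ ext r c A with ∀ a, 0 ≤ Y a, om e Y +
      ∑ s, ∑ Y ∈ ext r c A with Y s < 0, om e Y := by
    simp only [sum_filter]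
    rw [sum_comm, ← sum_add_distrib]
    refine sum_le_sum fun Y _ => ?_
    have hn : ∀ s ∈ (univ : Finset (Fin m × Fin n)), 0 ≤ if Y s < 0 then om e Y else 0 := by
      intro s _
      split_ifs
      · exact om_nonneg h0 Y
      · exact le_rfl
    split_ifs with h
    · linarith [sum_nonneg hn]
    · push Not at h
      obtain ⟨s, hs⟩ := h
      have := single_le_sum hn (mem_univ s)
      rw [if_pos hs] at this
      linarith
  have hs : (∑ s, ∑ Y ∈ ext r c A with Y s < 0, om e Y) * (2 * (MM m n : ℝ) ^ 2) ≤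
      (m * n : ℕ) * Z := by
    rw [sum_mul]
    refine (sum_le_sum fun s _ => sum_neg_le hM h0 h1 s (he s)).trans ?_
    simp [hZ]
  have hs' : ∑ s, ∑ Y ∈ ext r c A with Y s < 0, om e Y ≤ Z / 2 := by
    refine le_of_mul_le_mul_right (hs.trans ?_) hM2
    nlinarith
  linarith [sum_nonneg_le (r := r) (c := c) (A := A) (e := e)]

end Ext

end Vale.Agent.P328
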