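import Vale.Agent.P328.GPoin
import Vale.Agent.P328.GChain

/-!
All the facts which the analysis of the sampler uses.
-/

namespace Vale.Agent.P328

theorem Par.facts {m n : ℕ} (P : Par m n) : P.Facts :=
  ⟨P.hgt_le, P.card_grid_le, P.poincare, P.Z_le, fun k _ hy h => P.hgt_eq_zero k hy h, P.sum_box,
    P.sum_tab, P.tab_mem⟩

end Vale.Agent.P328
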