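import Vale.Agent.P328.Chain
import Vale.Agent.P328.Defs
import Vale.Agent.Lib.PTM.Sim
import Vale.Agent.Lib.PCP.PT.Fin

/-!
The chain on lists, in polynomial time.
-/

namespace Vale.Agent.P328

open Finset hiding val
open Vale.Agent.Lib.PTM Vale.Agent.Lib.PolyTime

theorem mem_tables {m n : ℕ} {r : Fin m → ℕ} {c : Fin n → ℕ} {X : Fin m → Fin n → ℕ} :
    X ∈ tables r c ↔ (∀ i, ∑ j, X i j = r i) ∧ ∀ j, ∑ i, X i j = c j := by
  unfold tables
  rw [Finset.mem_filter, and_iff_right_iff_imp]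
  intro h
  simp only [Fintype.mem_piFinset, Finset.mem_range]
  intro i j
  rw [← h.1 i]
  exact Nat.lt_succ_of_le (Finset.single_le_sum (fun j _ => Nat.zero_le (X i j)) (mem_univ j))

/-- The tables themselves. -/
def tabM {m n : ℕ} (r : Fin m → ℕ) (c : Fin n → ℕ) : Model (tables r c) (Fin m) (Fin n) where
  x ω := ω.1
  r := r
  c := c
  inj := Subtype.val_injective
  row ω := (mem_tables.1 ω.2).1
  col ω := (mem_tables.1 ω.2).2
  surj X h1 h2 := ⟨⟨X, mem_tables.2 ⟨h1, h2⟩⟩, rfl⟩

/-- An entry of a list of lists. -/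
def ent (L : List (List ℕ)) (i j : ℕ) : ℕ := (L.getD i []).getD j 0

/-- The list of lists with given entries, cut off at `N`. -/
def build (m n N : ℕ) (F : ℕ → ℕ → ℕ) : List (List ℕ) :=
  (List.range m).map fun i => (List.range n).map fun j => min (F i j) N

theorem ent_build {m n N : ℕ} (F : ℕ → ℕ → ℕ) {i j : ℕ} (hi : i < m) (hj : j < n) :
    ent (build m n N F) i j = min (F i j) N := by
  simp [ent, build, List.getD_eq_getElem?_getD, hi, hj]

theorem esize_build (m n N : ℕ) (F : ℕ → ℕ → ℕ) :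
    esize (build m n N F) ≤ m * (2 * (n * (2 * esize N + 1)) + 1) := by
  have h := esize_list_le (l := build m n N F) (B := n * (2 * esize N + 1)) fun x hx => by
    obtain ⟨i, -, rfl⟩ := List.mem_map.1 hx
    have h := esize_list_le (l := (List.range n).map fun j => min (F i j) N) (B := esize N)
      fun y hy => by
        obtain ⟨j, -, rfl⟩ := List.mem_map.1 hy
        exact esize_nat_mono (min_le_right _ _)
    simpa using h
  simpa [build] using h

theorem words_eq (l : List (List Bool)) : words l = enc (l.map Raw.mk) := by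
  induction l with
  | nil => rfl
  | cons w l ih => rw [words, pair_eq, ih]; rfl

theorem words_map {α : Type} [Enc α] (l : List α) : words (l.map enc) = enc l := by
  induction l with
  | nil => rfl
  | cons w l ih => rw [List.map_cons, words, pair_eq, ih]; rfl

theorem vec_eq {k : ℕ} (v : Fin k → ℕ) : vec v = enc (List.ofFn v) := by
  rw [← words_map, List.map_ofFn]
  rfl

theorem mat_eq {m n : ℕ} (X : Fin m → Fin n → ℕ) :
    mat X = enc (List.ofFn fun i => List.ofFn (X i)) := by
  rw [← words_map, List.map_ofFn, mat]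
  simp only [vec_eq]
  rfl

theorem mat_inj {m n : ℕ} {X Y : Fin m → Fin n → ℕ} (h : mat X = mat Y) : X = Y := by
  rw [mat_eq, mat_eq] at h
  have h1 := List.ofFn_injective (EncInj.inj h)
  exact funext fun i => List.ofFn_injective (congrFun h1 i)

theorem enc_build {m n N : ℕ} {F : ℕ → ℕ → ℕ} {X : Fin m → Fin n → ℕ}
    (h : ∀ (i : Fin m) (j : Fin n), min (F i j) N = X i j) : enc (build m n N F) = mat X := by
  rw [mat_eq, build]
  congr 1
  refine List.ext_getElem (by simp) fun i h1 h2 => ?_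
  simp only [List.getElem_map, List.getElem_range, List.getElem_ofFn]
  refine List.ext_getElem (by simp) fun j h3 h4 => ?_
  simp only [List.getElem_map, List.getElem_range, List.getElem_ofFn]
  exact h ⟨i, _⟩ ⟨j, _⟩

/-- The move with given numbers. -/
def lastL (m n : ℕ) (F : ℕ → ℕ → ℕ) (a b p q u i j : ℕ) : ℕ :=
  if (a < m ∧ b < m) ∧ (p < n ∧ q < n) ∧ (¬ a = b ∧ ¬ p = q) ∧ u ≤ len F a b p q then
    hmv F a b p q u i j else F i j

/-- One step on lists. -/
def stepL (m n N : ℕ) (L : List (List ℕ)) (ρ : List Bool) : List (List ℕ) :=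
  let ρ₁ := ρ.drop m.size
  let ρ₂ := ρ₁.drop m.size
  let ρ₃ := ρ₂.drop n.size
  let a := val (ρ.take m.size)
  let b := val (ρ₁.take m.size)
  let p := val (ρ₂.take n.size)
  let q := val (ρ₃.take n.size)
  build m n N (lastL m n (ent L) a b p q (val ((ρ₃.drop n.size).take (len (ent L) a b p q).size)))

/-- The list represents the table. -/
def Rep {m n : ℕ} (L : List (List ℕ)) (X : Fin m → Fin n → ℕ) : Prop :=
  ∀ (i : Fin m) (j : Fin n), ent L i j = X i j

theorem Rep.len {m n : ℕ} {L : List (List ℕ)} {X : Fin m → Fin n → ℕ} (h : Rep L X)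
    (a b : Fin m) (p q : Fin n) : len (ent L) a b p q = len X a b p q := by
  unfold P328.len
  rw [h, h, h, h]

theorem Rep.hmv {m n : ℕ} {L : List (List ℕ)} {X : Fin m → Fin n → ℕ} (h : Rep L X)
    (a b : Fin m) (p q : Fin n) (u : ℕ) (i : Fin m) (j : Fin n) :
    hmv (ent L) a b p q u i j = hmv X a b p q u i j := by
  unfold P328.hmv
  simp only [Fin.val_inj]
  rw [h, h, h]

theorem le_total_sum {Ω : Type} {m n : ℕ} (M : Model Ω (Fin m) (Fin n)) (ω : Ω) (i : Fin m)
    (j : Fin n) : M.x ω i j ≤ ∑ i, M.r i :=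
  ((Finset.single_le_sum (fun j _ => Nat.zero_le (M.x ω i j)) (mem_univ j)).trans
    (M.row ω i).le).trans (Finset.single_le_sum (fun i _ => Nat.zero_le (M.r i)) (mem_univ i))

theorem rep_step {Ω : Type} {m n : ℕ} (M : Model Ω (Fin m) (Fin n)) {L : List (List ℕ)} {ω : Ω}
    (h : Rep L (M.x ω)) (ρ : List Bool) :
    Rep (stepL m n (∑ i, M.r i) L ρ) (M.x (M.step ω ρ)) := by
  intro i j
  unfold stepL
  dsimp only
  rw [ent_build _ i.2 j.2, ← min_eq_left (le_total_sum M (M.step ω ρ) i j)]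
  congr 1
  unfold Model.step pick lastL
  by_cases ha : val (ρ.take m.size) < m
  swap
  · rw [dif_neg ha, if_neg fun e => ha e.1.1, h]
  rw [dif_pos ha]
  dsimp only
  by_cases hb : val ((ρ.drop m.size).take m.size) < m
  swap
  · rw [dif_neg hb, if_neg fun e => hb e.1.2, h]
  rw [dif_pos hb]
  by_cases hp : val (((ρ.drop m.size).drop m.size).take n.size) < n
  swap
  · rw [dif_neg hp, if_neg fun e => hp e.2.1.1, h]
  rw [dif_pos hp]
  by_cases hq : val ((((ρ.drop m.size).drop m.size).drop n.size).take n.size) < n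
  swap
  · rw [dif_neg hq, if_neg fun e => hq e.2.1.2, h]
  rw [dif_pos hq, Model.last]
  have h1 := h.len ⟨_, ha⟩ ⟨_, hb⟩ ⟨_, hp⟩ ⟨_, hq⟩
  dsimp only at h1
  rw [h1]
  split_ifs with h2 h3 h3
  · rw [M.x_move h3.1 h3.2.1 ω h3.2.2]
    exact h.hmv ⟨_, ha⟩ ⟨_, hb⟩ ⟨_, hp⟩ ⟨_, hq⟩ _ i j
  · exact absurd ⟨fun e => h2.2.2.1.1 (congrArg Fin.val e), fun e => h2.2.2.1.2 (congrArg Fin.val e),
      h2.2.2.2⟩ h3
  · exact absurd ⟨⟨ha, hb⟩, ⟨hp, hq⟩, ⟨fun e => h3.1 (Fin.ext e), fun e => h3.2.1 (Fin.ext e)⟩,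
      h3.2.2⟩ h2
  · exact h i j

/-- One step on the pair of the state and the remaining coins. -/
def stepP (m n N : ℕ) (s : List (List ℕ) × List Bool) : List (List ℕ) × List Bool :=
  (stepL m n N s.1 (s.2.take (Model.coins m n N)), s.2.drop (Model.coins m n N))

theorem rep_walk {Ω : Type} {m n : ℕ} (M : Model Ω (Fin m) (Fin n)) (t : ℕ) {L : List (List ℕ)}
    {ω : Ω} (h : Rep L (M.x ω)) (ρ : List Bool) :
    Rep ((stepP m n (∑ i, M.r i))^[t] (L, ρ)).1
      (M.x (walk M.step (Model.coins m n (∑ i, M.r i)) t ω ρ)) := by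
  induction t generalizing L ω ρ with
  | zero => exact h
  | succ t ih => exact ih (rep_step M h _) _

/-- The first table. -/
def firstF (r c : List ℕ) (i j : ℕ) : ℕ :=
  min (r.take (i + 1)).sum (c.take (j + 1)).sum - max (r.take i).sum (c.take j).sum

theorem sum_overlap (l : List ℕ) {R R' : ℕ} (h : R ≤ R') (k : ℕ) :
    ∑ j ∈ range k, (min R' (l.take (j + 1)).sum - max R (l.take j).sum) =
      min R' (max R (l.take k).sum) - R := by
  induction k with
  | zero => simp [h]
  | succ k ih =>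
    have h1 : (l.take k).sum ≤ (l.take (k + 1)).sum :=
      (List.take_sublist_take_left (Nat.le_succ k)).sum_le_sum fun _ _ => Nat.zero_le _
    rw [Finset.sum_range_succ, ih]
    omega

theorem sum_take_succ {k : ℕ} (v : Fin k → ℕ) (i : Fin k) :
    ((List.ofFn v).take (i + 1)).sum = ((List.ofFn v).take i).sum + v i := by
  rw [List.sum_take_succ _ _ (by simp)]
  simp

theorem sum_take_le {k : ℕ} (v : Fin k → ℕ) (i : ℕ) : ((List.ofFn v).take i).sum ≤ ∑ j, v j := by
  rw [← List.sum_ofFn]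
  exact (List.take_sublist _ _).sum_le_sum fun _ _ => Nat.zero_le _

theorem first_mem {m n : ℕ} {r : Fin m → ℕ} {c : Fin n → ℕ} (h : ∑ i, r i = ∑ j, c j) :
    (fun (i : Fin m) (j : Fin n) => firstF (List.ofFn r) (List.ofFn c) i j) ∈ tables r c := by
  refine mem_tables.2 ⟨fun i => ?_, fun j => ?_⟩
  · have h1 := sum_take_succ r i
    have h2 := sum_take_le r (i + 1)
    unfold firstF
    rw [Fin.sum_univ_eq_sum_range (fun j => min ((List.ofFn r).take (i + 1)).sum
      ((List.ofFn c).take (j + 1)).sum - max ((List.ofFn r).take i).sum ((List.ofFn c).take j).sum),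
      sum_overlap _ (by omega), List.take_of_length_le (l := List.ofFn c) (by simp), List.sum_ofFn]
    omega
  · have h1 := sum_take_succ c j
    have h2 := sum_take_le c (j + 1)
    unfold firstF
    simp only [min_comm ((List.ofFn r).take _).sum, max_comm ((List.ofFn r).take _).sum]
    rw [Fin.sum_univ_eq_sum_range (fun i => min ((List.ofFn c).take (j + 1)).sum
      ((List.ofFn r).take (i + 1)).sum - max ((List.ofFn c).take j).sum ((List.ofFn r).take i).sum),
      sum_overlap _ (by omega), List.take_of_length_le (l := List.ofFn r) (by simp), List.sum_ofFn]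
    omega

/-- The sampler: the margins, the number of steps, the coins. -/
def sample (r c : List ℕ) (t : ℕ) (ρ : List Bool) : List (List ℕ) :=
  build r.length c.length r.sum (ent ((stepP r.length c.length r.sum)^[t]
    (build r.length c.length r.sum (firstF r c), ρ)).1)

theorem enc_sample {m n : ℕ} {r : Fin m → ℕ} {c : Fin n → ℕ} (h : ∑ i, r i = ∑ j, c j) (t : ℕ)
    (ρ : List Bool) : enc (sample (List.ofFn r) (List.ofFn c) t ρ) =
      mat (walk (tabM r c).step (Model.coins m n (∑ i, r i)) t ⟨_, first_mem h⟩ ρ).1 := by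
  unfold sample
  rw [List.length_ofFn, List.length_ofFn, List.sum_ofFn]
  refine enc_build fun i j => ?_
  have h1 : Rep (build m n (∑ i, r i) (firstF (List.ofFn r) (List.ofFn c)))
      ((tabM r c).x ⟨_, first_mem h⟩) := fun i j => by
    rw [ent_build _ i.2 j.2]
    exact min_eq_left (le_total_sum (tabM r c) ⟨_, first_mem h⟩ i j)
  exact (congrArg (min · _) (rep_walk (tabM r c) t h1 ρ i j)).trans
    (min_eq_left (le_total_sum (tabM r c) _ i j))

section PT

variable {α : Type} [Enc α]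

theorem pt_ent {L : α → List (List ℕ)} {i j : α → ℕ} (hL : PT ∅ L) (hi : PT ∅ i) (hj : PT ∅ j) :
    PT ∅ fun a => ent (L a) (i a) (j a) :=
  PT.getD (PT.getD hL hi PT.nil) hj (PT.const 0)

theorem pt_build {m n N : α → ℕ} {F : α → ℕ → ℕ → ℕ} (hm : PT ∅ m) (hm' : PBd m) (hn : PT ∅ n)
    (hn' : PBd n) (hN : PT ∅ N) (hF : PT ∅ fun s : (α × ℕ) × ℕ => F s.1.1 s.1.2 s.2) :
    PT ∅ fun a => build (m a) (n a) (N a) (F a) :=
  PT.map (PT.range hm hm') (PT.map (f := fun (s : α × ℕ) j => min (F s.1 s.2 j) (N s.1))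
    (PT.range (hn.comp PT.fst') (hn'.comp (PT.fst' (A := ∅)))) (PT.min hF (hN.comp PT.fst'.fst)))

theorem pt_len {L : α → List (List ℕ)} {a b p q : α → ℕ} (hL : PT ∅ L) (ha : PT ∅ a) (hb : PT ∅ b)
    (hp : PT ∅ p) (hq : PT ∅ q) : PT ∅ fun s => len (ent (L s)) (a s) (b s) (p s) (q s) :=
  PT.add (PT.min (pt_ent hL ha hp) (pt_ent hL hb hq)) (PT.min (pt_ent hL ha hq) (pt_ent hL hb hp))

theorem pt_lastL {L : α → List (List ℕ)} {m n a b p q u i j : α → ℕ} (hL : PT ∅ L) (hm : PT ∅ m)
    (hn : PT ∅ n) (ha : PT ∅ a) (hb : PT ∅ b) (hp : PT ∅ p) (hq : PT ∅ q) (hu : PT ∅ u)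
    (hi : PT ∅ i) (hj : PT ∅ j) :
    PT ∅ fun s => lastL (m s) (n s) (ent (L s)) (a s) (b s) (p s) (q s) (u s) (i s) (j s) := by
  have h1 := PT.min (pt_ent hL ha hp) (pt_ent hL hb hq)
  have h2 := pt_ent hL hi hj
  refine PT.ite (PT.decide_and (PT.decide_and (PT.lt ha hm) (PT.lt hb hm)) (PT.decide_and
    (PT.decide_and (PT.lt hp hn) (PT.lt hq hn)) (PT.decide_and (PT.decide_and
      (PT.decide_not (PT.eqNat ha hb)) (PT.decide_not (PT.eqNat hp hq)))
      (PT.le hu (pt_len hL ha hb hp hq))))) ?_ h2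
  exact PT.ite (PT.decide_or (PT.decide_and (PT.eqNat hi ha) (PT.eqNat hj hp))
    (PT.decide_and (PT.eqNat hi hb) (PT.eqNat hj hq))) (PT.add (PT.sub h2 h1) hu)
    (PT.ite (PT.decide_or (PT.decide_and (PT.eqNat hi ha) (PT.eqNat hj hq))
      (PT.decide_and (PT.eqNat hi hb) (PT.eqNat hj hp))) (PT.sub (PT.add h2 h1) hu) h2)

theorem pt_stepL {L : α → List (List ℕ)} {m n N : α → ℕ} {ρ : α → List Bool} (hL : PT ∅ L)
    (hm : PT ∅ m) (hm' : PBd m) (hn : PT ∅ n) (hn' : PBd n) (hN : PT ∅ N) (hρ : PT ∅ ρ) :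
    PT ∅ fun s => stepL (m s) (n s) (N s) (L s) (ρ s) := by
  have h1 := PT.drop hρ hm.natSize
  have h2 := PT.drop h1 hm.natSize
  have h3 := PT.drop h2 hn.natSize
  have ha := PT.valList (PT.take hρ hm.natSize)
  have hb := PT.valList (PT.take h1 hm.natSize)
  have hp := PT.valList (PT.take h2 hn.natSize)
  have hq := PT.valList (PT.take h3 hn.natSize)
  have hu := PT.valList (PT.take (PT.drop h3 hn.natSize) (pt_len hL ha hb hp hq).natSize)
  have k : PT ∅ fun s : (α × ℕ) × ℕ => s.1.1 := PT.fst'.fst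
  exact pt_build hm hm' hn hn' hN (pt_lastL (hL.comp k) (hm.comp k) (hn.comp k) (ha.comp k)
    (hb.comp k) (hp.comp k) (hq.comp k) (hu.comp k) PT.fst'.snd PT.snd')

theorem pt_coins {m n N : α → ℕ} (hm : PT ∅ m) (hn : PT ∅ n) (hN : PT ∅ N) :
    PT ∅ fun s => Model.coins (m s) (n s) (N s) :=
  PT.add hm.natSize (PT.add hm.natSize (PT.add hn.natSize (PT.add hn.natSize hN.natSize)))

theorem pt_sample {r c : α → List ℕ} {t : α → ℕ} {ρ : α → List Bool} (hr : PT ∅ r) (hc : PT ∅ c)
    (ht : PT ∅ t) (ht' : PBd t) (hρ : PT ∅ ρ) : PT ∅ fun s => sample (r s) (c s) (t s) (ρ s) := by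
  have hm := hr.length
  have hn := hc.length
  have hm' := PBd.length hr
  have hn' := PBd.length hc
  have hN := hr.sum
  have k : PT ∅ fun s : (α × ℕ) × ℕ => s.1.1 := PT.fst'.fst
  have h0 : PT ∅ fun s => build (r s).length (c s).length (r s).sum (firstF (r s) (c s)) :=
    pt_build hm hm' hn hn' hN (PT.sub
      (PT.min (PT.take (hr.comp k) (PT.add PT.fst'.snd (PT.const 1))).sum
        (PT.take (hc.comp k) (PT.add PT.snd' (PT.const 1))).sum)
      (PT.max (PT.take (hr.comp k) PT.fst'.snd).sum (PT.take (hc.comp k) PT.snd').sum))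
  have k' : PT ∅ fun s : α × List (List ℕ) × List Bool => s.1 := PT.fst'
  have hB := pt_coins (hm.comp k') (hn.comp k') (hN.comp k')
  have h1 : PT ∅ fun s => (stepP (r s).length (c s).length (r s).sum)^[t s]
      (build (r s).length (c s).length (r s).sum (firstF (r s) (c s)), ρ s) := by
    refine PT.iterate' (step := fun s => stepP (r s).length (c s).length (r s).sum) ht ht'
      (h0.pair hρ) ((pt_stepL PT.snd'.fst (hm.comp k') (hm'.comp k') (hn.comp k') (hn'.comp k')
        (hN.comp k') (PT.take PT.snd'.snd hB)).pair (PT.drop PT.snd'.snd hB))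
      (b := fun s => 2 * ((r s).length * (2 * ((c s).length * (2 * esize (r s).sum + 1)) + 1)) +
        esize (ρ s) + 1) ?_ fun s j _ => ?_
    · have h2 := hN.pbd
      have h3 := hρ.pbd
      fun_prop
    · have key : ∀ j, esize ((stepP (r s).length (c s).length (r s).sum)^[j]
          (build (r s).length (c s).length (r s).sum (firstF (r s) (c s)), ρ s)).1 ≤
          (r s).length * (2 * ((c s).length * (2 * esize (r s).sum + 1)) + 1) ∧
          esize ((stepP (r s).length (c s).length (r s).sum)^[j]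
          (build (r s).length (c s).length (r s).sum (firstF (r s) (c s)), ρ s)).2 ≤
          esize (ρ s) := by
        intro j
        induction j with
        | zero => exact ⟨esize_build _ _ _ _, le_rfl⟩
        | succ j ih =>
          rw [Function.iterate_succ_apply']
          exact ⟨esize_build _ _ _ _, (esize_drop_le _ _).trans ih.2⟩
      have h2 := key j
      rw [← Prod.mk.eta (p := (stepP _ _ _)^[j] _), esize_pair]
      omega
  exact pt_build hm hm' hn hn' hN (pt_ent (h1.fst.comp k) PT.fst'.snd PT.snd')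

end PT

end Vale.Agent.P328
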