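import Vale.Agent.P328.GTrial
import Vale.Agent.P328.Impl

/-!
The sampler on lists and numbers, its relation with the abstract sampler, and polynomial time.
-/

namespace Vale.Agent.P328

open Finset hiding val
open Vale.Agent.Lib.PTM Vale.Agent.Lib.PolyTime

/-- The position of a largest entry. -/
def amax (l : List ℕ) : ℕ :=
  ((List.range l.length).find? fun i => l.all fun x => decide (x ≤ l.getD i 0)).getD 0

theorem getD_ofFn {k : ℕ} (v : Fin k → ℕ) (i : Fin k) : (List.ofFn v).getD i 0 = v i := by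
  simp [List.getD_eq_getElem?_getD]

theorem amax_spec {k : ℕ} (hk : 1 ≤ k) (v : Fin k → ℕ) :
    ∃ i0 : Fin k, amax (List.ofFn v) = i0 ∧ ∀ i, v i ≤ v i0 := by
  obtain ⟨i1, -, h1⟩ := Finset.exists_max_image univ v ⟨⟨0, hk⟩, mem_univ _⟩
  unfold amax
  cases h : (List.range (List.ofFn v).length).find? fun i =>
      (List.ofFn v).all fun x => decide (x ≤ (List.ofFn v).getD i 0) with
  | none =>
    have h2 := List.find?_eq_none.1 h i1 (by simp)
    rw [getD_ofFn] at h2
    exact absurd (by simpa using fun i => h1 i (mem_univ i)) h2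
  | some i0 =>
    have h2 : i0 < k := by simpa using List.mem_of_find?_eq_some h
    have h3 := List.find?_some h
    refine ⟨⟨i0, h2⟩, rfl, fun i => ?_⟩
    rw [← getD_ofFn v ⟨i0, h2⟩]
    exact of_decide_eq_true (List.all_eq_true.1 h3 (v i) (by simp))

/-- The sum over an initial segment. -/
def sumR (k : ℕ) (F : ℕ → ℕ) : ℕ := ((List.range k).map F).sum

theorem sumR_eq {k : ℕ} {F : ℕ → ℕ} {G : Fin k → ℕ} (h : ∀ i : Fin k, F i = G i) :
    sumR k F = ∑ i, G i := by
  rw [← Finset.sum_congr rfl fun i _ => h i, Fin.sum_univ_eq_sum_range F k]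
  rfl

/-- The margins as lists. -/
abbrev Dat : Type := List ℕ × List ℕ

namespace Dat

variable (D : Dat)

/-- The number of rows. -/
def m : ℕ := D.1.length
/-- The number of columns. -/
def n : ℕ := D.2.length
/-- The total. -/
def N : ℕ := D.1.sum
/-- A row sum. -/
def r (i : ℕ) : ℕ := D.1.getD i 0
/-- A column sum. -/
def c (j : ℕ) : ℕ := D.2.getD j 0
/-- A largest row. -/
def i0 : ℕ := amax D.1
/-- A largest column. -/
def j0 : ℕ := amax D.2

/-- The slope. -/
def slope (ρ : ℕ) : ℕ := 4 * tau D.m D.n * ((D.N + 1) / lam D.m D.n ρ + 1)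

/-- The number of blocks. -/
def Kc (i j : ℕ) : ℕ := if ¬ i = D.i0 ∧ ¬ j = D.j0 then MM D.m D.n ^ 13 else 1

/-- The number of bits of an offset. -/
def dbits (i j : ℕ) : ℕ :=
  if ¬ i = D.i0 ∧ ¬ j = D.j0 then Nat.size (min (D.r i) (D.c j) / MM D.m D.n ^ 13) else 0

/-- The penalty. -/
def pen (F : ℕ → ℕ → ℕ) : ℕ :=
  sumR D.m (fun i => (if i = D.i0 then 0 else D.slope (min (D.r i) (D.c D.j0))) *
      (sumR D.n (fun j => F i j) - D.r i)) +
    sumR D.n (fun j => (if j = D.j0 then 0 else D.slope (min (D.r D.i0) (D.c j))) *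
      (sumR D.m (fun i => F i j) - D.c j)) +
    D.slope (min (D.r D.i0) (D.c D.j0)) *
      (D.N - (D.r D.i0 + D.c D.j0 + sumR D.m fun i => sumR D.n fun j => F i j))

/-- The height. -/
def hgt (F : ℕ → ℕ → ℕ) : ℕ := D.pen (fun i j => 2 ^ D.dbits i j * F i j) / (D.N + 1)

/-- The table of a point. -/
def tab (F : ℕ → ℕ → ℕ) (i j : ℕ) : ℕ :=
  if i = D.i0 then
    (if j = D.j0 then D.r D.i0 + D.c D.j0 + (sumR D.m fun i => sumR D.n fun j => F i j) - D.N
      else D.c j - sumR D.m fun i' => F i' j)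
  else if j = D.j0 then D.r i - sumR D.n (fun j' => F i j') else F i j

/-- The move of the entry `(a, b)` to the value `v`, with the Metropolis filter. -/
def gtry (L : List (List ℕ)) (a b v : ℕ) (ρ : List Bool) : List (List ℕ) :=
  build D.m D.n (MM D.m D.n ^ 13) fun i j =>
    if ((a < D.m ∧ b < D.n) ∧ v < D.Kc a b ∧ val (ρ.take (D.hgt (fun i j =>
      if i = a ∧ j = b then v else ent L i j) - D.hgt (ent L))) = 0) ∧ i = a ∧ j = b then v
    else ent L i j

/-- One step of the chain. -/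
def gstep (L : List (List ℕ)) (ρ : List Bool) : List (List ℕ) :=
  let a := val (ρ.take (tau D.m D.n))
  let b := val ((ρ.drop (tau D.m D.n)).take (tau D.m D.n))
  let ρ' := (ρ.drop (tau D.m D.n)).drop (tau D.m D.n)
  D.gtry L a b (bif ρ'.headD false then ent L a b + 1 else ent L a b - 1) ρ'.tail

/-- The point produced by one trial. -/
def point (t : ℕ) (u : List Bool) (i j : ℕ) : ℕ :=
  2 ^ D.dbits i j * ent (walk D.gstep (gcoins D.m D.n) t [] (u.take (t * gcoins D.m D.n))) i j +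
    val ((blk D.N.size j (blk (D.n * D.N.size) i (u.drop (t * gcoins D.m D.n)))).take (D.dbits i j))

/-- The output of the sampler. -/
def output (s : ℕ) (ρ : List Bool) : List (List ℕ) :=
  build D.m D.n D.N fun i j => firstOf (fun u => decide (D.pen (D.point (gsteps D.m D.n s) u) = 0))
    (fun u => D.tab (D.point (gsteps D.m D.n s) u) i j) (firstF D.1 D.2 i j)
    (tcoins D.m D.n D.N (gsteps D.m D.n s)) (16 * (s + 1)) ρ

/-- The lists represent the parameters. -/
structure Rel {m' n' : ℕ} (P : Par m' n') : Prop where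
  m : D.m = m'
  n : D.n = n'
  N : D.N = P.N
  r : ∀ i : Fin m', D.r i = P.r i
  c : ∀ j : Fin n', D.c j = P.c j
  i0 : D.i0 = P.i0
  j0 : D.j0 = P.j0

namespace Rel

variable {D} {m' n' : ℕ} {P : Par m' n'} (h : D.Rel P)
include h

theorem slope (ρ : ℕ) : D.slope ρ = P.slope ρ := by
  unfold Dat.slope Par.slope
  rw [h.m, h.n, h.N]

theorem Kc (a : Fin m' × Fin n') : D.Kc a.1 a.2 = P.Kc a := by
  unfold Dat.Kc Par.Kc
  simp only [h.m, h.n, h.i0, h.j0, Fin.val_inj]

theorem dbits (a : Fin m' × Fin n') : D.dbits a.1 a.2 = P.dbits a := by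
  unfold Dat.dbits Par.dbits
  simp only [h.m, h.n, h.i0, h.j0, h.r, h.c, Fin.val_inj]

theorem pen {F : ℕ → ℕ → ℕ} {x : Pt m' n'} (hF : ∀ a : Fin m' × Fin n', F a.1 a.2 = x a) :
    D.pen F = P.pen x := by
  unfold Dat.pen Par.pen Par.pr Par.pc Par.p0
  rw [h.m, h.n, h.N, h.i0, h.j0, h.r, h.c, h.slope, Fintype.sum_prod_type,
    sumR_eq (F := fun i => sumR n' fun j => F i j) fun i => sumR_eq fun j => hF (i, j)]
  congr 2
  · refine sumR_eq fun i => ?_
    rw [h.r, h.slope, sumR_eq fun j => hF (i, j)]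
    simp only [Fin.val_inj]
  · refine sumR_eq fun j => ?_
    rw [h.c, h.slope, sumR_eq fun i => hF (i, j)]
    simp only [Fin.val_inj]

theorem hgt {F : ℕ → ℕ → ℕ} {k : Pt m' n'} (hF : ∀ a : Fin m' × Fin n', F a.1 a.2 = k a) :
    D.hgt F = P.hgt k := by
  unfold Dat.hgt Par.hgt
  rw [h.N, h.pen (x := P.pt k 0) fun a => by rw [h.dbits, hF, Par.pt, P.del_eq]; rfl]

theorem tab {F : ℕ → ℕ → ℕ} {x : Pt m' n'} (hF : ∀ a : Fin m' × Fin n', F a.1 a.2 = x a)
    (i : Fin m') (j : Fin n') : D.tab F i j = P.tab x i j := by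
  unfold Dat.tab Par.tab
  rw [h.m, h.n, h.N, h.i0, h.j0, h.r, h.c, h.r, h.c, Fintype.sum_prod_type,
    sumR_eq fun i => sumR_eq fun j => hF (i, j), sumR_eq fun j => hF (i, j),
    sumR_eq fun i => hF (i, j), hF (i, j)]
  simp only [Fin.val_inj]

theorem gstep {L : List (List ℕ)} {k : Pt m' n'} (ρ : List Bool)
    (hL : k ∈ P.grid ∧ ∀ a : Fin m' × Fin n', ent L a.1 a.2 = k a) :
    P.gstep k ρ ∈ P.grid ∧ ∀ a : Fin m' × Fin n', ent (D.gstep L ρ) a.1 a.2 = P.gstep k ρ a := by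
  refine ⟨P.gstep_mem hL.1 ρ, fun a => ?_⟩
  have h1 : P.gstep k ρ a ≤ MM m' n' ^ 13 := by
    have h2 := P.mem_grid_iff.1 (P.gstep_mem hL.1 ρ) a
    have h3 : 0 < MM m' n' ^ 13 := pow_pos (MM_pos _ _) _
    unfold Par.Kc at h2
    split_ifs at h2 <;> omega
  unfold Dat.gstep Dat.gtry
  dsimp only
  rw [h.m, h.n, ent_build _ a.1.2 a.2.2, ← min_eq_left h1]
  congr 1
  unfold Par.gstep pick
  by_cases hi : val (ρ.take (tau m' n')) < m'
  swap
  · rw [dif_neg hi, if_neg fun e => hi e.1.1.1, hL.2]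
  rw [dif_pos hi]
  dsimp only
  by_cases hj : val ((ρ.drop (tau m' n')).take (tau m' n')) < n'
  swap
  · rw [dif_neg hj, if_neg fun e => hj e.1.1.2, hL.2]
  rw [dif_pos hj, Par.gtry, ← h.Kc, ← hL.2 (⟨_, hi⟩, ⟨_, hj⟩), Bool.cond_eq_ite, h.hgt hL.2]
  dsimp only
  generalize (if List.headD _ false = true then ent L _ _ + 1 else ent L _ _ - 1) = v
  have h4 : ∀ b : Fin m' × Fin n', (if (b.1 : ℕ) = val (ρ.take (tau m' n')) ∧
      (b.2 : ℕ) = val ((ρ.drop (tau m' n')).take (tau m' n')) then v else ent L b.1 b.2) =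
      Function.update k (⟨_, hi⟩, ⟨_, hj⟩) v b := by
    intro b
    rw [Function.update_apply, hL.2]
    exact if_congr (by simp only [Prod.ext_iff, Fin.ext_iff]) rfl rfl
  rw [h.hgt h4]
  split_ifs with h5 h6 h6
  · rw [← h4, if_pos h5.2]
  · exact absurd h5.1.2 h6
  · rw [← h4, if_neg fun e => h5 ⟨⟨⟨hi, hj⟩, h6⟩, e⟩]
  · exact hL.2 a

theorem point (t : ℕ) (u : List Bool) (a : Fin m' × Fin n') :
    D.point t u a.1 a.2 = P.point t u a := by
  have h1 := walk_rel (f := D.gstep) (g := P.gstep)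
    (fun L k => k ∈ P.grid ∧ ∀ a : Fin m' × Fin n', ent L a.1 a.2 = k a)
    (fun _ _ ρ hL => h.gstep ρ hL) (gcoins m' n') t (x := []) (y := 0)
    ⟨P.zero_mem_grid, fun a => by simp [ent]⟩ (u.take (t * gcoins m' n'))
  unfold Dat.point Par.point Par.pt Par.fill
  rw [h.m, h.n, h.N, h.dbits, h1.2, P.del_eq]

theorem output (hF : P.Facts) {d : Fin m' → Fin n' → ℕ} (hd : d ∈ tables P.r P.c)
    (hd' : ∀ (i : Fin m') (j : Fin n'), firstF D.1 D.2 i j = d i j) (s : ℕ) (ρ : List Bool) :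
    enc (D.output s ρ) = mat (P.output d s ρ) := by
  unfold Dat.output
  rw [h.m, h.n, h.N]
  refine enc_build fun i j => ?_
  have h1 : P.output d s ρ i j ≤ P.N := le_total_sum (tabM P.r P.c) ⟨_, Par.output_mem hF hd s ρ⟩ i j
  rw [← min_eq_left h1]
  congr 1
  simp only [h.pen (h.point _ _), h.tab (h.point _ _)]
  exact firstOf_ind (fun (v : ℕ) (X : Fin m' → Fin n' → ℕ) => v = X i j) (hd' i j)
    (fun _ _ => rfl) _ _ _

end Rel

end Dat

end Vale.Agent.P328
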