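import Vale.Agent.P328.BL
import Mathlib.Analysis.SpecialFunctions.Exp

/-!
Weights whose energy is a sum of convex functions of the sums over a laminar family.
-/

namespace Vale.Agent.P328

open Finset

variable {ι : Type*} [Fintype ι] [DecidableEq ι] {ρ : Type*} [Fintype ρ] [DecidableEq ρ]

theorem laminar_form (π : ι → ρ) {θ0 : ℝ} {θ1 : ρ → ℝ} {θ2 : ι → ℝ} (h0 : 0 ≤ θ0) (h0' : θ0 ≤ 1)
    (h1 : ∀ i, θ1 i ≤ 1) (y : ι → ℝ) :
    ∑ a, ∑ b, y a * y b * (θ0 * (if π a = π b then θ1 (π a) else 1) *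
      (if a = b then θ2 a else 1)) ≤
      (∑ a, y a) ^ 2 - ∑ a, θ0 * θ1 (π a) * (1 - θ2 a) * y a ^ 2 := by
  have e1 : ∀ a b, y a * y b * (θ0 * (if π a = π b then θ1 (π a) else 1) *
      (if a = b then θ2 a else 1)) = θ0 * (y a * y b) -
        θ0 * (if π a = π b then (1 - θ1 (π a)) * (y a * y b) else 0) -
        (if a = b then θ0 * θ1 (π a) * (1 - θ2 a) * y a ^ 2 else 0) := by
    intro a b
    by_cases hab : a = b
    · subst hab; simp only [if_true]; ring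
    · by_cases hp : π a = π b
      · simp only [hab, hp, if_true, if_false]; ring
      · simp only [hab, hp, if_false]; ring
  have e2 : ∑ a, ∑ b, (if π a = π b then (1 - θ1 (π a)) * (y a * y b) else 0) =
      ∑ i, (1 - θ1 i) * (∑ a with π a = i, y a) ^ 2 := by
    rw [← sum_fiberwise univ π]
    refine sum_congr rfl fun i _ => ?_
    rw [pow_two, sum_mul_sum, mul_sum]
    refine sum_congr rfl fun a ha => ?_
    rw [mem_filter] at ha
    rw [mul_sum, sum_filter]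
    refine sum_congr rfl fun b _ => ?_
    rw [ha.2]
    by_cases hb : π b = i
    · rw [if_pos hb.symm, if_pos hb]
    · rw [if_neg (fun e => hb e.symm), if_neg hb]
  have e3 : 0 ≤ ∑ i, (1 - θ1 i) * (∑ a with π a = i, y a) ^ 2 :=
    sum_nonneg fun i _ => mul_nonneg (sub_nonneg.2 (h1 i)) (sq_nonneg _)
  simp only [e1, sum_sub_distrib, ← mul_sum, sum_ite_eq, mem_univ, if_true]
  rw [e2]
  have e5 : ∑ a, y a * ∑ b, y b = (∑ a, y a) ^ 2 := by rw [pow_two, sum_mul]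
  rw [e5]
  nlinarith [mul_nonneg h0 e3, mul_nonneg (sub_nonneg.2 h0') (sq_nonneg (∑ a, y a))]

/-- The sum of the coordinates in a group. -/
def gs (π : ι → ρ) (z : ι → ℤ) (i : ρ) : ℤ := ∑ a with π a = i, z a

/-- The energy of a partition into groups. -/
def grp (π : ι → ρ) (Φ : ρ → ℤ → ℝ) (z : ι → ℤ) : ℝ := ∑ i, Φ i (gs π z i)

/-- Second differences. -/
def d2 (φ : ℤ → ℝ) (ε s : ℤ) : ℝ := φ (s + ε + ε) - 2 * φ (s + ε) + φ s

omit [Fintype ρ] in
theorem gs_add (π : ι → ρ) (z : ι → ℤ) (ε : ℤ) (a : ι) (i : ρ) :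
    gs π (z + ε • uv a) i = gs π z i + if π a = i then ε else 0 := by
  unfold gs
  simp only [Pi.add_apply, sum_add_distrib, Pi.smul_apply, uv, Pi.single_apply, smul_eq_mul,
    mul_ite, mul_one, mul_zero, sum_ite_eq', mem_filter, mem_univ, true_and]

theorem grp_mixed (π : ι → ρ) (Φ : ρ → ℤ → ℝ) (z : ι → ℤ) (ε : ℤ) (a b : ι) :
    grp π Φ (z + ε • uv a + ε • uv b) + grp π Φ z =
      grp π Φ (z + ε • uv a) + grp π Φ (z + ε • uv b) +
        if π a = π b then d2 (Φ (π a)) ε (gs π z (π a)) else 0 := by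
  have e : (if π a = π b then d2 (Φ (π a)) ε (gs π z (π a)) else 0) =
      ∑ i, if π a = i then (if π b = i then d2 (Φ i) ε (gs π z i) else 0) else 0 := by
    rw [sum_ite_eq, if_pos (mem_univ _)]
    by_cases h : π a = π b
    · rw [if_pos h, if_pos h.symm]
    · rw [if_neg h, if_neg (fun e => h e.symm)]
  rw [e]
  unfold grp
  simp only [gs_add, ← sum_add_distrib]
  refine sum_congr rfl fun i _ => ?_
  by_cases ha : π a = i <;> by_cases hb : π b = i <;> simp only [ha, hb, if_true, if_false, d2,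
    add_zero] <;> ring

/-- The energy of a laminar family with three levels. -/
def en3 (π : ι → ρ) (Φ : ρ → ℤ → ℝ) (Γ : ι → ℤ → ℝ) (Φ0 : ℤ → ℝ) (z : ι → ℤ) : ℝ :=
  grp π Φ z + grp id Γ z + grp (fun _ => ()) (fun _ => Φ0) z

theorem en3_lc (π : ι → ρ) {Φ : ρ → ℤ → ℝ} {Γ : ι → ℤ → ℝ} {Φ0 : ℤ → ℝ} {ε : ℤ}
    (hΦ : ∀ i s, 0 ≤ d2 (Φ i) ε s) (hΦ0 : ∀ s, 0 ≤ d2 Φ0 ε s) (z : ι → ℤ) (p : ι → ℝ) :
    Real.exp (-en3 π Φ Γ Φ0 z) *
      ∑ a, ∑ b, p a * p b * Real.exp (-en3 π Φ Γ Φ0 (z + ε • uv a + ε • uv b)) ≤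
      (∑ a, p a * Real.exp (-en3 π Φ Γ Φ0 (z + ε • uv a))) ^ 2 -
        ∑ a, Real.exp (-d2 Φ0 ε (gs (fun _ => ()) z ())) *
          Real.exp (-d2 (Φ (π a)) ε (gs π z (π a))) * (1 - Real.exp (-d2 (Γ a) ε (gs id z a))) *
            (p a * Real.exp (-en3 π Φ Γ Φ0 (z + ε • uv a))) ^ 2 := by
  refine le_trans (le_of_eq ?_) (laminar_form π
    (θ1 := fun i => Real.exp (-d2 (Φ i) ε (gs π z i)))
    (θ2 := fun a => Real.exp (-d2 (Γ a) ε (gs id z a))) (Real.exp_pos _).le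
    (Real.exp_le_one_iff.2 (neg_nonpos.2 (hΦ0 _)))
    (fun i => Real.exp_le_one_iff.2 (neg_nonpos.2 (hΦ _ _))) _)
  rw [mul_sum]
  refine sum_congr rfl fun a _ => ?_
  rw [mul_sum]
  refine sum_congr rfl fun b _ => ?_
  have h1 := grp_mixed π Φ z ε a b
  have h2 := grp_mixed id Γ z ε a b
  have h3 := grp_mixed (fun _ : ι => ()) (fun _ => Φ0) z ε a b
  simp only [id_eq, if_true] at h2 h3
  have e1 : (if π a = π b then Real.exp (-d2 (Φ (π a)) ε (gs π z (π a))) else 1) =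
      Real.exp (-if π a = π b then d2 (Φ (π a)) ε (gs π z (π a)) else 0) := by
    split_ifs <;> simp
  have e2 : (if a = b then Real.exp (-d2 (Γ a) ε (gs id z a)) else 1) =
      Real.exp (-if a = b then d2 (Γ a) ε (gs id z a) else 0) := by
    split_ifs <;> simp
  rw [e1, e2]
  have e3 : ∀ u v s t w x y : ℝ, Real.exp u * (p a * p b * Real.exp v) =
      p a * p b * Real.exp (u + v) ∧ p a * Real.exp s * (p b * Real.exp t) *
        (Real.exp w * Real.exp x * Real.exp y) = p a * p b * Real.exp (s + t + w + x + y) := by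
    intro u v s t w x y
    simp only [Real.exp_add]
    constructor <;> ring
  rw [(e3 _ _ 0 0 0 0 0).1, (e3 0 0 _ _ _ _ _).2]
  congr 2
  unfold en3
  linarith

theorem d2_neg {φ : ℤ → ℝ} (h : ∀ s, 0 ≤ d2 φ 1 s) (s : ℤ) : 0 ≤ d2 φ (-1) s := by
  have := h (s - 2)
  unfold d2 at this ⊢
  rw [show s - 2 + 1 + 1 = s by ring, show s - 2 + 1 = s + -1 by ring,
    show s - 2 = s + -1 + -1 by ring] at this
  linarith

theorem gs_id (z : ι → ℤ) (a : ι) : gs id z a = z a := by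
  unfold gs
  simp only [id_eq, filter_eq', mem_univ, if_true, sum_singleton]

omit [DecidableEq ι] in
theorem gs_unit (z : ι → ℤ) (u : Unit) : gs (fun _ => ()) z u = ∑ a, z a := by
  unfold gs
  simp only [filter_true]

/-- The variance inequality for convex energies of rows, columns, cells and the total. -/
theorem bl_laminar {κ : Type*} [Fintype κ] [DecidableEq κ] (row : ι → ρ) (col : ι → κ)
    {Φ : ρ → ℤ → ℝ} {Ψ : κ → ℤ → ℝ} {Γ : ι → ℤ → ℝ} {Φ0 : ℤ → ℝ}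
    (hΦ : ∀ i s, 0 ≤ d2 (Φ i) 1 s) (hΨ : ∀ i s, 0 ≤ d2 (Ψ i) 1 s) (hΓ : ∀ i s, 0 ≤ d2 (Γ i) 1 s)
    (hΦ0 : ∀ s, 0 ≤ d2 Φ0 1 s) {g : (ι → ℤ) → ℝ} {D : (ι → ℤ) → ι → ℝ} (hD : ∀ z a, 0 ≤ D z a)
    (hΔ : ∀ (x : ι → ℕ) a, (g (cz x + uv a) - g (cz x)) ^ 2 ≤
      Real.exp (-d2 (Φ (row a)) 1 (gs row (cz x) (row a))) *
        (1 - Real.exp (-d2 (Γ a) 1 (x a))) * D (cz x) a)
    {U : ι → ℕ} (hU : ∀ a, 0 < U a) {W : (ι → ℕ) → ℝ}
    (hW : ∀ x, W x = Real.exp (-(grp row Φ (cz x) + grp col Ψ (cz x) + Φ0 (∑ a, cz x a) +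
      ∑ a, Γ a (x a)))) : ∃ c0 : ℝ,
      ∑ x ∈ Fintype.piFinset (fun a => range (U a)), W x * (g (cz x) - c0) ^ 2 ≤
      ∑ x ∈ Fintype.piFinset (fun a => range (U a)), W x * ∑ a, D (cz x) a := by
  have hz : ∀ ε s, d2 (fun _ => (0 : ℝ)) ε s = 0 := fun ε s => by simp [d2]
  have H := brascamp_lieb (F := fun z => Real.exp (-en3 row Φ Γ (fun _ => 0) z))
    (G := fun z => Real.exp (-en3 col Ψ (fun _ _ => 0) Φ0 z)) (g := g)
    (κ := fun z a => Real.exp (-d2 (Φ (row a)) 1 (gs row z (row a))) *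
      (1 - Real.exp (-d2 (Γ a) 1 (z a)))) (D := D) (fun _ => Real.exp_pos _)
    (fun _ => Real.exp_pos _) (fun z p => ?_) (fun z p => ?_) (fun z a => ?_) hD hΔ hU
  · have e : ∀ x : ι → ℕ, Real.exp (-en3 row Φ Γ (fun _ => 0) (cz x)) *
        Real.exp (-en3 col Ψ (fun _ _ => 0) Φ0 (cz x)) = W x := fun x => by
      rw [hW, ← Real.exp_add]
      congr 1
      simp only [en3, grp, gs_id, gs_unit, sum_const_zero, univ_unique, sum_singleton, cz]
      ring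
    simpa only [e] using H
  · have h := en3_lc row (Γ := Γ) (Φ0 := fun _ => 0) hΦ (fun s => (hz 1 s).ge) z p
    simpa only [one_smul, hz, neg_zero, Real.exp_zero, one_mul, gs_id] using h
  · have h := en3_lc col (Γ := fun _ _ => 0) (ε := -1) (fun i => d2_neg (hΨ i)) (d2_neg hΦ0) z p
    simpa only [neg_smul, one_smul, ← sub_eq_add_neg, hz, neg_zero, Real.exp_zero, sub_self,
      mul_zero, zero_mul, sum_const_zero, sub_zero] using h
  · exact mul_nonneg (Real.exp_pos _).le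
      (sub_nonneg.2 (Real.exp_le_one_iff.2 (neg_nonpos.2 (hΓ _ _))))

end Vale.Agent.P328
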