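import Vale.Agent.P328.GBase
import Vale.Agent.P328.Laminar

/-!
The Poincare inequality on the coarse grid.
-/

namespace Vale.Agent.P328

open Finset

theorem d2_hinge (A : ℝ) (t s : ℤ) :
    d2 (fun s => A * ((max (s - t) 0 : ℤ) : ℝ)) 1 s = if s + 1 = t then A else 0 := by
  have h : max (s + 1 + 1 - t) 0 - 2 * max (s + 1 - t) 0 + max (s - t) 0 =
      if s + 1 = t then 1 else 0 := by split_ifs <;> omega
  have h' := congrArg (fun x : ℤ => A * (x : ℝ)) h
  simp only [Int.cast_add, Int.cast_sub, Int.cast_mul, Int.cast_ofNat, Int.cast_ite, Int.cast_one,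
    Int.cast_zero, mul_ite, mul_one, mul_zero] at h'
  rw [← h']
  unfold d2
  ring

theorem d2_hinge' (A : ℝ) (t u s : ℤ) :
    d2 (fun s => A * ((max (t - (u + s)) 0 : ℤ) : ℝ)) 1 s = if u + s + 1 = t then A else 0 := by
  have h : max (t - (u + (s + 1 + 1))) 0 - 2 * max (t - (u + (s + 1))) 0 + max (t - (u + s)) 0 =
      if u + s + 1 = t then 1 else 0 := by split_ifs <;> omega
  have h' := congrArg (fun x : ℤ => A * (x : ℝ)) h
  simp only [Int.cast_add, Int.cast_sub, Int.cast_mul, Int.cast_ofNat, Int.cast_ite, Int.cast_one,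
    Int.cast_zero, mul_ite, mul_one, mul_zero] at h'
  rw [← h']
  unfold d2
  ring

theorem d2_sum {κ : Type*} (S : Finset κ) (φ : κ → ℤ → ℝ) (s : ℤ) :
    d2 (fun s => ∑ l ∈ S, φ l s) 1 s = ∑ l ∈ S, d2 (φ l) 1 s := by
  unfold d2
  rw [mul_sum, ← sum_sub_distrib, ← sum_add_distrib]

theorem cast_tsub (a b : ℕ) : ((a - b : ℕ) : ℝ) = ((max ((a : ℤ) - b) 0 : ℤ) : ℝ) := by
  have : ((a - b : ℕ) : ℤ) = max ((a : ℤ) - b) 0 := by omega
  rw [← this, Int.cast_natCast]

theorem half_le_one_sub_exp {μ d : ℝ} (h0 : 0 ≤ μ) (h1 : μ ≤ 1) (h : μ ≤ d) :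
    μ / 2 ≤ 1 - Real.exp (-d) := by
  have h2 : Real.exp (-d) ≤ Real.exp (-μ) := Real.exp_le_exp.2 (by linarith)
  have h3 : Real.exp (-μ) * (μ + 1) ≤ 1 := by
    calc Real.exp (-μ) * (μ + 1) ≤ Real.exp (-μ) * Real.exp μ :=
          mul_le_mul_of_nonneg_left (Real.add_one_le_exp μ) (Real.exp_pos _).le
      _ = 1 := by rw [← Real.exp_add]; simp
  have h4 := Real.exp_pos (-μ)
  nlinarith

namespace Par

variable {m n : ℕ} (P : Par m n)

/-- The block numbers of a point. -/
def kk (x : Pt m n) : Pt m n := fun a => min (x a / P.del a) (P.Kc a - 1)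

/-- The next step in the coordinate `a` crosses the border of a block. -/
def Cross (x : Pt m n) (a : Fin m × Fin n) : Prop :=
  (x a + 1) % P.del a = 0 ∧ (x a + 1) / P.del a < P.Kc a

theorem kk_up {x : Pt m n} {a : Fin m × Fin n} (h : ¬ P.Cross x a) : P.kk (up a x) = P.kk x := by
  funext b
  by_cases hb : b = a
  · subst hb
    simp only [kk, up, Function.update_self]
    have hd := P.del_pos b
    by_cases h1 : (x b + 1) % P.del b = 0
    · have h2 : P.Kc b ≤ (x b + 1) / P.del b := not_lt.1 fun h2 => h ⟨h1, h2⟩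
      have h3 : (x b + 1) / P.del b ≤ x b / P.del b + 1 := by
        rw [Nat.succ_div]; split_ifs <;> omega
      generalize (x b + 1) / P.del b = u at *
      generalize x b / P.del b = v at *
      omega
    · rw [Nat.succ_div, if_neg (fun h2 => h1 (Nat.mod_eq_zero_of_dvd h2)), add_zero]
  · simp only [kk, up, Function.update_of_ne hb]

theorem pt_div {k y : Pt m n} (hy : y ∈ P.cube) (a : Fin m × Fin n) :
    P.pt k y a / P.del a = k a := by
  have h := mem_range.1 (Fintype.mem_piFinset.1 hy a)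
  unfold pt
  rw [Nat.mul_add_div (P.del_pos a), Nat.div_eq_of_lt h, add_zero]

theorem kk_pt {k y : Pt m n} (hk : k ∈ P.grid) (hy : y ∈ P.cube) : P.kk (P.pt k y) = k := by
  funext a
  have h := mem_range.1 (Fintype.mem_piFinset.1 hk a)
  unfold kk
  rw [P.pt_div hy]
  omega

theorem cross_pt {k y : Pt m n} (hy : y ∈ P.cube) {a : Fin m × Fin n}
    (h : P.Cross (P.pt k y) a) : y a = P.del a - 1 ∧ k a + 1 < P.Kc a ∧
      Function.update y a 0 ∈ P.cube ∧
      up a (P.pt k y) = P.pt (up a k) (Function.update y a 0) := by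
  have h0 := mem_range.1 (Fintype.mem_piFinset.1 hy a)
  obtain ⟨h1, h2⟩ := h
  unfold pt at h1 h2
  rw [add_assoc, Nat.mul_add_mod] at h1
  have h3 : y a + 1 = P.del a := by
    by_contra h3
    rw [Nat.mod_eq_of_lt (by omega)] at h1
    omega
  rw [add_assoc, h3, ← mul_add_one, Nat.mul_div_cancel_left _ (P.del_pos a)] at h2
  refine ⟨by omega, h2, ?_, ?_⟩
  · refine Fintype.mem_piFinset.2 fun b => ?_
    by_cases hb : b = a
    · subst hb
      rw [Function.update_self]
      exact mem_range.2 (P.del_pos b)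
    · rw [Function.update_of_ne hb]
      exact Fintype.mem_piFinset.1 hy b
  · funext b
    by_cases hb : b = a
    · subst hb
      simp only [up, pt, Function.update_self]
      rw [add_assoc, h3, mul_add_one, add_zero]
    · simp only [up, pt, Function.update_of_ne hb]

theorem card_top (a : Fin m × Fin n) :
    (P.cube.filter fun y => y a = P.del a - 1).card * P.del a = P.cube.card := by
  have hd := P.del_pos a
  unfold cube
  have h := Fintype.card_filter_piFinset_eq_of_mem (fun a => range (P.del a)) a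
    (a := P.del a - 1) (mem_range.2 (by omega))
  rw [Fintype.card_piFinset, ← prod_erase_mul _ _ (mem_univ a), card_range]
  congr 1

theorem eta_pow_tau (s : ℕ) : P.eta ^ (s * tau m n * (P.N + 1)) * (MM m n : ℝ) ^ s = 1 := by
  rw [mul_comm (s * tau m n), pow_mul, P.eta_pow, MM, Nat.cast_pow, ← pow_mul, mul_comm s,
    ← mul_pow]
  norm_num

/-- The logarithm of the base. -/
noncomputable def cc : ℝ := -Real.log P.eta

theorem cc_nonneg : 0 ≤ P.cc := neg_nonneg.2 (Real.log_nonpos P.eta_pos.le P.eta_le_one)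

theorem eta_pow_eq (k : ℕ) : P.eta ^ k = Real.exp (-(P.cc * k)) := by
  rw [cc, neg_mul, neg_neg, mul_comm, Real.exp_nat_mul, Real.exp_log P.eta_pos]

/-- The size of the kinks of the auxiliary weight. -/
noncomputable def mu (a : Fin m × Fin n) : ℝ := 1 / ((MM m n : ℝ) ^ 28 * P.del a)

/-- The energy of the auxiliary weight. -/
noncomputable def Gam (a : Fin m × Fin n) (s : ℤ) : ℝ :=
  ∑ l ∈ range (P.Kc a), P.mu a * ((max (s - (P.del a * l : ℕ)) 0 : ℤ) : ℝ)

theorem mu_pos (a : Fin m × Fin n) : 0 < P.mu a := by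
  have h1 : (0 : ℝ) < MM m n := by exact_mod_cast MM_pos m n
  have h2 : (0 : ℝ) < P.del a := by exact_mod_cast P.del_pos a
  unfold mu
  positivity

theorem mu_le_one (a : Fin m × Fin n) : P.mu a ≤ 1 := by
  have h1 : (1 : ℝ) ≤ MM m n := by exact_mod_cast MM_pos m n
  have h2 : (1 : ℝ) ≤ P.del a := by exact_mod_cast P.del_pos a
  unfold mu
  rw [div_le_one (by positivity)]
  exact one_le_mul_of_one_le_of_one_le (one_le_pow₀ h1) h2

theorem d2_Gam (a : Fin m × Fin n) (s : ℤ) : d2 (P.Gam a) 1 s =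
    ∑ l ∈ range (P.Kc a), if s + 1 = (P.del a * l : ℕ) then P.mu a else 0 := by
  unfold Gam
  rw [d2_sum]
  exact sum_congr rfl fun l _ => d2_hinge _ _ _

theorem d2_Gam_nonneg (a : Fin m × Fin n) (s : ℤ) : 0 ≤ d2 (P.Gam a) 1 s := by
  rw [d2_Gam]
  refine sum_nonneg fun l _ => ?_
  split_ifs
  · exact (P.mu_pos a).le
  · exact le_rfl

theorem mu_le_d2 {x : Pt m n} {a : Fin m × Fin n} (h : P.Cross x a) :
    P.mu a ≤ d2 (P.Gam a) 1 (x a) := by
  rw [d2_Gam]
  have h1 : ((x a : ℤ) + 1) = (P.del a * ((x a + 1) / P.del a) : ℕ) := by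
    rw [Nat.mul_div_cancel' (Nat.dvd_of_mod_eq_zero h.1)]
    push_cast
    rfl
  refine le_trans (le_of_eq (if_pos h1).symm) (single_le_sum (f := fun l =>
    if (x a : ℤ) + 1 = (P.del a * l : ℕ) then P.mu a else 0) (fun l _ => ?_) (mem_range.2 h.2))
  split_ifs
  · exact (P.mu_pos a).le
  · exact le_rfl

theorem Gam_nonneg (a : Fin m × Fin n) (s : ℤ) : 0 ≤ P.Gam a s :=
  sum_nonneg fun l _ => mul_nonneg (P.mu_pos a).le (by exact_mod_cast le_max_right _ _)

theorem sum_Gam_le {x : Pt m n} (hx : x ∈ P.box) : ∑ a, P.Gam a (x a) ≤ 1 / 2 := by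
  have hM : (0 : ℝ) < MM m n := by exact_mod_cast MM_pos m n
  have h1 : ∀ a, P.Gam a (x a) ≤ 1 / (MM m n : ℝ) ^ 2 := fun a => by
    have h2 : (0 : ℝ) < P.del a := by exact_mod_cast P.del_pos a
    have h3 : (x a : ℝ) ≤ P.del a * P.Kc a := by
      exact_mod_cast (mem_range.1 (Fintype.mem_piFinset.1 hx a)).le
    have h4 : (P.Kc a : ℝ) ≤ (MM m n : ℝ) ^ 13 := by exact_mod_cast P.Kc_le a
    have h5 : P.Gam a (x a) ≤ P.Kc a * (P.mu a * x a) := by
      have := sum_le_card_nsmul (range (P.Kc a))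
        (fun l => P.mu a * ((max ((x a : ℤ) - (P.del a * l : ℕ)) 0 : ℤ) : ℝ)) (P.mu a * x a)
        fun l _ => mul_le_mul_of_nonneg_left (by
          rw [← cast_tsub]; exact_mod_cast Nat.sub_le _ _) (P.mu_pos a).le
      rwa [card_range, nsmul_eq_mul] at this
    have h6 : (x a : ℝ) ≤ P.del a * (MM m n : ℝ) ^ 13 :=
      h3.trans (mul_le_mul_of_nonneg_left h4 h2.le)
    calc P.Gam a (x a) ≤ P.Kc a * (P.mu a * x a) := h5
      _ ≤ (MM m n : ℝ) ^ 13 * (P.mu a * (P.del a * (MM m n : ℝ) ^ 13)) :=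
          mul_le_mul h4 (mul_le_mul_of_nonneg_left h6 (P.mu_pos a).le)
            (mul_nonneg (P.mu_pos a).le (Nat.cast_nonneg _)) (by positivity)
      _ = 1 / (MM m n : ℝ) ^ 2 := by unfold mu; field_simp
  have h7 := sum_le_card_nsmul univ _ _ fun a _ => h1 a
  rw [card_univ, Fintype.card_prod, Fintype.card_fin, Fintype.card_fin, nsmul_eq_mul] at h7
  have h8 : (4 : ℝ) * ((m * n : ℕ) : ℝ) ≤ (MM m n : ℝ) ^ 2 := by exact_mod_cast four_mul_le m n
  refine h7.trans ?_
  rw [mul_one_div, div_le_iff₀ (by positivity)]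
  have : (0 : ℝ) ≤ ((m * n : ℕ) : ℝ) := Nat.cast_nonneg _
  linarith

theorem gs_fst (x : Pt m n) (i : Fin m) : gs Prod.fst (cz x) i = (∑ j, x (i, j) : ℕ) := by
  unfold gs cz
  rw [sum_filter, Fintype.sum_prod_type, sum_comm]
  simp only [sum_ite_eq', mem_univ, if_true, Nat.cast_sum]

theorem gs_snd (x : Pt m n) (j : Fin n) : gs Prod.snd (cz x) j = (∑ i, x (i, j) : ℕ) := by
  unfold gs cz
  rw [sum_filter, Fintype.sum_prod_type]
  simp only [sum_ite_eq', mem_univ, if_true, Nat.cast_sum]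

open Classical in
/-- The variance inequality on the fine box. -/
theorem fine (f : Pt m n → ℝ) : ∃ c0 : ℝ,
    ∑ x ∈ P.box, P.eta ^ P.pen x * (f (P.kk x) - c0) ^ 2 ≤
      2 * ∑ x ∈ P.box, P.eta ^ P.pen x * ∑ a, if P.Cross x a then
        (f (P.kk (up a x)) - f (P.kk x)) ^ 2 * (2 * (MM m n : ℝ) ^ 36 * P.del a) else 0 := by
  have hM : (0 : ℝ) < MM m n := by exact_mod_cast MM_pos m n
  have hc := P.cc_nonneg
  have hite : ∀ (p : Prop) [Decidable p] (A : ℝ), 0 ≤ A → 0 ≤ if p then A else 0 :=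
    fun p _ A hA => by
      split_ifs
      · exact hA
      · exact le_rfl
  have hnat : ∀ x : Pt m n, (fun a => (cz x a).toNat) = x := fun x => by
    funext a; simp [cz]
  refine (bl_laminar (ι := Fin m × Fin n) Prod.fst Prod.snd
    (Φ := fun i s => P.cc * P.pr i * ((max (s - P.r i) 0 : ℤ) : ℝ))
    (Ψ := fun j s => P.cc * P.pc j * ((max (s - P.c j) 0 : ℤ) : ℝ)) (Γ := P.Gam)
    (Φ0 := fun s => P.cc * P.p0 * ((max (P.N - ((P.r P.i0 + P.c P.j0 : ℕ) + s)) 0 : ℤ) : ℝ))
    (fun i s => by rw [d2_hinge]; exact hite _ _ (by positivity))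
    (fun i s => by rw [d2_hinge]; exact hite _ _ (by positivity)) P.d2_Gam_nonneg
    (fun s => by rw [d2_hinge']; exact hite _ _ (by positivity))
    (g := fun z => f (P.kk fun a => (z a).toNat))
    (D := fun z a => if P.Cross (fun a => (z a).toNat) a then
      (f (P.kk (up a fun a => (z a).toNat)) - f (P.kk fun a => (z a).toNat)) ^ 2 *
        (2 * (MM m n : ℝ) ^ 36 * P.del a) else 0)
    (fun z a => hite _ _ (by positivity)) (fun x a => ?_)
    (U := fun a => P.del a * P.Kc a) (fun a => mul_pos (P.del_pos a) (P.Kc_pos a))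
    (W := fun x => P.eta ^ P.pen x * Real.exp (-∑ a, P.Gam a (x a))) (fun x => ?_)).elim
    fun c0 H => ?_
  rotate_left 2
  · refine ⟨c0, ?_⟩
    simp only [hnat] at H
    change ∑ x ∈ P.box, _ ≤ ∑ x ∈ P.box, _ at H
    have h1 : ∑ x ∈ P.box, P.eta ^ P.pen x * (f (P.kk x) - c0) ^ 2 ≤ 2 * ∑ x ∈ P.box,
        P.eta ^ P.pen x * Real.exp (-∑ a, P.Gam a (x a)) * (f (P.kk x) - c0) ^ 2 := by
      rw [mul_sum]
      refine sum_le_sum fun x hx => ?_
      have h2 := Real.add_one_le_exp (-∑ a, P.Gam a (x a))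
      have h3 := P.sum_Gam_le hx
      have h4 : 0 ≤ P.eta ^ P.pen x * (f (P.kk x) - c0) ^ 2 :=
        mul_nonneg (pow_pos P.eta_pos _).le (sq_nonneg _)
      nlinarith
    refine h1.trans (mul_le_mul_of_nonneg_left (H.trans (sum_le_sum fun x _ => ?_)) (by norm_num))
    refine mul_le_mul_of_nonneg_right (mul_le_of_le_one_right (pow_pos P.eta_pos _).le ?_)
      (sum_nonneg fun a _ => hite _ _ (by positivity))
    exact Real.exp_le_one_iff.2 (neg_nonpos.2 (sum_nonneg fun a _ => P.Gam_nonneg _ _))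
  · rw [← cz_update]
    simp only [hnat]
    change (f (P.kk (up a x)) - _) ^ 2 ≤ _
    by_cases h : P.Cross x a
    · rw [if_pos h]
      have h1 := half_le_one_sub_exp (P.mu_pos a).le (P.mu_le_one a) (P.mu_le_d2 h)
      have h2 : P.eta ^ (8 * tau m n * (P.N + 1)) ≤ Real.exp (-d2
          (fun s => P.cc * P.pr a.1 * ((max (s - P.r a.1) 0 : ℤ) : ℝ)) 1
            (gs Prod.fst (cz x) a.1)) := by
        refine (pow_le_pow_of_le_one P.eta_pos.le P.eta_le_one (P.pr_le a.1)).trans ?_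
        rw [eta_pow_eq, d2_hinge]
        refine Real.exp_le_exp.2 (neg_le_neg ?_)
        split_ifs
        · exact le_rfl
        · positivity
      have h3 := P.eta_pow_tau 8
      have h4 : (0 : ℝ) < P.del a := by exact_mod_cast P.del_pos a
      have h5 : P.eta ^ (8 * tau m n * (P.N + 1)) * (P.mu a / 2) *
          (2 * (MM m n : ℝ) ^ 36 * P.del a) = 1 := by
        rw [← h3]; unfold mu; field_simp
      have h6 := mul_le_mul h2 h1 (half_pos (P.mu_pos a)).le (Real.exp_pos _).le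
      have h7 := mul_le_mul_of_nonneg_right h6
        (show (0 : ℝ) ≤ 2 * (MM m n : ℝ) ^ 36 * P.del a by positivity)
      rw [h5] at h7
      rw [mul_left_comm]
      exact le_mul_of_one_le_right (sq_nonneg _) h7
    · rw [if_neg h, P.kk_up h, sub_self, mul_zero]
      norm_num
  · rw [eta_pow_eq, ← Real.exp_add]
    congr 1
    have e1 : ∑ a, cz x a = (∑ a, x a : ℕ) := by simp only [cz, Nat.cast_sum]
    simp only [grp, gs_fst, gs_snd, e1, ← Nat.cast_add, ← cast_tsub, pen]
    push_cast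
    simp only [mul_add, mul_sum, mul_assoc]
    ring

open Classical in
theorem cube_le {k : Pt m n} (hk : k ∈ P.grid) (a : Fin m × Fin n) (f : Pt m n → ℝ) :
    ∑ y ∈ P.cube, P.eta ^ P.pen (P.pt k y) * (if P.Cross (P.pt k y) a then
      (f (P.kk (up a (P.pt k y))) - f (P.kk (P.pt k y))) ^ 2 *
        (2 * (MM m n : ℝ) ^ 36 * P.del a) else 0) ≤
      if k a + 1 < P.Kc a then 4 * (MM m n : ℝ) ^ 52 * P.cube.card *
        (min (P.w k) (P.w (up a k)) * (f (up a k) - f k) ^ 2) else 0 := by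
  have hM : (1 : ℝ) ≤ MM m n := by exact_mod_cast MM_pos m n
  have hmin : 0 ≤ min (P.w k) (P.w (up a k)) := le_min (P.w_pos _).le (P.w_pos _).le
  by_cases h : k a + 1 < P.Kc a
  · rw [if_pos h]
    have hk' : up a k ∈ P.grid := by
      refine Fintype.mem_piFinset.2 fun b => ?_
      by_cases hb : b = a
      · subst hb
        rw [up, Function.update_self]
        exact mem_range.2 h
      · rw [up, Function.update_of_ne hb]
        exact Fintype.mem_piFinset.1 hk b
    have h1 : ∀ y ∈ P.cube, P.eta ^ P.pen (P.pt k y) * (if P.Cross (P.pt k y) a then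
        (f (P.kk (up a (P.pt k y))) - f (P.kk (P.pt k y))) ^ 2 *
          (2 * (MM m n : ℝ) ^ 36 * P.del a) else 0) ≤ if y a = P.del a - 1 then
        4 * (MM m n : ℝ) ^ 52 * P.del a *
          (min (P.w k) (P.w (up a k)) * (f (up a k) - f k) ^ 2) else 0 := by
      intro y hy
      by_cases hc : P.Cross (P.pt k y) a
      · obtain ⟨c1, -, c3, c4⟩ := P.cross_pt hy hc
        rw [if_pos hc, if_pos c1, c4, P.kk_pt hk' c3, P.kk_pt hk hy]
        have h2 : P.eta ^ P.pen (P.pt k y) ≤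
            2 * (MM m n : ℝ) ^ 16 * min (P.w k) (P.w (up a k)) := by
          rw [mul_min_of_nonneg _ _ (by positivity)]
          refine le_min ((P.le_w k hy).trans ?_) ?_
          · exact mul_le_mul_of_nonneg_right (le_mul_of_one_le_right (by norm_num)
              (one_le_pow₀ hM)) (P.w_pos k).le
          · have h3 := P.le_w (up a k) c3
            rw [← c4] at h3
            have h4 := pow_le_pow_of_le_one P.eta_pos.le P.eta_le_one (P.pen_up_le a (P.pt k y))
            rw [pow_add] at h4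
            have h5 := mul_le_mul_of_nonneg_right (h4.trans h3)
              (show (0 : ℝ) ≤ (MM m n : ℝ) ^ 16 by positivity)
            rw [mul_assoc, P.eta_pow_tau 16, mul_one] at h5
            linarith
        refine (mul_le_mul_of_nonneg_right h2 (by positivity)).trans (le_of_eq ?_)
        ring
      · rw [if_neg hc, mul_zero]
        split_ifs
        · positivity
        · exact le_rfl
    refine (sum_le_sum h1).trans (le_of_eq ?_)
    rw [← sum_filter, sum_const, nsmul_eq_mul, ← P.card_top a, Nat.cast_mul]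
    ring
  · rw [if_neg h]
    refine le_of_eq (sum_eq_zero fun y hy => ?_)
    rw [if_neg (fun hc => h (P.cross_pt hy hc).2.1), mul_zero]

/-- **The Poincare inequality on the coarse grid.** -/
theorem poincare (f : Pt m n → ℝ) : ∃ c0 : ℝ, ∑ k ∈ P.grid, P.w k * (f k - c0) ^ 2 ≤
    (MM m n : ℝ) ^ 60 * ∑ a, ∑ k ∈ P.grid with k a + 1 < P.Kc a,
      min (P.w k) (P.w (up a k)) * (f (up a k) - f k) ^ 2 := by
  classical
  obtain ⟨c0, H⟩ := P.fine f
  refine ⟨c0, ?_⟩
  have hM : (4 : ℝ) ≤ MM m n := by exact_mod_cast P.four_le_MM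
  have hc : (0 : ℝ) < P.cube.card := by
    have : (fun _ => 0) ∈ P.cube := Fintype.mem_piFinset.2 fun a => mem_range.2 (P.del_pos a)
    exact_mod_cast card_pos.2 ⟨_, this⟩
  set E := ∑ a, ∑ k ∈ P.grid with k a + 1 < P.Kc a,
    min (P.w k) (P.w (up a k)) * (f (up a k) - f k) ^ 2 with hE
  have hE0 : 0 ≤ E := sum_nonneg fun a _ => sum_nonneg fun k _ =>
    mul_nonneg (le_min (P.w_pos _).le (P.w_pos _).le) (sq_nonneg _)
  have h1 : P.cube.card * ∑ k ∈ P.grid, P.w k * (f k - c0) ^ 2 ≤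
      4 * ∑ x ∈ P.box, P.eta ^ P.pen x * (f (P.kk x) - c0) ^ 2 := by
    rw [sum_box, mul_sum, mul_sum]
    refine sum_le_sum fun k hk => ?_
    rw [← nsmul_eq_mul, ← sum_const, mul_sum]
    refine sum_le_sum fun y hy => ?_
    rw [P.kk_pt hk hy, ← mul_assoc]
    exact mul_le_mul_of_nonneg_right (P.w_le k hy) (sq_nonneg _)
  have h2 : ∑ x ∈ P.box, P.eta ^ P.pen x * ∑ a, (if P.Cross x a then
      (f (P.kk (up a x)) - f (P.kk x)) ^ 2 * (2 * (MM m n : ℝ) ^ 36 * P.del a) else 0) ≤
      4 * (MM m n : ℝ) ^ 52 * P.cube.card * E := by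
    simp only [mul_sum, hE, sum_filter, mul_ite, mul_zero]
    rw [sum_comm]
    refine sum_le_sum fun a _ => ?_
    rw [sum_box]
    refine sum_le_sum fun k hk => ?_
    have := P.cube_le hk a f
    simpa only [mul_ite, mul_zero] using this
  have h3 : P.cube.card * ∑ k ∈ P.grid, P.w k * (f k - c0) ^ 2 ≤
      P.cube.card * (32 * (MM m n : ℝ) ^ 52 * E) := by linarith
  refine (le_of_mul_le_mul_left h3 hc).trans (mul_le_mul_of_nonneg_right ?_ hE0)
  have h4 : (32 : ℝ) ≤ (MM m n : ℝ) ^ 8 :=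
    le_trans (by norm_num) (pow_le_pow_left₀ (by norm_num) hM 8)
  calc 32 * (MM m n : ℝ) ^ 52 ≤ (MM m n : ℝ) ^ 8 * (MM m n : ℝ) ^ 52 :=
        mul_le_mul_of_nonneg_right h4 (by positivity)
    _ = (MM m n : ℝ) ^ 60 := by ring

end Par

end Vale.Agent.P328
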