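import Vale.Agent.P328.GBridge
import Vale.Agent.P328.GPoin

/-!
The almost uniform sampler for contingency tables.
-/

namespace Vale.Agent.P328

theorem Par.facts {m n : ℕ} (P : Par m n) : P.Facts :=
  ⟨P.hgt_le, P.card_grid_le, P.poincare, P.Z_le, P.hgt_eq_zero, P.sum_box, P.sum_tab, P.tab_mem⟩

theorem statement : Statement := statement_of_facts fun _ _ P => P.facts

end Vale.Agent.P328
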