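import Vale.Agent.P328.GExt

/-!
The total weight of the fine box is at most twice the number of tables.
-/

namespace Vale.Agent.P328

open Finset

namespace Par

variable {m n : ℕ} (P : Par m n)

/-- The integer matrix of a point. -/
def itab (x : Pt m n) (a : Fin m × Fin n) : ℤ :=
  if a.1 = P.i0 then
    (if a.2 = P.j0 then (P.r P.i0 : ℤ) + P.c P.j0 + ∑ b, (x b : ℤ) - P.N
      else P.c a.2 - ∑ i', (x (i', a.2) : ℤ))
  else if a.2 = P.j0 then P.r a.1 - ∑ j', (x (a.1, j') : ℤ) else x a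

/-- The bases of the weights of the negative entries. -/
noncomputable def ebase (a : Fin m × Fin n) : ℝ :=
  if a.1 ≠ P.i0 ∧ a.2 ≠ P.j0 then 0 else P.eta ^ P.slope (min (P.r a.1) (P.c a.2))

theorem slack_zero {x : Pt m n} (hx : x ∈ P.box) {a : Fin m × Fin n}
    (ha : a.1 = P.i0 ∨ a.2 = P.j0) : x a = 0 := by
  have h := mem_range.1 (Fintype.mem_piFinset.1 hx a)
  have hn : ¬(a.1 ≠ P.i0 ∧ a.2 ≠ P.j0) := by tauto
  rw [del, Kc, if_neg hn, if_neg hn] at h
  omega

theorem itab_row {x : Pt m n} (hx : x ∈ P.box) (i : Fin m) : ∑ j, P.itab x (i, j) = P.r i := by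
  have hN : (P.N : ℤ) = ∑ j, (P.c j : ℤ) := by rw [N, P.hN]; push_cast; rfl
  by_cases hi : i = P.i0
  · subst hi
    have h : ∀ j, P.itab x (P.i0, j) = (P.c j - ∑ i', (x (i', j) : ℤ)) +
        if j = P.j0 then (P.r P.i0 : ℤ) + ∑ b, (x b : ℤ) - P.N else 0 := by
      intro j
      by_cases hj : j = P.j0
      · subst hj
        have : ∑ i', (x (i', P.j0) : ℤ) = 0 :=
          sum_eq_zero fun i' _ => by rw [P.slack_zero hx (Or.inr rfl)]; rfl
        simp [itab, this]
        ring
      · simp [itab, hj]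
    rw [sum_congr rfl fun j _ => h j, sum_add_distrib, sum_sub_distrib, ← hN, sum_comm,
      Fintype.sum_prod_type]
    simp
  · have h : ∀ j, P.itab x (i, j) = (x (i, j) : ℤ) +
        if j = P.j0 then (P.r i : ℤ) - ∑ j', (x (i, j') : ℤ) else 0 := by
      intro j
      by_cases hj : j = P.j0
      · subst hj
        simp [itab, hi, P.slack_zero hx (a := (i, P.j0)) (Or.inr rfl)]
      · simp [itab, hi, hj]
    rw [sum_congr rfl fun j _ => h j, sum_add_distrib]
    simp

theorem itab_col {x : Pt m n} (hx : x ∈ P.box) (j : Fin n) : ∑ i, P.itab x (i, j) = P.c j := by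
  have hN : (P.N : ℤ) = ∑ i, (P.r i : ℤ) := by rw [N]; push_cast; rfl
  by_cases hj : j = P.j0
  · subst hj
    have h : ∀ i, P.itab x (i, P.j0) = (P.r i - ∑ j', (x (i, j') : ℤ)) +
        if i = P.i0 then (P.c P.j0 : ℤ) + ∑ b, (x b : ℤ) - P.N else 0 := by
      intro i
      by_cases hi : i = P.i0
      · subst hi
        have : ∑ j', (x (P.i0, j') : ℤ) = 0 :=
          sum_eq_zero fun j' _ => by rw [P.slack_zero hx (Or.inl rfl)]; rfl
        simp [itab, this]
        ring
      · simp [itab, hi]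
    rw [sum_congr rfl fun i _ => h i, sum_add_distrib, sum_sub_distrib, ← hN,
      Fintype.sum_prod_type]
    simp
  · have h : ∀ i, P.itab x (i, j) = (x (i, j) : ℤ) +
        if i = P.i0 then (P.c j : ℤ) - ∑ i', (x (i', j) : ℤ) else 0 := by
      intro i
      by_cases hi : i = P.i0
      · subst hi
        simp [itab, hj, P.slack_zero hx (a := (P.i0, j)) (Or.inl rfl)]
      · simp [itab, hi, hj]
    rw [sum_congr rfl fun i _ => h i, sum_add_distrib]
    simp

theorem itab_inj : Set.InjOn P.itab P.box := by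
  intro x hx x' hx' h
  funext a
  by_cases ha : a.1 = P.i0 ∨ a.2 = P.j0
  · rw [P.slack_zero hx ha, P.slack_zero hx' ha]
  · push Not at ha
    have := congrFun h a
    simpa [itab, ha.1, ha.2] using this

theorem om_itab (x : Pt m n) : om P.ebase (P.itab x) = P.eta ^ P.pen x := by
  have h : ∀ a : Fin m × Fin n, P.ebase a ^ (-P.itab x a).toNat = P.eta ^
      ((if a.2 = P.j0 then P.pr a.1 * (∑ j, x (a.1, j) - P.r a.1) else 0) +
        (if a.1 = P.i0 then P.pc a.2 * (∑ i, x (i, a.2) - P.c a.2) else 0) +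
        if a = (P.i0, P.j0) then P.p0 * (P.N - (P.r P.i0 + P.c P.j0 + ∑ b, x b)) else 0) := by
    rintro ⟨i, j⟩
    by_cases hi : i = P.i0 <;> by_cases hj : j = P.j0
    · subst hi hj
      have : (-P.itab x (P.i0, P.j0)).toNat = P.N - (P.r P.i0 + P.c P.j0 + ∑ b, x b) := by
        simp only [itab, if_true, ← Nat.cast_sum]
        omega
      rw [this]
      simp [ebase, pr, pc, p0, pow_mul]
    · subst hi
      have : (-P.itab x (P.i0, j)).toNat = ∑ i, x (i, j) - P.c j := by
        simp only [itab, if_true, if_neg hj, ← Nat.cast_sum]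
        omega
      rw [this]
      simp [ebase, pc, hj, pow_mul]
    · subst hj
      have : (-P.itab x (i, P.j0)).toNat = ∑ j, x (i, j) - P.r i := by
        simp only [itab, if_true, if_neg hi, ← Nat.cast_sum]
        omega
      rw [this]
      simp [ebase, pr, hi, pow_mul]
    · have : (-P.itab x (i, j)).toNat = 0 := by
        simp only [itab, if_neg hi, if_neg hj]
        omega
      rw [this]
      simp [hi, hj]
  rw [om, prod_congr rfl fun a _ => h a, prod_pow_eq_pow_sum, sum_add_distrib, sum_add_distrib,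
    pen]
  congr 2
  · congr 1
    · rw [Fintype.sum_prod_type]
      simp
    · rw [Fintype.sum_prod_type_right]
      simp
  · simp

theorem slope_lam_ge (ρ : ℕ) : 4 * tau m n * (P.N + 1) ≤ P.slope ρ * lam m n ρ := by
  rw [slope, mul_assoc (4 * tau m n)]
  refine Nat.mul_le_mul_left _ ?_
  have h : 0 < lam m n ρ := Nat.succ_pos _
  rw [mul_comm]
  exact (Nat.lt_mul_div_succ _ h).le

theorem ebase_pow (s : Fin m × Fin n) :
    P.ebase s ^ lam m n (min (P.r s.1) (P.c s.2)) * (MM m n : ℝ) ^ 4 ≤ 1 := by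
  unfold ebase
  split_ifs
  · rw [lam, pow_succ, mul_zero, zero_mul]
    exact zero_le_one
  · rw [← pow_mul]
    have h1 := pow_le_pow_of_le_one P.eta_pos.le P.eta_le_one
      (P.slope_lam_ge (min (P.r s.1) (P.c s.2)))
    refine (mul_le_mul_of_nonneg_right h1 (by positivity)).trans (le_of_eq ?_)
    rw [mul_comm (4 * tau m n), pow_mul, eta_pow, MM]
    push_cast
    rw [← pow_mul, mul_comm (tau m n), ← mul_pow]
    norm_num

theorem mass_le : ∑ x ∈ P.box, P.eta ^ P.pen x ≤ 2 * (tables P.r P.c).card := by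
  obtain ⟨A, hA⟩ : ∃ A : ℕ, ∀ x ∈ P.box, ∀ a, -(A : ℤ) ≤ P.itab x a := by
    refine ⟨(P.box ×ˢ univ).sup fun p => (-P.itab p.1 p.2).toNat, fun x hx a => ?_⟩
    have := le_sup (f := fun p : Pt m n × (Fin m × Fin n) => (-P.itab p.1 p.2).toNat)
      (mk_mem_product hx (mem_univ a))
    simp only at this
    omega
  have h0 : ∀ a, 0 ≤ P.ebase a := fun a => by
    unfold ebase
    split_ifs
    · exact le_rfl
    · exact pow_nonneg P.eta_pos.le _
  have h1 : ∀ a, P.ebase a ≤ 1 := fun a => by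
    unfold ebase
    split_ifs
    · exact zero_le_one
    · exact pow_le_one₀ P.eta_pos.le P.eta_le_one
  refine le_trans ?_ (sum_om_le (A := A) P.four_le_MM h0 h1 P.ebase_pow)
  rw [sum_congr rfl fun x _ => (P.om_itab x).symm, ← sum_image (f := om P.ebase) P.itab_inj]
  refine sum_le_sum_of_subset_of_nonneg (fun Y hY => ?_) fun Y _ _ => om_nonneg h0 Y
  obtain ⟨x, hx, rfl⟩ := mem_image.1 hY
  exact mem_ext.2 ⟨hA x hx, P.itab_row hx, P.itab_col hx⟩

theorem Z_le_of (hw : ∀ (k : Pt m n) {y : Pt m n}, y ∈ P.cube →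
      P.w k ≤ 4 * P.eta ^ P.pen (P.pt k y))
    (hbox : ∀ F : Pt m n → ℝ,
      ∑ x ∈ P.box, F x = ∑ k ∈ P.grid, ∑ y ∈ P.cube, F (P.pt k y)) :
    (∑ k ∈ P.grid, P.w k) * P.cube.card ≤ 8 * (tables P.r P.c).card := by
  have h := P.mass_le
  rw [hbox] at h
  have h2 : (∑ k ∈ P.grid, P.w k) * P.cube.card ≤
      4 * ∑ k ∈ P.grid, ∑ y ∈ P.cube, P.eta ^ P.pen (P.pt k y) := by
    rw [sum_mul, mul_sum]
    refine sum_le_sum fun k _ => ?_
    rw [mul_sum, mul_comm, ← nsmul_eq_mul, ← sum_const]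
    exact sum_le_sum fun y hy => hw k hy
  linarith

end Par

end Vale.Agent.P328
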