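import Vale.Agent.P328.Mix
import Mathlib.Data.Fin.Tuple.Finset

/-!
Mixing of reversible chains, products of uniform choices, and repeated trials.
-/

namespace Vale.Agent.P328

open Finset hiding val
open Vale.Agent.Lib.PTM Vale.Agent.Lib.PolyTime

section Weighted

variable {α : Type} (S : Finset α) (w : α → ℝ)

/-- The inner product with weights `w` on `S`. -/
def wip (f g : α → ℝ) : ℝ := ∑ x ∈ S, w x * (f x * g x)

/-- A reversible positive semidefinite Markov operator with gap `γ`. -/
structure WGood (A : (α → ℝ) →ₗ[ℝ] (α → ℝ)) (γ : ℝ) : Prop where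
  pos : ∀ x, 0 < w x
  symm : ∀ f g, wip S w (A f) g = wip S w f (A g)
  one : A (fun _ => 1) = fun _ => 1
  psd : ∀ f, 0 ≤ wip S w f (A f)
  le_one : γ ≤ 1
  gap : ∀ f, wip S w f (fun _ => 1) = 0 → wip S w f (A f) ≤ (1 - γ) * wip S w f f

variable {S w} {A : (α → ℝ) →ₗ[ℝ] (α → ℝ)} {γ : ℝ}

theorem wip_comm (f g : α → ℝ) : wip S w f g = wip S w g f :=
  Finset.sum_congr rfl fun x _ => by rw [mul_comm (f x)]

theorem wip_lin (s : ℝ) (f g h : α → ℝ) :
    wip S w f (s • g - h) = s * wip S w f g - wip S w f h := by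
  simp only [wip, Finset.mul_sum, ← Finset.sum_sub_distrib, Pi.sub_apply, Pi.smul_apply,
    smul_eq_mul]
  exact Finset.sum_congr rfl fun x _ => by ring

theorem WGood.step (h : WGood S w A γ) (g : α → ℝ) (hg : wip S w g (fun _ => 1) = 0) :
    wip S w (A g) (A g) ≤ (1 - γ) ^ 2 * wip S w g g := by
  set c := 1 - γ with hc
  have hc0 : 0 ≤ c := by have := h.le_one; linarith
  have h1 := h.gap g hg
  have h2 := h.gap (A g) (by rw [h.symm, h.one, hg])
  have hB0 := h.psd g
  have hD0 := h.psd (A g)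
  have h3 : ∀ s : ℝ, 0 ≤ s ^ 2 * wip S w g (A g) - 2 * s * wip S w (A g) (A g) +
      wip S w (A g) (A (A g)) := by
    intro s
    have h4 := h.psd (s • g - A g)
    rw [map_sub, map_smul, wip_lin, wip_comm _ (A g), wip_comm _ (A (A g)), wip_lin, wip_lin,
      wip_comm (A g) g, wip_comm (A (A g)) g, ← h.symm g (A g), wip_comm (A (A g))] at h4
    linarith
  rw [← hc] at h1 h2
  generalize wip S w g g = a at *
  generalize wip S w g (A g) = b at *
  generalize wip S w (A g) (A (A g)) = d at *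
  generalize wip S w (A g) (A g) = e at *
  rcases hc0.eq_or_lt with hc1 | hc1
  · rw [← hc1] at h1 ⊢
    have hB1 : b = 0 := le_antisymm (by linarith) hB0
    have hC0 : e ≤ 0 := by
      by_contra hcon
      push Not at hcon
      have h5 := h3 (d / e + 1)
      rw [hB1] at h5
      have e1 : 2 * (d / e + 1) * e = 2 * d + 2 * e := by field_simp
      rw [e1] at h5
      linarith
    linarith
  · have h5 : 0 ≤ c * (c * b - e) := by linarith only [h2, h3 c]
    have h6 : e ≤ c * b := by
      by_contra hcon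
      push Not at hcon
      have : c * (c * b - e) < 0 := mul_neg_of_pos_of_neg hc1 (by linarith)
      linarith
    calc e ≤ c * b := h6
      _ ≤ c * (c * a) := mul_le_mul_of_nonneg_left h1 hc0
      _ = c ^ 2 * a := by ring

theorem WGood.iter (h : WGood S w A γ) (g : α → ℝ) (hg : wip S w g (fun _ => 1) = 0) (t : ℕ) :
    wip S w (A^[t] g) (fun _ => 1) = 0 ∧
      wip S w (A^[t] g) (A^[t] g) ≤ ((1 - γ) ^ t) ^ 2 * wip S w g g := by
  induction t with
  | zero => exact ⟨hg, by simp⟩
  | succ t ih =>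
    rw [Function.iterate_succ_apply']
    refine ⟨by rw [h.symm, h.one, ih.1], (h.step _ ih.1).trans ?_⟩
    calc (1 - γ) ^ 2 * wip S w (A^[t] g) (A^[t] g)
        ≤ (1 - γ) ^ 2 * (((1 - γ) ^ t) ^ 2 * wip S w g g) :=
          mul_le_mul_of_nonneg_left ih.2 (sq_nonneg _)
      _ = _ := by ring

theorem WGood.iter_symm (h : WGood S w A γ) (t : ℕ) (f g : α → ℝ) :
    wip S w (A^[t] f) g = wip S w f (A^[t] g) := by
  induction t generalizing g with
  | zero => rfl
  | succ t ih =>
    rw [Function.iterate_succ_apply', h.symm, ih, Function.iterate_succ_apply]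

theorem one_sub_pow_le {γ : ℝ} (h : γ ≤ 1) {a t : ℕ} (ht : (a : ℝ) ≤ γ * t) :
    (1 - γ) ^ t ≤ (1 / 2) ^ a := by
  have h5 : 1 - γ ≤ Real.exp (-γ) := by
    have := Real.add_one_le_exp (-γ); linarith
  have h6 : Real.exp (-1) ≤ 1 / 2 := by
    rw [Real.exp_neg, one_div]
    refine inv_anti₀ two_pos ?_
    have := Real.add_one_le_exp 1
    linarith
  calc (1 - γ) ^ t ≤ Real.exp (-γ) ^ t := pow_le_pow_left₀ (by linarith) h5 t
    _ = Real.exp (-(γ * t)) := by rw [← Real.exp_nat_mul]; congr 1; ring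
    _ ≤ Real.exp ((a : ℝ) * (-1)) := Real.exp_le_exp.2 (by linarith)
    _ = Real.exp (-1) ^ a := Real.exp_nat_mul _ _
    _ ≤ _ := pow_le_pow_left₀ (Real.exp_pos _).le h6 _

/-- The law after `t` steps, seen through a family of test functions. -/
theorem WGood.tv (h : WGood S w A γ) {a l t : ℕ} {x : α} (hx : x ∈ S)
    (ha : ∑ z ∈ S, w z ≤ 4 ^ a * w x) (ht : ((a : ℝ) + l) ≤ γ * t) {β : Type} (Tb : Finset β)
    (ψ : β → α → ℝ) (h0 : ∀ X z, 0 ≤ ψ X z) (h1 : ∀ z, ∑ X ∈ Tb, ψ X z ≤ 1) :
    ∑ X ∈ Tb, |A^[t] (ψ X) x - (∑ z ∈ S, w z * ψ X z) / ∑ z ∈ S, w z| ≤ (1 / 2) ^ l := by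
  classical
  have hw := h.pos x
  have hZ : 0 < ∑ z ∈ S, w z := Finset.sum_pos (fun z _ => h.pos z) ⟨x, hx⟩
  set g : α → ℝ := (1 / w x) • (fun z => if z = x then 1 else 0) -
    fun _ => 1 / ∑ z ∈ S, w z with hg
  have h2 : ∀ f, wip S w f g = f x - wip S w f (fun _ => 1) / ∑ z ∈ S, w z := by
    intro f
    rw [hg, wip_lin]
    congr 1
    · unfold wip
      rw [Finset.sum_eq_single_of_mem x hx fun z _ hz => by simp [hz]]
      simp only [if_true]
      field_simp
    · simp only [wip, Finset.sum_div]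
      exact Finset.sum_congr rfl fun z _ => by ring
  have hg0 : wip S w g (fun _ => 1) = 0 := by
    rw [wip_comm, h2]
    simp only [wip, mul_one]
    rw [div_self hZ.ne', sub_self]
  have hg1 : wip S w g g ≤ 1 / w x := by
    rw [h2, hg0, hg]
    simp only [Pi.sub_apply, Pi.smul_apply, smul_eq_mul, if_true]
    have : 0 < 1 / ∑ z ∈ S, w z := by positivity
    simp only [zero_div]
    linarith
  have h3 : ∀ X, A^[t] (ψ X) x - (∑ z ∈ S, w z * ψ X z) / ∑ z ∈ S, w z =
      wip S w (ψ X) (A^[t] g) := by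
    intro X
    rw [← h.iter_symm, h2, h.iter_symm, Function.iterate_fixed h.one t]
    simp only [wip, mul_one]
  simp only [h3]
  have h4 : ∑ X ∈ Tb, |wip S w (ψ X) (A^[t] g)| ≤ ∑ z ∈ S, w z * |A^[t] g z| := by
    calc ∑ X ∈ Tb, |wip S w (ψ X) (A^[t] g)| ≤ ∑ X ∈ Tb, ∑ z ∈ S, w z * |A^[t] g z| * ψ X z := by
          refine Finset.sum_le_sum fun X _ => (Finset.abs_sum_le_sum_abs _ _).trans
            (le_of_eq (Finset.sum_congr rfl fun z _ => ?_))
          rw [abs_mul, abs_mul, abs_of_pos (h.pos z), abs_of_nonneg (h0 X z)]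
          ring
      _ ≤ _ := by
          rw [Finset.sum_comm]
          refine Finset.sum_le_sum fun z _ => ?_
          rw [← Finset.mul_sum]
          exact mul_le_of_le_one_right (mul_nonneg (h.pos z).le (abs_nonneg _)) (h1 z)
  have h5 : (∑ z ∈ S, w z * |A^[t] g z|) ^ 2 ≤ (∑ z ∈ S, w z) * wip S w (A^[t] g) (A^[t] g) :=
    Finset.sum_sq_le_sum_mul_sum_of_sq_le_mul S (fun z _ => (h.pos z).le)
      (fun z _ => mul_nonneg (h.pos z).le (mul_self_nonneg _)) fun z _ => le_of_eq (by
        rw [mul_pow, sq_abs]; ring)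
  have h6 : (1 - γ) ^ t ≤ (1 / 2) ^ (a + l) := one_sub_pow_le h.le_one (by push_cast; exact ht)
  have hc0 : 0 ≤ 1 - γ := by have := h.le_one; linarith
  have h7 : wip S w (A^[t] g) (A^[t] g) ≤ ((1 / 2 : ℝ) ^ (a + l)) ^ 2 * (1 / w x) :=
    (h.iter g hg0 t).2.trans ((mul_le_mul_of_nonneg_left hg1 (sq_nonneg _)).trans
      (mul_le_mul_of_nonneg_right (pow_le_pow_left₀ (by positivity) h6 2) (by positivity)))
  have h8 : (∑ z ∈ S, w z * |A^[t] g z|) ^ 2 ≤ ((1 / 2 : ℝ) ^ l) ^ 2 := by
    refine h5.trans ((mul_le_mul_of_nonneg_left h7 hZ.le).trans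
      ((mul_le_mul_of_nonneg_right ha (by positivity)).trans (le_of_eq ?_)))
    have e1 : (4 : ℝ) ^ a * ((1 / 2) ^ a) ^ 2 = 1 := by
      rw [← pow_mul, mul_comm a 2, pow_mul, ← mul_pow]
      norm_num
    rw [pow_add, mul_pow]
    field_simp
    rw [e1]
  exact h4.trans ((le_abs_self _).trans (abs_le_of_sq_le_sq h8 (by positivity)))

end Weighted

theorem ex_sum {β : Type} (s : Finset β) (m : ℕ) (F : β → List Bool → ℝ) :
    ex m (fun ρ => ∑ X ∈ s, F X ρ) = ∑ X ∈ s, ex m (F X) := by
  classical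
  induction s using Finset.induction_on with
  | empty => simp only [Finset.sum_empty, ex_const]
  | insert a s ha ih => simp only [Finset.sum_insert ha, ex_add, ih]

/-- The block number `i` of length `B`. -/
def blk (B i : ℕ) (ρ : List Bool) : List Bool := (ρ.drop (i * B)).take B

theorem blk_succ (B i : ℕ) (ρ : List Bool) : blk B (i + 1) ρ = blk B i (ρ.drop B) := by
  rw [blk, blk, List.drop_drop, Nat.succ_mul, add_comm]

theorem blk_zero (B : ℕ) (ρ : List Bool) : blk B 0 ρ = ρ.take B := by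
  rw [blk, zero_mul, List.drop_zero]

/-- Independent uniform choices. -/
theorem ex_blk {β : Type} [DecidableEq β] (B T : ℕ) (g : Fin T → List Bool → β)
    (S : Fin T → Finset β) (c : Fin T → ℝ)
    (h : ∀ i (F : β → ℝ), ex B (fun u => F (g i u)) = (∑ v ∈ S i, F v) / c i)
    (G : (Fin T → β) → ℝ) : ex (T * B) (fun ρ => G fun i => g i (blk B i ρ)) =
      (∑ v ∈ Fintype.piFinset S, G v) / ∏ i, c i := by
  induction T with
  | zero =>
    rw [zero_mul, ex_zero, Fintype.piFinset_of_isEmpty, Finset.univ_unique, Finset.sum_singleton,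
      Finset.univ_eq_empty, Finset.prod_empty, div_one]
    exact congrArg G (Subsingleton.elim _ _)
  | succ T ih =>
    have h1 := ex_split B (T * B) fun u v => G (Fin.cons (g 0 u) fun i => g i.succ (blk B i v))
    have h2 : ∀ x : β, ex (T * B) (fun v => G (Fin.cons x fun i => g i.succ (blk B i v))) = _ :=
      fun x => ih (fun i => g i.succ) (fun i => S i.succ) (fun i => c i.succ)
        (fun i => h i.succ) fun v => G (Fin.cons x v)
    simp only [h2] at h1
    rw [h 0 fun x => (∑ v ∈ Fintype.piFinset fun i : Fin T => S i.succ, G (Fin.cons x v)) /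
      ∏ i : Fin T, c i.succ] at h1
    rw [Nat.succ_mul, add_comm (T * B), Fin.prod_univ_succ]
    refine Eq.trans (ex_congr fun ρ _ => congrArg G (funext fun i => ?_)) (h1.trans ?_)
    · refine Fin.cases ?_ (fun i => ?_) i
      · rw [Fin.cons_zero, Fin.val_zero, blk_zero]
      · rw [Fin.cons_succ, Fin.val_succ, blk_succ]
    · rw [← Finset.sum_div, div_div, mul_comm, ← Finset.sum_product']
      congr 1
      refine Finset.sum_nbij' (fun p => Fin.cons p.1 p.2) (fun v => (v 0, Fin.tail v))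
        (fun p hp => ?_) (fun v hv => ?_) (fun p _ => ?_) (fun v _ => Fin.cons_self_tail v)
        fun _ _ => rfl
      · rw [Finset.mem_product] at hp
        exact Fin.mem_piFinset_iff_zero_tail.2 hp
      · exact Finset.mem_product.2 (Fin.mem_piFinset_iff_zero_tail.1 hv)
      · simp only [Fin.cons_zero, Fin.tail_cons]

/-- The output of the first accepted block among `T` blocks, or the default. -/
def firstOf {β : Type} (acc : List Bool → Bool) (out : List Bool → β) (d : β) (B T : ℕ)
    (ρ : List Bool) : β :=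
  match ((List.range T).map fun i => blk B i ρ).find? acc with
  | none => d
  | some u => out u

theorem firstOf_succ {β : Type} (acc : List Bool → Bool) (out : List Bool → β) (d : β) (B T : ℕ)
    (ρ : List Bool) : firstOf acc out d B (T + 1) ρ =
      if acc (ρ.take B) then out (ρ.take B) else firstOf acc out d B T (ρ.drop B) := by
  unfold firstOf
  rw [List.range_succ_eq_map, List.map_cons, List.map_map, blk_zero, List.find?_cons]
  cases acc (ρ.take B)
  · simp only [Function.comp_def, Nat.succ_eq_add_one, blk_succ]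
    rfl
  · rfl

theorem firstOf_ind {β γ : Type} {acc : List Bool → Bool} {out : List Bool → β}
    {out' : List Bool → γ} {d : β} {d' : γ} (R : β → γ → Prop) (hd : R d d')
    (h : ∀ u, acc u → R (out u) (out' u)) (B T : ℕ) (ρ : List Bool) :
    R (firstOf acc out d B T ρ) (firstOf acc out' d' B T ρ) := by
  unfold firstOf
  cases h1 : ((List.range T).map fun i => blk B i ρ).find? acc with
  | none => exact hd
  | some u => exact h u (List.find?_some h1)

theorem sum_ind {β : Type} {s : Finset β} {x : β} (hx : x ∈ s) : ∑ X ∈ s, ind (x = X) = 1 := by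
  rw [Finset.sum_eq_single_of_mem x hx fun z _ hz => by simp [ind, hz.symm]]
  simp [ind]

/-- Repeated trials. -/
theorem firstOf_tv {β : Type} {acc : List Bool → Bool} {out : List Bool → β} {d : β}
    {Tb : Finset β} (hd : d ∈ Tb) (hout : ∀ u, acc u → out u ∈ Tb) {B : ℕ} {κ δ : ℝ}
    (hκ : 1 / 8 ≤ κ * Tb.card) (hδ : δ ≤ 1 / 16)
    (hp : ∑ X ∈ Tb, |ex B (fun u => ind (acc u ∧ out u = X)) - κ| ≤ δ) (T : ℕ) :
    ∑ X ∈ Tb, |ex (T * B) (fun ρ => ind (firstOf acc out d B T ρ = X)) - 1 / Tb.card| ≤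
      32 * δ + 2 * (15 / 16) ^ T := by
  have hc : (0 : ℝ) < Tb.card := by exact_mod_cast Finset.card_pos.2 ⟨d, hd⟩
  have hδ0 : 0 ≤ δ := (Finset.sum_nonneg fun _ _ => abs_nonneg _).trans hp
  set p : β → ℝ := fun X => ex B (fun u => ind (acc u ∧ out u = X)) with hpd
  set b : ℝ := ex B (fun u => ind (¬ acc u)) with hb
  have hb0 : 0 ≤ b := by
    rw [← ex_const B 0]
    exact ex_mono fun u _ => by unfold ind; split_ifs <;> norm_num
  have hb1 : ∑ X ∈ Tb, p X + b = 1 := by
    rw [hpd, hb, ← ex_sum, ← ex_add, ← ex_const B 1]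
    refine ex_congr fun u _ => ?_
    by_cases h : acc u
    · simp only [h, true_and, sum_ind (hout u h)]
      simp [ind]
    · simp [h, ind]
  have h1 : |∑ X ∈ Tb, p X - κ * Tb.card| ≤ δ := by
    refine le_trans (le_of_eq ?_) ((Finset.abs_sum_le_sum_abs _ _).trans hp)
    rw [Finset.sum_sub_distrib, Finset.sum_const, nsmul_eq_mul, mul_comm]
  have hb2 : b ≤ 15 / 16 := by have := (abs_le.1 h1).1; linarith
  have h2 : ∑ X ∈ Tb, |p X - (1 - b) / Tb.card| ≤ 2 * δ := by
    have h3 : ∀ X ∈ Tb, |p X - (1 - b) / Tb.card| ≤ |p X - κ| + δ / Tb.card := by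
      intro X _
      refine (abs_sub_le _ κ _).trans (add_le_add le_rfl ?_)
      have e : κ - (1 - b) / Tb.card = -(∑ X ∈ Tb, p X - κ * Tb.card) / Tb.card := by
        rw [← hb1]
        field_simp
        ring
      rw [e, abs_div, abs_neg, abs_of_pos hc]
      exact div_le_div_of_nonneg_right h1 hc.le
    refine (Finset.sum_le_sum h3).trans ?_
    rw [Finset.sum_add_distrib, Finset.sum_const, nsmul_eq_mul, mul_div_cancel₀ _ hc.ne']
    linarith
  induction T with
  | zero =>
    have h3 : ∀ X ∈ Tb, |ex (0 * B) (fun ρ => ind (firstOf acc out d B 0 ρ = X)) - 1 / Tb.card| ≤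
        ind (d = X) + 1 / Tb.card := by
      intro X _
      refine (abs_sub _ _).trans (le_of_eq ?_)
      rw [abs_of_pos (one_div_pos.2 hc), zero_mul, ex_zero, abs_of_nonneg]
      · rfl
      · unfold ind; split_ifs <;> norm_num
    refine (Finset.sum_le_sum h3).trans ?_
    rw [Finset.sum_add_distrib, Finset.sum_const, nsmul_eq_mul, mul_div_cancel₀ _ hc.ne',
      sum_ind hd]
    linarith
  | succ T ih =>
    have h3 : ∀ X, ex ((T + 1) * B) (fun ρ => ind (firstOf acc out d B (T + 1) ρ = X)) =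
        p X + ex (T * B) (fun ρ => ind (firstOf acc out d B T ρ = X)) * b := by
      intro X
      simp only [firstOf_succ]
      rw [Nat.succ_mul, add_comm (T * B), ex_split B (T * B) fun u v =>
        ind ((if acc u then out u else firstOf acc out d B T v) = X), hpd, hb, ← ex_mul, ← ex_add]
      refine ex_congr fun u _ => ?_
      by_cases h : acc u
      · simp only [h, if_true, ex_const, true_and]
        simp [ind]
      · simp only [h, Bool.false_eq_true, if_false, false_and]
        simp [ind]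
    have h4 : ∀ X ∈ Tb, |ex ((T + 1) * B) (fun ρ => ind (firstOf acc out d B (T + 1) ρ = X)) -
        1 / Tb.card| ≤ |p X - (1 - b) / Tb.card| +
          b * |ex (T * B) (fun ρ => ind (firstOf acc out d B T ρ = X)) - 1 / Tb.card| := by
      intro X _
      rw [h3, ← abs_of_nonneg hb0, ← abs_mul, abs_of_nonneg hb0]
      exact le_trans (le_of_eq (congrArg _ (by ring))) (abs_add_le _ _)
    refine (Finset.sum_le_sum h4).trans ?_
    rw [Finset.sum_add_distrib, ← Finset.mul_sum, pow_succ]
    have h5 := mul_le_mul hb2 ih (Finset.sum_nonneg fun _ _ => abs_nonneg _) (by norm_num)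
    linarith

end Vale.Agent.P328
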