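import Vale.Agent.P328.GImpl

/-!
The sampler on lists runs in polynomial time.
-/

namespace Vale.Agent.P328

open Finset hiding val
open Vale.Agent.Lib.PTM Vale.Agent.Lib.PolyTime

variable {α : Type} [Enc α]

theorem pt_amax {l : α → List ℕ} (hl : PT ∅ l) : PT ∅ fun a => amax (l a) :=
  PT.optGetD (PT.find? (PT.range hl.length (PBd.length hl))
    (PT.all (l := fun s : α × ℕ => l s.1) (f := fun s x => decide (x ≤ (l s.1).getD s.2 0))
      (hl.comp PT.fst') (PT.le PT.snd' (PT.getD (hl.comp PT.fst'.fst) PT.fst'.snd (PT.const 0)))))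
    (PT.const 0)

theorem pt_sumR {k : α → ℕ} {F : α → ℕ → ℕ} (hk : PT ∅ k) (hk' : PBd k)
    (hF : PT ∅ fun s : α × ℕ => F s.1 s.2) : PT ∅ fun a => sumR (k a) (F a) :=
  (PT.map (PT.range hk hk') hF).sum

theorem pt_blk {B i : α → ℕ} {ρ : α → List Bool} (hB : PT ∅ B) (hi : PT ∅ i) (hρ : PT ∅ ρ) :
    PT ∅ fun a => blk (B a) (i a) (ρ a) :=
  PT.take (PT.drop hρ (PT.mul hi hB)) hB

theorem walk_eq {σ : Type} (f : σ → List Bool → σ) (B t : ℕ) (x : σ) (ρ : List Bool) :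
    walk f B t x ρ =
      ((fun p : σ × List Bool => (f p.1 (p.2.take B), p.2.drop B))^[t] (x, ρ)).1 := by
  induction t generalizing x ρ with
  | zero => rfl
  | succ t ih => exact ih _ _

theorem pt_walk {σ : Type} [Enc σ] {f : α → σ → List Bool → σ} {B t b : α → ℕ} {x : α → σ}
    {ρ : α → List Bool} (hf : PT ∅ fun s : α × σ × List Bool => f s.1 s.2.1 s.2.2) (hB : PT ∅ B)
    (ht : PT ∅ t) (ht' : PBd t) (hx : PT ∅ x) (hρ : PT ∅ ρ) (hb : PBd b)
    (h1 : ∀ a, esize (x a) ≤ b a) (h2 : ∀ a y u, esize (f a y u) ≤ b a) :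
    PT ∅ fun a => walk (f a) (B a) (t a) (x a) (ρ a) := by
  have k : PT ∅ fun s : α × σ × List Bool => B s.1 := hB.comp PT.fst'
  have h3 : PT ∅ fun a => (fun p : σ × List Bool => (f a p.1 (p.2.take (B a)),
      p.2.drop (B a)))^[t a] (x a, ρ a) := by
    refine PT.iterate' (step := fun a (p : σ × List Bool) => (f a p.1 (p.2.take (B a)),
      p.2.drop (B a))) ht ht' (hx.pair hρ) ((hf.comp (PT.fst'.pair (PT.snd'.fst.pair
        (PT.take PT.snd'.snd k)))).pair (PT.drop PT.snd'.snd k))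
      (b := fun a => 2 * b a + esize (ρ a) + 1) ?_ fun a j _ => ?_
    · have h3 := hρ.pbd
      fun_prop
    · have key : ∀ j, esize ((fun p : σ × List Bool => (f a p.1 (p.2.take (B a)),
          p.2.drop (B a)))^[j] (x a, ρ a)).1 ≤ b a ∧ esize ((fun p : σ × List Bool =>
            (f a p.1 (p.2.take (B a)), p.2.drop (B a)))^[j] (x a, ρ a)).2 ≤ esize (ρ a) := by
        intro j
        induction j with
        | zero => exact ⟨h1 a, le_rfl⟩
        | succ j ih =>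
          rw [Function.iterate_succ_apply']
          exact ⟨h2 _ _ _, (esize_drop_le _ _).trans ih.2⟩
      have h4 := key j
      rw [← Prod.mk.eta (p := _^[j] (x a, ρ a)), esize_pair]
      omega
  exact h3.fst.congr fun a => (walk_eq _ _ _ _ _).symm

theorem pt_firstOf {β : Type} [Enc β] {acc : α → List Bool → Bool} {out : α → List Bool → β}
    {d : α → β} {B T : α → ℕ} {ρ : α → List Bool}
    (hacc : PT ∅ fun s : α × List Bool => acc s.1 s.2)
    (hout : PT ∅ fun s : α × List Bool => out s.1 s.2) (hd : PT ∅ d) (hB : PT ∅ B) (hT : PT ∅ T)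
    (hT' : PBd T) (hρ : PT ∅ ρ) :
    PT ∅ fun a => firstOf (acc a) (out a) (d a) (B a) (T a) (ρ a) :=
  (PT.optCase (PT.find? (PT.map (f := fun a i => blk (B a) i (ρ a)) (PT.range hT hT')
    (pt_blk (hB.comp PT.fst') PT.snd' (hρ.comp PT.fst'))) hacc) hd hout).congr fun a => by
      unfold firstOf
      cases ((List.range (T a)).map fun i => blk (B a) i (ρ a)).find? (acc a) <;> rfl

namespace Dat

variable {D : α → Dat} (hD : PT ∅ D)
include hD

theorem pt_m : PT ∅ fun a => (D a).m := hD.fst.length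
theorem pt_n : PT ∅ fun a => (D a).n := hD.snd.length
theorem pb_m : PBd fun a => (D a).m := PBd.length hD.fst
theorem pb_n : PBd fun a => (D a).n := PBd.length hD.snd
theorem pt_N : PT ∅ fun a => (D a).N := hD.fst.sum
theorem pt_i0 : PT ∅ fun a => (D a).i0 := pt_amax hD.fst
theorem pt_j0 : PT ∅ fun a => (D a).j0 := pt_amax hD.snd

theorem pt_r {i : α → ℕ} (hi : PT ∅ i) : PT ∅ fun a => (D a).r (i a) :=
  PT.getD hD.fst hi (PT.const 0)

theorem pt_c {j : α → ℕ} (hj : PT ∅ j) : PT ∅ fun a => (D a).c (j a) :=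
  PT.getD hD.snd hj (PT.const 0)

theorem pt_tau : PT ∅ fun a => tau (D a).m (D a).n := (PT.add (pt_m hD) (pt_n hD)).natSize

theorem pb_MM : PBd fun a => MM (D a).m (D a).n :=
  (((PBd.const 2).mul ((pb_m hD).add (pb_n hD))).add (PBd.const 1)).mono fun _ =>
    Model.two_pow_size_le _

theorem pb_tau : PBd fun a => tau (D a).m (D a).n := (pb_MM hD).mono fun _ => (tau_lt_MM _ _).le

theorem pt_MM : PT ∅ fun a => MM (D a).m (D a).n := PT.pow (PT.const 2) (pt_tau hD) (pb_tau hD)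

theorem pt_slope {ρ : α → ℕ} (hρ : PT ∅ ρ) : PT ∅ fun a => (D a).slope (ρ a) :=
  PT.mul (PT.mul (PT.const 4) (pt_tau hD)) (PT.add (PT.div (PT.add (pt_N hD) (PT.const 1))
    (PT.add (PT.div hρ (PT.powConst (pt_MM hD) 6)) (PT.const 1))) (PT.const 1))

theorem pt_free {i j : α → ℕ} (hi : PT ∅ i) (hj : PT ∅ j) :
    PT ∅ fun a => decide (¬ i a = (D a).i0 ∧ ¬ j a = (D a).j0) :=
  PT.decide_and (PT.decide_not (PT.eqNat hi (pt_i0 hD))) (PT.decide_not (PT.eqNat hj (pt_j0 hD)))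

theorem pt_Kc {i j : α → ℕ} (hi : PT ∅ i) (hj : PT ∅ j) : PT ∅ fun a => (D a).Kc (i a) (j a) :=
  PT.ite (pt_free hD hi hj) (PT.powConst (pt_MM hD) 13) (PT.const 1)

theorem pt_dbits {i j : α → ℕ} (hi : PT ∅ i) (hj : PT ∅ j) :
    PT ∅ fun a => (D a).dbits (i a) (j a) :=
  PT.ite (pt_free hD hi hj) (PT.div (PT.min (pt_r hD hi) (pt_c hD hj))
    (PT.powConst (pt_MM hD) 13)).natSize (PT.const 0)

theorem pt_del {i j : α → ℕ} (hi : PT ∅ i) (hj : PT ∅ j) :
    PT ∅ fun a => 2 ^ (D a).dbits (i a) (j a) :=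
  PT.pow (PT.const 2) (pt_dbits hD hi hj) ((pt_r hD hi).pbd.mono fun a => by
    unfold dbits
    split_ifs
    · exact (esize_nat _).ge.trans (esize_nat_mono ((Nat.div_le_self _ _).trans (min_le_left _ _)))
    · exact Nat.zero_le _)

section

variable {F : α → ℕ → ℕ → ℕ} (hF : PT ∅ fun s : (α × ℕ) × ℕ => F s.1.1 s.1.2 s.2)
include hF

theorem pt_row {i : α → ℕ} (hi : PT ∅ i) : PT ∅ fun a => sumR (D a).n fun j => F a (i a) j :=
  pt_sumR (pt_n hD) (pb_n hD) (hF.comp ((PT.fst'.pair (hi.comp PT.fst')).pair PT.snd'))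

theorem pt_col {j : α → ℕ} (hj : PT ∅ j) : PT ∅ fun a => sumR (D a).m fun i => F a i (j a) :=
  pt_sumR (pt_m hD) (pb_m hD) (hF.comp (PT.id.pair (hj.comp PT.fst')))

theorem pt_tot : PT ∅ fun a => sumR (D a).m fun i => sumR (D a).n fun j => F a i j :=
  pt_sumR (pt_m hD) (pb_m hD) (pt_sumR (pt_n (hD.comp PT.fst')) (pb_n (hD.comp PT.fst')) hF)

theorem pt_pen : PT ∅ fun a => (D a).pen (F a) := by
  have k : PT ∅ fun s : α × ℕ => D s.1 := hD.comp PT.fst'
  have hF' : PT ∅ fun s : ((α × ℕ) × ℕ) × ℕ => F s.1.1.1 s.1.2 s.2 :=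
    hF.comp ((PT.fst'.fst.fst.pair PT.fst'.snd).pair PT.snd')
  have h1 := pt_r hD (pt_i0 hD)
  have h2 := pt_c hD (pt_j0 hD)
  exact PT.add (PT.add
    (pt_sumR (pt_m hD) (pb_m hD) (PT.mul (PT.ite (PT.eqNat PT.snd' (pt_i0 k)) (PT.const 0)
      (pt_slope k (PT.min (pt_r k PT.snd') (pt_c k (pt_j0 k)))))
      (PT.sub (pt_row k (F := fun s => F s.1) hF' PT.snd') (pt_r k PT.snd'))))
    (pt_sumR (pt_n hD) (pb_n hD) (PT.mul (PT.ite (PT.eqNat PT.snd' (pt_j0 k)) (PT.const 0)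
      (pt_slope k (PT.min (pt_r k (pt_i0 k)) (pt_c k PT.snd'))))
      (PT.sub (pt_col k (F := fun s => F s.1) hF' PT.snd') (pt_c k PT.snd')))))
    (PT.mul (pt_slope hD (PT.min h1 h2)) (PT.sub (pt_N hD) (PT.add (PT.add h1 h2) (pt_tot hD hF))))

theorem pt_tab {i j : α → ℕ} (hi : PT ∅ i) (hj : PT ∅ j) :
    PT ∅ fun a => (D a).tab (F a) (i a) (j a) :=
  PT.ite (PT.eqNat hi (pt_i0 hD)) (PT.ite (PT.eqNat hj (pt_j0 hD))
    (PT.sub (PT.add (PT.add (pt_r hD (pt_i0 hD)) (pt_c hD (pt_j0 hD))) (pt_tot hD hF)) (pt_N hD))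
    (PT.sub (pt_c hD hj) (pt_col hD hF hj)))
    (PT.ite (PT.eqNat hj (pt_j0 hD)) (PT.sub (pt_r hD hi) (pt_row hD hF hi))
      (hF.comp ((PT.id.pair hi).pair hj)))

end

theorem pt_hgt {F : α → ℕ → ℕ → ℕ} (hF : PT ∅ fun s : (α × ℕ) × ℕ => F s.1.1 s.1.2 s.2) :
    PT ∅ fun a => (D a).hgt (F a) :=
  PT.div (pt_pen hD (F := fun a i j => 2 ^ (D a).dbits i j * F a i j)
    (PT.mul (pt_del (hD.comp PT.fst'.fst) PT.fst'.snd PT.snd') hF)) (PT.add (pt_N hD) (PT.const 1))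

theorem pt_gtry {L : α → List (List ℕ)} {i j v : α → ℕ} {ρ : α → List Bool} (hL : PT ∅ L)
    (hi : PT ∅ i) (hj : PT ∅ j) (hv : PT ∅ v) (hρ : PT ∅ ρ) :
    PT ∅ fun a => (D a).gtry (L a) (i a) (j a) (v a) (ρ a) := by
  have k : PT ∅ fun s : (α × ℕ) × ℕ => s.1.1 := PT.fst'.fst
  have h1 := pt_ent (hL.comp k) PT.fst'.snd PT.snd'
  have h2 := PT.decide_and (PT.eqNat PT.fst'.snd (hi.comp k)) (PT.eqNat PT.snd' (hj.comp k))
  have h3 := PT.decide_and (PT.decide_and (PT.lt hi (pt_m hD)) (PT.lt hj (pt_n hD)))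
    (PT.decide_and (PT.lt hv (pt_Kc hD hi hj)) (PT.eqNat (PT.valList (PT.take hρ (PT.sub
      (pt_hgt hD (F := fun a i' j' => if i' = i a ∧ j' = j a then v a else ent (L a) i' j')
        (PT.ite h2 (hv.comp k) h1)) (pt_hgt hD (F := fun a => ent (L a)) h1)))) (PT.const 0)))
  exact pt_build (pt_m hD) (pb_m hD) (pt_n hD) (pb_n hD) (PT.powConst (pt_MM hD) 13)
    (PT.ite (PT.decide_and (h3.comp k) h2) (hv.comp k) h1)

theorem pt_gstep {L : α → List (List ℕ)} {ρ : α → List Bool} (hL : PT ∅ L) (hρ : PT ∅ ρ) :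
    PT ∅ fun a => (D a).gstep (L a) (ρ a) := by
  have h1 := PT.drop hρ (pt_tau hD)
  have h2 := PT.drop h1 (pt_tau hD)
  have hi := PT.valList (PT.take hρ (pt_tau hD))
  have hj := PT.valList (PT.take h1 (pt_tau hD))
  have h3 := pt_ent hL hi hj
  exact pt_gtry hD hL hi hj (PT.cond (PT.headD h2 (PT.const false)) (PT.add h3 (PT.const 1))
    (PT.sub h3 (PT.const 1))) h2.tail

theorem pt_gcoins : PT ∅ fun a => gcoins (D a).m (D a).n :=
  PT.add (pt_tau hD) (PT.add (pt_tau hD) (PT.add (PT.powConst (pt_MM hD) 20) (PT.const 1)))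

theorem pt_point {t i j : α → ℕ} {u : α → List Bool} (ht : PT ∅ t) (ht' : PBd t) (hu : PT ∅ u)
    (hi : PT ∅ i) (hj : PT ∅ j) : PT ∅ fun a => (D a).point (t a) (u a) (i a) (j a) := by
  have h1 := PT.mul ht (pt_gcoins hD)
  have h2 := (pt_N hD).natSize
  have h3 := pt_walk (f := fun a => (D a).gstep) (x := fun _ => [])
    (pt_gstep (hD.comp PT.fst') PT.snd'.fst PT.snd'.snd) (pt_gcoins hD) ht ht' PT.nil
    (PT.take hu h1) (b := fun a => (D a).m * (2 * ((D a).n *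
      (2 * esize (MM (D a).m (D a).n ^ 13) + 1)) + 1)) (by
        have h4 := pb_m hD
        have h5 := pb_n hD
        have h6 := (PT.powConst (pt_MM hD) 13).pbd
        fun_prop) (fun _ => Nat.zero_le _) fun _ _ _ => esize_build _ _ _ _
  exact PT.add (PT.mul (pt_del hD hi hj) (pt_ent h3 hi hj)) (PT.valList (PT.take
    (pt_blk h2 hj (pt_blk (PT.mul (pt_n hD) h2) hi (PT.drop hu h1))) (pt_dbits hD hi hj)))

theorem pt_gsteps {s : α → ℕ} (hs : PT ∅ s) : PT ∅ fun a => gsteps (D a).m (D a).n (s a) :=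
  PT.mul (PT.mul (PT.const 2) (PT.powConst (pt_MM hD) 62))
    (PT.add (PT.powConst (pt_MM hD) 20) (PT.add hs (PT.const 5)))

theorem pb_gsteps {s : α → ℕ} (hs : PBd s) : PBd fun a => gsteps (D a).m (D a).n (s a) := by
  have h := pb_MM hD
  unfold gsteps
  fun_prop

theorem pt_tcoins {t : α → ℕ} (ht : PT ∅ t) : PT ∅ fun a => tcoins (D a).m (D a).n (D a).N (t a) :=
  PT.add (PT.mul ht (pt_gcoins hD)) (PT.mul (pt_m hD) (PT.mul (pt_n hD) (pt_N hD).natSize))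

theorem pb_tcoins {t : α → ℕ} (ht : PBd t) : PBd fun a => tcoins (D a).m (D a).n (D a).N (t a) := by
  have h1 := pb_MM hD
  have h2 := pb_tau hD
  have h3 := pb_m hD
  have h4 := pb_n hD
  have h5 : PBd fun a => (D a).N.size := (pt_N hD).pbd.mono fun a => (esize_nat _).ge
  unfold tcoins gcoins
  fun_prop

theorem pt_output {s : α → ℕ} {ρ : α → List Bool} (hs : PT ∅ s) (hs' : PBd s) (hρ : PT ∅ ρ) :
    PT ∅ fun a => (D a).output (s a) (ρ a) := by
  have k : PT ∅ fun p : (α × ℕ) × ℕ => p.1.1 := PT.fst'.fst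
  have k1 : PT ∅ fun p : ((α × ℕ) × ℕ) × List Bool => p.1.1.1 := PT.fst'.fst.fst
  have k2 : PT ∅ fun p : ((((α × ℕ) × ℕ) × List Bool) × ℕ) × ℕ => p.1.1.1.1.1 :=
    k1.comp PT.fst'.fst
  have h1 := pt_point (hD.comp k2) (pt_gsteps (hD.comp k2) (hs.comp k2))
    (pb_gsteps (hD.comp k2) (hs'.comp k2)) PT.fst'.fst.snd PT.fst'.snd PT.snd'
  refine pt_build (pt_m hD) (pb_m hD) (pt_n hD) (pb_n hD) (pt_N hD) (pt_firstOf
    (PT.eqNat (pt_pen (hD.comp k1) (F := fun p => (D p.1.1.1).point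
      (gsteps (D p.1.1.1).m (D p.1.1.1).n (s p.1.1.1)) p.2) h1) (PT.const 0))
    (pt_tab (hD.comp k1) (F := fun p => (D p.1.1.1).point
      (gsteps (D p.1.1.1).m (D p.1.1.1).n (s p.1.1.1)) p.2) h1 PT.fst'.fst.snd PT.fst'.snd) ?_
    (pt_tcoins (hD.comp k) (pt_gsteps (hD.comp k) (hs.comp k)))
    (PT.mul (PT.const 16) (PT.add (hs.comp k) (PT.const 1)))
    ((PBd.const 16).mul ((hs'.comp k).add (PBd.const 1))) (hρ.comp k))
  exact PT.sub
    (PT.min (PT.take (hD.comp k).fst (PT.add PT.fst'.snd (PT.const 1))).sum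
      (PT.take (hD.comp k).snd (PT.add PT.snd' (PT.const 1))).sum)
    (PT.max (PT.take (hD.comp k).fst PT.fst'.snd).sum (PT.take (hD.comp k).snd PT.snd').sum)

end Dat

end Vale.Agent.P328
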