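import Vale.Agent.P328.GChain

/-!
One trial of the sampler (run the chain, fill in uniformly, test), and the repeated trials.
-/

namespace Vale.Agent.P328

open Finset hiding val
open Vale.Agent.Lib.PTM Vale.Agent.Lib.PolyTime

/-- The number of steps of the chain. -/
def gsteps (m n s : ℕ) : ℕ := 2 * MM m n ^ 62 * (MM m n ^ 20 + (s + 5))

/-- The number of coins for one trial. -/
def tcoins (m n N t : ℕ) : ℕ := t * gcoins m n + m * (n * N.size)

theorem walk_rel {σ τ : Type} {f : σ → List Bool → σ} {g : τ → List Bool → τ} (R : σ → τ → Prop)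
    (h : ∀ x y ρ, R x y → R (f x ρ) (g y ρ)) (B t : ℕ) {x : σ} {y : τ} (hxy : R x y)
    (ρ : List Bool) : R (walk f B t x ρ) (walk g B t y ρ) := by
  induction t generalizing x y ρ with
  | zero => exact hxy
  | succ t ih => exact ih (h _ _ _ hxy) _

theorem ind_nonneg (p : Prop) : 0 ≤ ind p := by unfold ind; split_ifs <;> norm_num

namespace Par

variable {m n : ℕ} (P : Par m n)

/-- The number of bits of an offset. -/
def dbits (a : Fin m × Fin n) : ℕ :=
  if a.1 ≠ P.i0 ∧ a.2 ≠ P.j0 then Nat.size (min (P.r a.1) (P.c a.2) / MM m n ^ 13) else 0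

theorem del_eq (a : Fin m × Fin n) : P.del a = 2 ^ P.dbits a := by
  unfold del dbits
  split_ifs <;> rfl

theorem dbits_le (a : Fin m × Fin n) : P.dbits a ≤ P.N.size := by
  unfold dbits
  split_ifs
  · exact Nat.size_le_size ((Nat.div_le_self _ _).trans ((min_le_left _ _).trans
      (Finset.single_le_sum (fun i _ => Nat.zero_le (P.r i)) (mem_univ _))))
  · exact Nat.zero_le _

/-- The offsets read from the coins. -/
def fill (ρ : List Bool) : Pt m n := fun a =>
  val ((blk P.N.size a.2 (blk (n * P.N.size) a.1 ρ)).take (P.dbits a))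

theorem fill_mem (ρ : List Bool) : P.fill ρ ∈ P.cube := by
  simp only [cube, Fintype.mem_piFinset, Finset.mem_range, del_eq]
  exact fun a => (val_lt _).trans_le (Nat.pow_le_pow_right two_pos (List.length_take_le _ _))

theorem ex_fill (G : Pt m n → ℝ) : ex (m * (n * P.N.size)) (fun ρ => G (P.fill ρ)) =
    (∑ y ∈ P.cube, G y) / P.cube.card := by
  have h1 := ex_blk (n * P.N.size) m
    (fun i u (j : Fin n) => val ((blk P.N.size j u).take (P.dbits (i, j))))
    (fun i => Fintype.piFinset fun j => range (P.del (i, j))) (fun i => ∏ j, (P.del (i, j) : ℝ))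
    (fun i F => ex_blk P.N.size n (fun j u => val (u.take (P.dbits (i, j))))
      (fun j => range (P.del (i, j))) (fun j => (P.del (i, j) : ℝ)) (fun j F => by
        rw [ex_val_take (P.dbits_le _), del_eq]
        push_cast
        rfl) F) fun Y => G fun a => Y a.1 a.2
  refine h1.trans ?_
  congr 1
  · refine Finset.sum_nbij' (fun Y a => Y a.1 a.2) (fun y i j => y (i, j)) (fun Y hY => ?_)
      (fun y hy => ?_) (fun _ _ => rfl) (fun _ _ => rfl) fun _ _ => rfl
    · simp only [cube, Fintype.mem_piFinset] at hY ⊢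
      exact fun a => hY a.1 a.2
    · simp only [cube, Fintype.mem_piFinset] at hy ⊢
      exact fun i j => hy (i, j)
  · rw [cube, Fintype.card_piFinset, Fintype.prod_prod_type]
    simp only [Finset.card_range, Nat.cast_prod]

/-- The point of the box produced by one trial. -/
def point (t : ℕ) (u : List Bool) : Pt m n :=
  P.pt (walk P.gstep (gcoins m n) t 0 (u.take (t * gcoins m n))) (P.fill (u.drop (t * gcoins m n)))

theorem point_mem (t : ℕ) (u : List Bool) : P.point t u ∈ P.box := by
  have h1 : walk P.gstep (gcoins m n) t 0 (u.take (t * gcoins m n)) ∈ P.grid :=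
    walk_rel (f := P.gstep) (g := P.gstep) (fun k _ => k ∈ P.grid)
      (fun _ _ ρ h => P.gstep_mem h ρ) _ _ (y := 0) P.zero_mem_grid _
  have h2 := P.fill_mem (u.drop (t * gcoins m n))
  rw [mem_grid_iff] at h1
  simp only [cube, box, Fintype.mem_piFinset, Finset.mem_range] at h2 ⊢
  intro a
  exact lt_of_lt_of_le (Nat.add_lt_add_left (h2 a) _) (Nat.mul_le_mul_left (P.del a) (h1 a))

variable {P}

theorem trial_tv (hF : P.Facts) (s : ℕ) :
    ∑ X ∈ tables P.r P.c, |ex (tcoins m n P.N (gsteps m n s)) (fun u => ind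
      (decide (P.pen (P.point (gsteps m n s) u) = 0) ∧ P.tab (P.point (gsteps m n s) u) = X)) -
      1 / ((∑ k ∈ P.grid, P.w k) * P.cube.card)| ≤ (1 / 2) ^ (s + 5) := by
  have hM : (0 : ℝ) < MM m n := by exact_mod_cast MM_pos m n
  have hc : (0 : ℝ) < P.cube.card := by exact_mod_cast Finset.card_pos.2 ⟨_, P.fill_mem []⟩
  have h1 := (wgood_gop hF).tv (l := s + 5) (t := gsteps m n s) P.zero_mem_grid (Z_le_w0 hF)
    (le_of_eq (by unfold gsteps; push_cast; field_simp)) (tables P.r P.c)
    (fun X k => (∑ y ∈ P.cube, ind (P.pen (P.pt k y) = 0 ∧ P.tab (P.pt k y) = X)) / P.cube.card)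
    (fun X k => div_nonneg (Finset.sum_nonneg fun _ _ => ind_nonneg _) hc.le) fun k => by
      rw [← Finset.sum_div, div_le_one hc, Finset.sum_comm]
      refine (Finset.sum_le_card_nsmul _ _ 1 fun y _ => ?_).trans (by simp)
      by_cases h : P.tab (P.pt k y) ∈ tables P.r P.c
      · rw [← sum_ind h]
        refine Finset.sum_le_sum fun X _ => ?_
        unfold ind
        split_ifs with h2 h3
        · exact le_rfl
        · exact absurd h2.2 h3
        · exact zero_le_one
        · exact le_rfl
      · refine (Finset.sum_eq_zero fun X hX => ?_).le.trans zero_le_one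
        exact if_neg fun e => h (by rw [e.2]; exact hX)
  refine le_trans (le_of_eq (Finset.sum_congr rfl fun X hX => ?_)) h1
  congr 2
  · rw [← ex_walk P.gstep _ P.gop (fun _ _ => rfl), tcoins]
    simp only [decide_eq_true_eq]
    simp only [point, ← ex_fill]
    exact ex_split _ _ fun u v => ind
      (P.pen (P.pt (walk P.gstep (gcoins m n) (gsteps m n s) 0 u) (P.fill v)) = 0 ∧
        P.tab (P.pt (walk P.gstep (gcoins m n) (gsteps m n s) 0 u) (P.fill v)) = X)
  · have h2 : ∀ k ∈ P.grid, P.w k * ((∑ y ∈ P.cube, ind (P.pen (P.pt k y) = 0 ∧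
        P.tab (P.pt k y) = X)) / P.cube.card) = (∑ y ∈ P.cube, if P.pen (P.pt k y) = 0 then
          ind (X = P.tab (P.pt k y)) else 0) / P.cube.card := by
      intro k _
      rw [← mul_div_assoc, Finset.mul_sum]
      congr 1
      refine Finset.sum_congr rfl fun y hy => ?_
      split_ifs with h
      · rw [w, hF.hgt_eq_zero k hy h, pow_zero, one_mul]
        simp only [h, true_and, eq_comm]
      · simp [h, ind]
    rw [Finset.sum_congr rfl h2, ← Finset.sum_div,
      ← hF.sum_box fun x => if P.pen x = 0 then ind (X = P.tab x) else 0, ← Finset.sum_filter,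
      hF.sum_tab fun Y => ind (X = Y), sum_ind hX, div_div, mul_comm]

variable (P)

/-- The output of the sampler. -/
def output (d : Fin m → Fin n → ℕ) (s : ℕ) (ρ : List Bool) : Fin m → Fin n → ℕ :=
  firstOf (fun u => decide (P.pen (P.point (gsteps m n s) u) = 0))
    (fun u => P.tab (P.point (gsteps m n s) u)) d (tcoins m n P.N (gsteps m n s)) (16 * (s + 1)) ρ

variable {P}

theorem output_mem (hF : P.Facts) {d : Fin m → Fin n → ℕ} (hd : d ∈ tables P.r P.c) (s : ℕ)
    (ρ : List Bool) : P.output d s ρ ∈ tables P.r P.c :=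
  firstOf_ind (out' := fun _ => ()) (d' := ()) (fun X _ => X ∈ tables P.r P.c) hd
    (fun _ h => hF.tab_mem (P.point_mem _ _) (of_decide_eq_true h)) _ _ _

theorem output_tv (hF : P.Facts) {d : Fin m → Fin n → ℕ} (hd : d ∈ tables P.r P.c) (s : ℕ) :
    ∑ X ∈ tables P.r P.c, |ex (16 * (s + 1) * tcoins m n P.N (gsteps m n s))
      (fun ρ => ind (P.output d s ρ = X)) - 1 / (tables P.r P.c).card| ≤ 2 * (1 / 2) ^ s := by
  have hc : (0 : ℝ) < P.cube.card := by exact_mod_cast Finset.card_pos.2 ⟨_, P.fill_mem []⟩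
  have hZ : 0 < ∑ k ∈ P.grid, P.w k := Finset.sum_pos (fun k _ => P.w_pos k) ⟨_, P.zero_mem_grid⟩
  have h2 : (1 / 2 : ℝ) ^ s ≤ 1 := pow_le_one₀ (by norm_num) (by norm_num)
  have h1 := firstOf_tv hd (fun _ h => hF.tab_mem (P.point_mem _ _) (of_decide_eq_true h))
    (by
      rw [div_mul_eq_mul_div, one_mul, div_le_div_iff₀ (by norm_num) (by positivity)]
      linarith [hF.Z_le]) (by rw [pow_add]; linarith) (trial_tv hF s) (16 * (s + 1))
  have h3 : (15 / 16 : ℝ) ^ (16 * (s + 1)) ≤ (1 / 2) ^ (s + 1) := by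
    rw [pow_mul]
    exact pow_le_pow_left₀ (by positivity) (by norm_num) _
  refine h1.trans ?_
  rw [pow_succ] at h3
  rw [pow_add]
  linarith

end Par

end Vale.Agent.P328
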