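import Vale.Agent.P328.Model

/-!
From the inequality for three rows to the Poincare inequality of the `2 × 2` heat bath chain.
-/

namespace Vale.Agent.P328

open Finset

section General

variable {Ω : Type} [Fintype Ω]

theorem cdev_subtype {r s : Setoid Ω} (h : ∀ x y, r x y → s x y) (f : Ω → ℝ) (x0 : Ω)
    [Fintype {x // s x0 x}] (r' : Setoid {x // s x0 x})
    (hr' : ∀ x y : {x // s x0 x}, r' x y ↔ r x.1 y.1) (x : {x // s x0 x}) :
    cdev r' (fun z => f z.1) x = cdev r f x.1 := by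
  rw [cdev_apply, cdev_apply, cavg_subtype h f x0 r' hr']

theorem sum_cls (s : Setoid Ω) (x0 : Ω) [Fintype {x // s x0 x}] (g : Ω → ℝ) :
    ∑ x ∈ cls s x0, g x = ∑ x : {x // s x0 x}, g x.1 :=
  Finset.sum_subtype _ (fun _ => mem_cls) g

/-- If all eigenfunctions of the sum of three averages with an eigenvalue above two are invariant,
then the inequality holds. -/
theorem triple_of_eigen (R : Fin 3 → Setoid Ω)
    (h : ∀ (lam : ℝ) (f : Ω → ℝ), 2 < lam →
      (∀ ω, cavg (R 0) f ω + cavg (R 1) f ω + cavg (R 2) f ω = lam * f ω) → ∀ x y, f x = f y)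
    (f : Ω → ℝ) :
    0 ≤ ip (cdev (R 0) f) (cdev (R 1) f) + ip (cdev (R 0) f) (cdev (R 2) f) +
      ip (cdev (R 1) f) (cdev (R 2) f) := by
  set T : (Ω → ℝ) →ₗ[ℝ] (Ω → ℝ) := cdevL (R 0) + cdevL (R 1) + cdevL (R 2) with hT
  have hTf : ∀ g, T g = cdev (R 0) g + cdev (R 1) g + cdev (R 2) g := by
    intro g; rfl
  have hsym : ∀ g h : Ω → ℝ, ip (T g) h = ip g (T h) := by
    intro g h
    rw [hTf, hTf, ip_add_left, ip_add_left, ip_add_right, ip_add_right, ip_cdev, ip_cdev, ip_cdev]
  have heig : ∀ (l : ℝ) (g : Ω → ℝ), g ≠ 0 → T g = l • g → l ≤ 0 ∨ 1 ≤ l := by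
    intro l g hg hlg
    by_contra hcon
    push Not at hcon
    obtain ⟨h0, h1⟩ := hcon
    have hlam : (2 : ℝ) < 3 - l := by linarith
    have hf : ∀ ω, cavg (R 0) g ω + cavg (R 1) g ω + cavg (R 2) g ω = (3 - l) * g ω := by
      intro ω
      have := congrFun hlg ω
      rw [hTf] at this
      simp only [Pi.add_apply, Pi.smul_apply, smul_eq_mul, cdev_apply] at this
      linarith only [this]
    have hconst := h _ g hlam hf
    have hz : ∀ k, cdev (R k) g = 0 := by
      intro k
      unfold cdev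
      rw [cavg_of_const' (fun x y _ => hconst y x), sub_self]
    rw [hTf, hz, hz, hz, add_zero, add_zero] at hlg
    apply hg
    funext ω
    have := congrFun hlg ω
    simp only [Pi.zero_apply, Pi.smul_apply, smul_eq_mul] at this
    rcases mul_eq_zero.mp this.symm with h | h
    · linarith only [h0, h]
    · exact h
  have h := quad_of_eigen T hsym heig f
  rw [hTf] at h
  have e0 := ip_cdev_self (R 0) f
  have e1 := ip_cdev_self (R 1) f
  have e2 := ip_cdev_self (R 2) f
  simp only [ip_add_left, ip_add_right] at h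
  have c1 := ip_comm (cdev (R 0) f) (cdev (R 1) f)
  have c2 := ip_comm (cdev (R 0) f) (cdev (R 2) f)
  have c3 := ip_comm (cdev (R 1) f) (cdev (R 2) f)
  linarith only [e0, e1, e2, h, c1, c2, c3]

/-- The same from the tensorisation of the variance. -/
theorem triple_of_var (R : Fin 3 → Setoid Ω)
    (h : ∀ f : Ω → ℝ, ∑ x, f x = 0 → ip f f ≤ ip (cdev (R 0) f) (cdev (R 0) f) +
      ip (cdev (R 1) f) (cdev (R 1) f) + ip (cdev (R 2) f) (cdev (R 2) f)) (f : Ω → ℝ) :
    0 ≤ ip (cdev (R 0) f) (cdev (R 1) f) + ip (cdev (R 0) f) (cdev (R 2) f) +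
      ip (cdev (R 1) f) (cdev (R 2) f) := by
  refine triple_of_eigen R (fun lam g hlam hg x y => ?_) f
  have hs : ∀ k, ∑ z, cavg (R k) g z = ∑ z, g z := by
    intro k
    have h2 := ip_cavg (R k) g (fun _ => 1)
    rw [cavg_const] at h2
    simpa only [ip, mul_one] using h2
  have hq : ∀ k, ip (cdev (R k) g) (cdev (R k) g) = ip g g - ip g (cavg (R k) g) := by
    intro k
    rw [← ip_cdev_self, cdev, ip_sub_right]
  have h3 : ip g (cavg (R 0) g) + ip g (cavg (R 1) g) + ip g (cavg (R 2) g) = lam * ip g g := by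
    simp only [ip, ← Finset.sum_add_distrib, ← mul_add, hg, Finset.mul_sum]
    exact Finset.sum_congr rfl fun z _ => by ring
  have h4 : 3 * ∑ z, g z = lam * ∑ z, g z := by
    rw [Finset.mul_sum univ g lam, ← Finset.sum_congr rfl fun z _ => hg z,
      Finset.sum_add_distrib, Finset.sum_add_distrib, hs, hs, hs]
    ring
  have hN : (0 : ℝ) < Fintype.card Ω := by
    exact_mod_cast Fintype.card_pos_iff.2 ⟨x⟩
  -- subtract the mean
  set μ := (∑ z, g z) / Fintype.card Ω with hμ
  have h5 := h (fun z => g z - μ) (by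
    rw [Finset.sum_sub_distrib, Finset.sum_const, Finset.card_univ, nsmul_eq_mul, hμ]
    field_simp
    ring)
  have h6 : ∀ k, cdev (R k) (fun z => g z - μ) = cdev (R k) g := by
    intro k
    have : (fun z => g z - μ) = g - fun _ => μ := rfl
    rw [this, cdev_sub]
    simp only [cdev, cavg_const, sub_self, sub_zero]
  rw [h6, h6, h6, hq, hq, hq] at h5
  have h7 : ip (fun z => g z - μ) (fun z => g z - μ) = ip g g - Fintype.card Ω * μ ^ 2 := by
    have e : ∀ z, (g z - μ) * (g z - μ) = g z * g z - 2 * μ * g z + μ ^ 2 := fun z => by ring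
    have e2 : ∑ z, g z = Fintype.card Ω * μ := by rw [hμ]; field_simp
    simp only [ip, e, Finset.sum_add_distrib, Finset.sum_sub_distrib, ← Finset.mul_sum, e2,
      Finset.sum_const, Finset.card_univ, nsmul_eq_mul]
    ring
  have h8 : ip (fun z => g z - μ) (fun z => g z - μ) ≤ 0 := by
    by_cases h9 : lam = 3
    · rw [h9] at h3
      linarith
    · have h10 : ∑ z, g z = 0 := by
        by_contra h11
        exact h9 (mul_right_cancel₀ h11 h4).symm
      have h12 : μ = 0 := by rw [hμ, h10, zero_div]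
      rw [h7, h12] at h5 ⊢
      have h13 := ip_self_nonneg g
      nlinarith
  rw [ip_self_eq_sum_sq] at h8
  have h9 := (Finset.sum_eq_zero_iff_of_nonneg fun z _ => sq_nonneg (g z - μ)).1
    (le_antisymm h8 (Finset.sum_nonneg fun z _ => sq_nonneg _))
  have hx := pow_eq_zero_iff (two_ne_zero) |>.1 (h9 x (mem_univ _))
  have hy := pow_eq_zero_iff (two_ne_zero) |>.1 (h9 y (mem_univ _))
  linarith

end General

namespace Model

variable {Ω ι κ : Type} [Fintype Ω] [Fintype ι] [Fintype κ] [DecidableEq ι] [DecidableEq κ]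
  (M : Model Ω ι κ)

theorem triple_rows (hT : Triple) {a b c : ι} (hab : a ≠ b) (hbc : b ≠ c) (hac : a ≠ c)
    (f : Ω → ℝ) :
    0 ≤ ip (cdev (M.two a b) f) (cdev (M.two a c) f) + ip (cdev (M.two b a) f) (cdev (M.two b c) f) +
      ip (cdev (M.two c a) f) (cdev (M.two c b) f) := by
  classical
  have ht : Function.Injective ![a, b, c] := by
    intro k l h
    fin_cases k <;> fin_cases l <;> simp_all
  rw [M.two_comm b a, M.two_comm c a, M.two_comm c b]
  simp only [ip, ← Finset.sum_add_distrib]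
  refine sum_nonneg_of_classes (M.off ![a, b, c]) _ fun ω₀ => ?_
  have h1 := hT _ _ (M.sub ht ω₀) fun z => f z.1
  have hr : ∀ i, i ∉ Set.range ![a, b, c] ↔ i ≠ a ∧ i ≠ b ∧ i ≠ c := by
    intro i
    simp [eq_comm, not_or]
    tauto
  have key : ∀ (k : Fin 3) (u v : ι), (∀ i, i ≠ u → i ≠ v →
      (i ∉ Set.range ![a, b, c] ∨ i = ![a, b, c] k)) → u ∈ Set.range ![a, b, c] →
      v ∈ Set.range ![a, b, c] → ![a, b, c] k ≠ u → ![a, b, c] k ≠ v →
      ∀ z, cdev ((M.sub ht ω₀).same k) (fun z => f z.1) z = cdev (M.two u v) f z.1 := by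
    intro k u v h2 hu hv hku hkv z
    refine cdev_subtype (r := M.two u v) (fun x y h i hi => h i (fun e => hi (e ▸ hu)) (fun e => hi (e ▸ hv))) f ω₀
      _ (fun x y => ⟨fun h i h3 h4 => ?_, fun h => h _ hku hkv⟩) z
    rcases h2 i h3 h4 with h5 | h5
    · exact (x.2 i h5).symm.trans (y.2 i h5)
    · rw [h5]
      exact h
  have k0 := key 0 b c (fun i h2 h3 => by rw [hr]; simp; tauto) ⟨1, rfl⟩ ⟨2, rfl⟩ hab hac
  have k1 := key 1 a c (fun i h2 h3 => by rw [hr]; simp; tauto) ⟨0, rfl⟩ ⟨2, rfl⟩ hab.symm hbc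
  have k2 := key 2 a b (fun i h2 h3 => by rw [hr]; simp; tauto) ⟨0, rfl⟩ ⟨1, rfl⟩ hac.symm
    hbc.symm
  simp only [ip, ← Finset.sum_add_distrib, k0, k1, k2] at h1
  rw [sum_cls]
  refine h1.trans (le_of_eq (Finset.sum_congr rfl fun z _ => ?_))
  ring

/-- The gap of the chain which resamples two rows. -/
theorem rows_gap (hT : Triple) (f : Ω → ℝ) :
    2 * ∑ x, (f x - (∑ y, f y) / (Fintype.card Ω : ℝ)) ^ 2 ≤
      ∑ a, ∑ b, (if a ≠ b then ip (cdev (M.two a b) f) (cdev (M.two a b) f) else 0) :=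
  knabe M.two M.two_comm (fun _ _ _ _ h => M.two_rect h)
    (fun _ _ _ hab hbc hac f => M.triple_rows hT hab hbc hac f)
    (fun f hf => M.conn f fun a b _ _ hab _ ω ω' h => hf a b hab ω ω' fun i h1 h2 =>
      funext fun j => h i j fun e => e.1.elim h1 h2) f

theorem two_gap (hT : Triple) {a b : ι} (hab : a ≠ b) (f : Ω → ℝ) :
    2 * ip (cdev (M.two a b) f) (cdev (M.two a b) f) ≤
      ∑ p, ∑ q, (if p ≠ q then ip (cdev (M.box a b p q) f) (cdev (M.box a b p q) f) else 0) := by
  classical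
  have ht : Function.Injective ![a, b] := by
    intro k l h
    fin_cases k <;> fin_cases l <;> simp_all
  have hr : ∀ i, i ∉ Set.range ![a, b] ↔ i ≠ a ∧ i ≠ b := by
    intro i
    simp [eq_comm, not_or]
    tauto
  have hoff : M.two a b = M.off ![a, b] := Setoid.ext fun x y =>
    ⟨fun h i hi => h i ((hr i).1 hi).1 ((hr i).1 hi).2, fun h i h1 h2 => h i ((hr i).2 ⟨h1, h2⟩)⟩
  rw [hoff, ← sub_nonneg]
  have e : ∀ p q, (if p ≠ q then ip (cdev (M.box a b p q) f) (cdev (M.box a b p q) f) else 0) =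
      ∑ x, (if p ≠ q then cdev (M.box a b p q) f x * cdev (M.box a b p q) f x else 0) := by
    intro p q
    split_ifs
    · rfl
    · simp
  simp only [e]
  rw [Finset.sum_congr rfl fun p _ => Finset.sum_comm, Finset.sum_comm, ip, Finset.mul_sum,
    ← Finset.sum_sub_distrib]
  refine sum_nonneg_of_classes (M.off ![a, b]) _ fun ω₀ => ?_
  have h1 := (M.sub ht ω₀).tr.rows_gap hT fun z => f z.1
  have key : ∀ p q z, cdev ((M.sub ht ω₀).tr.two p q) (fun z => f z.1) z =
      cdev (M.box a b p q) f z.1 := by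
    intro p q z
    refine cdev_subtype (r := M.box a b p q) (fun x y h i hi => funext fun j => h i j fun e =>
      e.1.elim ((hr i).1 hi).1 ((hr i).1 hi).2) f ω₀ _ (fun x y => ⟨fun h i j h2 => ?_,
        fun h j h2 h3 => funext fun k => h _ j fun e => e.2.elim h2 h3⟩) z
    by_cases hi : i ∈ Set.range ![a, b]
    · have h3 : i = a ∨ i = b := by
        by_contra h4
        exact (hr i).2 (not_or.1 h4) hi
      have h4 := not_or.1 fun e => h2 ⟨h3, e⟩
      obtain ⟨k, rfl⟩ := hi
      exact congrFun (h j h4.1 h4.2) k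
    · exact congrFun ((x.2 i hi).symm.trans (y.2 i hi)) j
  have e' : ∀ p q, (if p ≠ q then ip (cdev ((M.sub ht ω₀).tr.two p q) (fun z => f z.1))
      (cdev ((M.sub ht ω₀).tr.two p q) (fun z => f z.1)) else 0) =
      ∑ x : {ω // M.off ![a, b] ω₀ ω},
        (if p ≠ q then cdev (M.box a b p q) f x.1 * cdev (M.box a b p q) f x.1 else 0) := by
    intro p q
    split_ifs
    · simp only [ip, key]
    · simp
  simp only [e'] at h1
  rw [Finset.sum_congr rfl fun p _ => Finset.sum_comm, Finset.sum_comm, Finset.mul_sum,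
    ← sub_nonneg, ← Finset.sum_sub_distrib] at h1
  rw [sum_cls]
  refine h1.trans (le_of_eq (Finset.sum_congr rfl fun z _ => ?_))
  have h2 : (∑ y : {ω // M.off ![a, b] ω₀ ω}, f y.1) /
      (Fintype.card {ω // M.off ![a, b] ω₀ ω} : ℝ) = cavg (M.off ![a, b]) f z.1 := by
    rw [← cavg_congr z.2, cavg, sum_cls]
    congr 2
    exact Fintype.card_of_subtype _ fun _ => mem_cls
  rw [h2, cdev_apply (M.off ![a, b]), sq]

/-- The energy of the `2 × 2` heat bath chain. -/
noncomputable def energy (f : Ω → ℝ) : ℝ :=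
  ∑ a, ∑ b, ∑ p, ∑ q, (if a ≠ b ∧ p ≠ q then
    ip (cdev (M.box a b p q) f) (cdev (M.box a b p q) f) else 0)

/-- The Poincare inequality of the `2 × 2` heat bath chain. -/
theorem box_gap (hT : Triple) (f : Ω → ℝ) (hf : ∑ x, f x = 0) :
    4 * ∑ x, f x ^ 2 ≤ M.energy f := by
  have h1 := M.rows_gap hT f
  rw [hf] at h1
  simp only [zero_div, sub_zero] at h1
  have h2 : 2 * ∑ a, ∑ b, (if a ≠ b then ip (cdev (M.two a b) f) (cdev (M.two a b) f) else 0) ≤
      M.energy f := by
    rw [energy, Finset.mul_sum]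
    refine Finset.sum_le_sum fun a _ => ?_
    rw [Finset.mul_sum]
    refine Finset.sum_le_sum fun b _ => ?_
    by_cases hab : a = b
    · simp [hab]
    · rw [if_pos hab]
      simpa only [ne_eq, hab, not_false_eq_true, true_and] using M.two_gap hT hab f
  linarith

end Model

end Vale.Agent.P328
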