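import Vale.Agent.P328.Avg

/-!
The argument of Knabe and Caputo: a family of equivalence relations indexed by the pairs of a
finite set, commuting for disjoint pairs and positively correlated on triples, has a gap.
-/

set_option linter.all false

namespace Vale.Agent.P328

open Finset

section sums

variable {V : Type*} [Fintype V] [DecidableEq V]

/-- Four distinct vertices. -/
structure Four (a c b e : V) : Prop where
  ac : a ≠ c
  be : b ≠ e
  ab : a ≠ b
  ae : a ≠ e
  cb : c ≠ b
  ce : c ≠ e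

lemma Four.swap {a c b e : V} (h : Four a c b e) : Four b e a c :=
  ⟨h.be, h.ac, h.ab.symm, h.cb.symm, h.ae.symm, h.ce.symm⟩

open Classical in
/-- Decomposition of a sum over ordered pairs of distinct vertices relative to a given pair. -/
lemma sum_pairs {a c : V} (hac : a ≠ c) (G : V → V → ℝ) :
    ∑ b, ∑ e, (if b ≠ e then G b e else 0) =
      ∑ b, ∑ e, (if Four a c b e then G b e else 0) +
      ∑ e, (if e ≠ a ∧ e ≠ c then G a e else 0) + ∑ e, (if e ≠ a ∧ e ≠ c then G c e else 0) +
      ∑ b, (if b ≠ a ∧ b ≠ c then G b a else 0) + ∑ b, (if b ≠ a ∧ b ≠ c then G b c else 0) +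
      G a c + G c a := by
  have h1 : ∀ b e, (if b ≠ e then G b e else 0) = (if Four a c b e then G b e else 0) +
      (if b = a then (if e ≠ a ∧ e ≠ c then G a e else 0) else 0) +
      (if b = c then (if e ≠ a ∧ e ≠ c then G c e else 0) else 0) +
      (if e = a then (if b ≠ a ∧ b ≠ c then G b a else 0) else 0) +
      (if e = c then (if b ≠ a ∧ b ≠ c then G b c else 0) else 0) +
      (if b = a then (if e = c then G a c else 0) else 0) +
      (if b = c then (if e = a then G c a else 0) else 0) := by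
    intro b e
    by_cases hba : b = a
    · subst hba
      have hF : ¬ Four b c b e := fun h => h.ab rfl
      by_cases heb : e = b
      · subst heb
        simp [hF, hac]
      · by_cases hec : e = c
        · subst hec
          simp [hF, hac, hac.symm]
        · simp [hF, hac, heb, hec, Ne.symm heb]
    · by_cases hbc : b = c
      · subst hbc
        have hF : ¬ Four a b b e := fun h => h.cb rfl
        by_cases hea : e = a
        · subst hea
          simp [hF, hba]
        · by_cases heb : e = b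
          · subst heb
            simp [hF, hba]
          · simp [hF, hba, hea, heb, Ne.symm heb]
      · by_cases hea : e = a
        · subst hea
          have hF : ¬ Four e c b e := fun h => h.ae rfl
          simp [hF, hba, hbc, hac]
        · by_cases hec : e = c
          · subst hec
            have hF : ¬ Four a e b e := fun h => h.ce rfl
            simp [hF, hba, hbc, hea]
          · by_cases hbe : b = e
            · subst hbe
              have hF : ¬ Four a c b b := fun h => h.be rfl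
              simp [hF, hba, hbc]
            · have hF : Four a c b e :=
                ⟨hac, hbe, Ne.symm hba, Ne.symm hea, Ne.symm hbc, Ne.symm hec⟩
              simp [hF, hba, hbc, hea, hec, hbe]
  simp_rw [h1]
  simp only [Finset.sum_add_distrib]
  have h2 : ∀ (u : V) (g : V → ℝ), ∑ b, ∑ e, (if b = u then g e else 0) = ∑ e, g e := by
    intro u g
    rw [Finset.sum_comm]
    refine Finset.sum_congr rfl (fun e _ => ?_)
    rw [Finset.sum_ite_eq' univ u (fun _ => g e), if_pos (mem_univ u)]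
  have h3 : ∀ (u : V) (g : V → ℝ), ∑ b, ∑ e, (if e = u then g b else 0) = ∑ b, g b := by
    intro u g
    refine Finset.sum_congr rfl (fun b _ => ?_)
    rw [Finset.sum_ite_eq' univ u (fun _ => g b), if_pos (mem_univ u)]
  rw [h2 a (fun e => if e ≠ a ∧ e ≠ c then G a e else 0),
    h2 c (fun e => if e ≠ a ∧ e ≠ c then G c e else 0),
    h3 a (fun b => if b ≠ a ∧ b ≠ c then G b a else 0),
    h3 c (fun b => if b ≠ a ∧ b ≠ c then G b c else 0),
    h2 a (fun e => if e = c then G a c else 0), h2 c (fun e => if e = a then G c a else 0)]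
  rw [Finset.sum_ite_eq' univ c (fun _ => G a c), if_pos (mem_univ c),
    Finset.sum_ite_eq' univ a (fun _ => G c a), if_pos (mem_univ a)]

end sums

section Gram

variable {V Ω : Type*} [Fintype V] [DecidableEq V] [Fintype Ω]

theorem ipS_left {ι : Type*} (s : Finset ι) (F : ι → Ω → ℝ) (g : Ω → ℝ) :
    ip (∑ i ∈ s, F i) g = ∑ i ∈ s, ip (F i) g := by
  unfold ip
  rw [Finset.sum_comm]
  refine Finset.sum_congr rfl fun x _ => ?_
  rw [Finset.sum_apply, Finset.sum_mul]

theorem ipIte_left (P : Prop) [Decidable P] (f g : Ω → ℝ) :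
    ip (if P then f else 0) g = if P then ip f g else 0 := by
  split_ifs
  · rfl
  · unfold ip; simp only [Pi.zero_apply, zero_mul, sum_const_zero]

theorem ipSS_left (E : V → V → Ω → ℝ) (g : Ω → ℝ) :
    ip (∑ a, ∑ c, (if a ≠ c then E a c else 0)) g =
      ∑ a, ∑ c, (if a ≠ c then ip (E a c) g else 0) := by
  rw [ipS_left]
  refine Finset.sum_congr rfl fun a _ => ?_
  rw [ipS_left]
  exact Finset.sum_congr rfl fun c _ => ipIte_left _ _ _

open Classical in
theorem gram (E : V → V → Ω → ℝ) (hE : ∀ a c, E a c = E c a) :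
    ip (∑ a, ∑ c, (if a ≠ c then E a c else 0)) (∑ a, ∑ c, (if a ≠ c then E a c else 0)) =
      ∑ a, ∑ c, ∑ b, ∑ e, (if Four a c b e then ip (E a c) (E b e) else 0) +
      4 * ∑ a, ∑ c, ∑ x, (if a ≠ c ∧ c ≠ x ∧ a ≠ x then ip (E a c) (E a x) else 0) +
      2 * ∑ a, ∑ c, (if a ≠ c then ip (E a c) (E a c) else 0) := by
  have e1 : ip (∑ a, ∑ c, (if a ≠ c then E a c else 0)) (∑ a, ∑ c, (if a ≠ c then E a c else 0)) =
      ∑ a : V, ∑ c : V, (if a ≠ c then
      ∑ b : V, ∑ e : V, (if b ≠ e then ip (E a c) (E b e) else 0) else 0) := by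
    rw [ipSS_left]
    refine Finset.sum_congr rfl fun a _ => Finset.sum_congr rfl fun c _ => ?_
    split_ifs with h
    · rw [ip_comm, ipSS_left]
      refine Finset.sum_congr rfl fun b _ => Finset.sum_congr rfl fun e _ => ?_
      rw [ip_comm]
    · rfl
  have e2 : ∀ a c : V, (if a ≠ c then
      ∑ b : V, ∑ e : V, (if b ≠ e then ip (E a c) (E b e) else 0) else 0) =
      ∑ b, ∑ e, (if Four a c b e then ip (E a c) (E b e) else 0) +
      2 * ∑ x, (if a ≠ c ∧ c ≠ x ∧ a ≠ x then ip (E a c) (E a x) else 0) +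
      2 * ∑ x, (if c ≠ a ∧ a ≠ x ∧ c ≠ x then ip (E c a) (E c x) else 0) +
      2 * (if a ≠ c then ip (E a c) (E a c) else 0) := by
    intro a c
    by_cases hac : a = c
    · subst hac
      have h4 : ∀ b e : V, ¬ Four a a b e := fun b e h => h.ac rfl
      simp only [ne_eq, not_true_eq_false, ↓reduceIte, h4, sum_const_zero, and_self, false_and,
        mul_zero, add_zero]
    · rw [if_pos hac, sum_pairs hac (fun b e => ip (E a c) (E b e)), if_pos hac]
      have s1 : ∑ e, (if e ≠ a ∧ e ≠ c then ip (E a c) (E a e) else 0) =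
          ∑ x, (if a ≠ c ∧ c ≠ x ∧ a ≠ x then ip (E a c) (E a x) else 0) := by
        refine Finset.sum_congr rfl fun x _ => ?_
        refine if_congr ?_ rfl rfl
        constructor
        · exact fun h => ⟨hac, h.2.symm, h.1.symm⟩
        · exact fun h => ⟨h.2.2.symm, h.2.1.symm⟩
      have s2 : ∑ e, (if e ≠ a ∧ e ≠ c then ip (E a c) (E c e) else 0) =
          ∑ x, (if c ≠ a ∧ a ≠ x ∧ c ≠ x then ip (E c a) (E c x) else 0) := by
        refine Finset.sum_congr rfl fun x _ => ?_
        rw [hE a c]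
        refine if_congr ?_ rfl rfl
        constructor
        · exact fun h => ⟨Ne.symm hac, h.1.symm, h.2.symm⟩
        · exact fun h => ⟨h.2.1.symm, h.2.2.symm⟩
      have s3 : ∑ b, (if b ≠ a ∧ b ≠ c then ip (E a c) (E b a) else 0) =
          ∑ e, (if e ≠ a ∧ e ≠ c then ip (E a c) (E a e) else 0) := by
        refine Finset.sum_congr rfl fun x _ => ?_
        rw [hE x a]
      have s4 : ∑ b, (if b ≠ a ∧ b ≠ c then ip (E a c) (E b c) else 0) =
          ∑ e, (if e ≠ a ∧ e ≠ c then ip (E a c) (E c e) else 0) := by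
        refine Finset.sum_congr rfl fun x _ => ?_
        rw [hE x c]
      rw [s3, s4, s1, s2, hE c a]
      ring
  rw [e1]
  simp_rw [e2]
  simp only [Finset.sum_add_distrib, ← Finset.mul_sum]
  have e4 : ∑ a : V, ∑ c : V, ∑ x, (if c ≠ a ∧ a ≠ x ∧ c ≠ x then
        ip (E c a) (E c x) else 0) =
      ∑ a : V, ∑ c : V, ∑ x, (if a ≠ c ∧ c ≠ x ∧ a ≠ x then
        ip (E a c) (E a x) else 0) := Finset.sum_comm
  rw [e4]
  ring

open Classical in
theorem adj_nonneg' (E : V → V → Ω → ℝ)
    (hT : ∀ a b c, a ≠ b → b ≠ c → a ≠ c →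
      0 ≤ ip (E a b) (E a c) + ip (E b a) (E b c) + ip (E c a) (E c b)) :
    0 ≤ ∑ a : V, ∑ b : V, ∑ c : V, (if a ≠ b ∧ b ≠ c ∧ a ≠ c then
      ip (E a b) (E a c) else 0) := by
  set F : V → V → V → ℝ := fun a b c => if a ≠ b ∧ b ≠ c ∧ a ≠ c then
      ip (E a b) (E a c) else 0 with hF
  have h1 : ∀ a b c, 0 ≤ F a b c + F b a c + F c a b := by
    intro a b c
    rw [hF]
    by_cases h : a ≠ b ∧ b ≠ c ∧ a ≠ c
    · have e2 : b ≠ a ∧ a ≠ c ∧ b ≠ c := ⟨h.1.symm, h.2.2, h.2.1⟩
      have e3 : c ≠ a ∧ a ≠ b ∧ c ≠ b := ⟨h.2.2.symm, h.1, h.2.1.symm⟩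
      simp only [if_pos h, if_pos e2, if_pos e3]
      exact hT a b c h.1 h.2.1 h.2.2
    · have e2 : ¬ (b ≠ a ∧ a ≠ c ∧ b ≠ c) := fun h' => h ⟨h'.1.symm, h'.2.2, h'.2.1⟩
      have e3 : ¬ (c ≠ a ∧ a ≠ b ∧ c ≠ b) := fun h' => h ⟨h'.2.1, h'.2.2.symm, h'.1.symm⟩
      simp only [if_neg h, if_neg e2, if_neg e3]
      norm_num
  have h2 : 0 ≤ ∑ a, ∑ b, ∑ c, (F a b c + F b a c + F c a b) :=
    Finset.sum_nonneg fun a _ => Finset.sum_nonneg fun b _ => Finset.sum_nonneg fun c _ => h1 a b c
  simp only [Finset.sum_add_distrib] at h2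
  have h3 : ∑ a, ∑ b, ∑ c, F b a c = ∑ a, ∑ b, ∑ c, F a b c := Finset.sum_comm
  have h4 : ∑ a, ∑ b, ∑ c, F c a b = ∑ a, ∑ b, ∑ c, F a b c := by
    have : ∑ a, ∑ b, ∑ c, F c a b = ∑ a, ∑ c, ∑ b, F c a b :=
      Finset.sum_congr rfl fun a _ => Finset.sum_comm
    rw [this, Finset.sum_comm]
  rw [h3, h4] at h2
  linarith only [h2]

end Gram

section Main

variable {V Ω : Type*} [Fintype V] [DecidableEq V] [Fintype Ω] (R : V → V → Setoid Ω)

/-- the sum of the deviations over the ordered pairs -/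
noncomputable def TB : (Ω → ℝ) →ₗ[ℝ] (Ω → ℝ) :=
  ∑ i : V, ∑ k : V, (if i ≠ k then cdevL (R i k) else 0)

theorem TB_apply (f : Ω → ℝ) :
    TB R f = ∑ i : V, ∑ k : V, (if i ≠ k then cdev (R i k) f else 0) := by
  unfold TB
  rw [LinearMap.sum_apply]
  refine Finset.sum_congr rfl fun i _ => ?_
  rw [LinearMap.sum_apply]
  refine Finset.sum_congr rfl fun k _ => ?_
  split_ifs <;> simp

theorem ip_TB (f g : Ω → ℝ) :
    ip (TB R f) g = ∑ i : V, ∑ k : V, (if i ≠ k then ip (cdev (R i k) f) g else 0) := by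
  rw [TB_apply]
  exact ipSS_left (fun i k => cdev (R i k) f) g

theorem ip_TB_self (f : Ω → ℝ) :
    ip f (TB R f) = ∑ i : V, ∑ k : V,
      (if i ≠ k then ip (cdev (R i k) f) (cdev (R i k) f) else 0) := by
  rw [ip_comm, ip_TB]
  refine Finset.sum_congr rfl fun i _ => Finset.sum_congr rfl fun k _ => ?_
  split_ifs
  · rw [ip_comm, ip_cdev_self]
  · rfl

theorem TB_symm (f g : Ω → ℝ) : ip (TB R f) g = ip f (TB R g) := by
  rw [ip_TB, ip_comm f, ip_TB]
  refine Finset.sum_congr rfl fun i _ => Finset.sum_congr rfl fun k _ => ?_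
  split_ifs
  · rw [ip_cdev, ip_comm]
  · rfl

theorem TB_self_nonneg (f : Ω → ℝ) : 0 ≤ ip f (TB R f) := by
  rw [ip_TB_self]
  refine Finset.sum_nonneg fun i _ => Finset.sum_nonneg fun k _ => ?_
  split_ifs
  · exact ip_self_nonneg _
  · exact le_rfl

/-- **Knabe's argument.** -/
theorem knabe (hsym : ∀ a b, R a b = R b a)
    (hcomm : ∀ a c b e, Four a c b e → ∀ x, Rect (R a c) (R b e) x)
    (htri : ∀ a b c, a ≠ b → b ≠ c → a ≠ c → ∀ f : Ω → ℝ,
      0 ≤ ip (cdev (R a b) f) (cdev (R a c) f) + ip (cdev (R b a) f) (cdev (R b c) f) +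
        ip (cdev (R c a) f) (cdev (R c b) f))
    (hconn : ∀ f : Ω → ℝ, (∀ a b, a ≠ b → ∀ x y, R a b x y → f x = f y) → ∀ x y, f x = f y)
    (f : Ω → ℝ) :
    2 * ∑ x, (f x - (∑ y, f y) / (Fintype.card Ω : ℝ)) ^ 2 ≤
      ∑ i : V, ∑ k : V, (if i ≠ k then ip (cdev (R i k) f) (cdev (R i k) f) else 0) := by
  classical
  have hsq : ∀ f : Ω → ℝ, 2 * ip f (TB R f) ≤ ip (TB R f) (TB R f) := by
    intro f
    rw [ip_TB_self, TB_apply, gram (fun i k => cdev (R i k) f) (fun i k => by rw [hsym])]
    have h1 : 0 ≤ ∑ i : V, ∑ k, ∑ l, ∑ m, (if Four i k l m then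
        ip (cdev (R i k) f) (cdev (R l m) f) else 0) := by
      refine Finset.sum_nonneg fun i _ => Finset.sum_nonneg fun k _ =>
        Finset.sum_nonneg fun l _ => Finset.sum_nonneg fun m _ => ?_
      split_ifs with h
      · exact ip_cdev_cdev_nonneg_of_comm (cavg_comm (hcomm i k l m h) f)
      · exact le_rfl
    have h2 := adj_nonneg' (fun i k : V => cdev (R i k) f)
      (fun i k l hik hkl hil => htri i k l hik hkl hil f)
    linarith only [h1, h2]
  have hker : ∀ f : Ω → ℝ, TB R f = 0 → ∀ x y, f x = f y := by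
    intro f h
    have h1 := ip_TB_self R f
    rw [h] at h1
    have h0 : ip f (0 : Ω → ℝ) = 0 := by
      unfold ip; simp only [Pi.zero_apply, mul_zero, sum_const_zero]
    rw [h0] at h1
    have hnn : ∀ i k : V, 0 ≤ (if i ≠ k then ip (cdev (R i k) f) (cdev (R i k) f) else 0) := by
      intro i k
      split_ifs
      · exact ip_self_nonneg _
      · exact le_rfl
    have h2 := (Finset.sum_eq_zero_iff_of_nonneg
      (fun i _ => Finset.sum_nonneg fun k _ => hnn i k)).1 h1.symm
    refine hconn f fun i k hik x y hr => ?_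
    have h3 := (Finset.sum_eq_zero_iff_of_nonneg (fun k _ => hnn i k)).1 (h2 i (mem_univ i)) k
      (mem_univ k)
    rw [if_pos hik, ip_self_eq_sum_sq, Finset.sum_eq_zero_iff_of_nonneg (fun _ _ => sq_nonneg _)]
      at h3
    have h4 : ∀ z, f z = cavg (R i k) f z := by
      intro z
      have h5 := pow_eq_zero_iff (two_ne_zero) |>.mp (h3 z (mem_univ z))
      simp only [cdev, Pi.sub_apply] at h5
      linarith only [h5]
    rw [h4 x, h4 y]
    exact cavg_congr hr f
  have h1 := spectral_gap (TB R) (fun f g => TB_symm R f g) (fun f => TB_self_nonneg R f)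
    (fun f => by
      change 2 * ip f (TB R f) ≤ _
      rw [← ip_self_eq_sum_sq]
      exact hsq f) hker f
  change _ ≤ ip f (TB R f) at h1
  rwa [ip_TB_self] at h1

end Main

end Vale.Agent.P328
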