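import Vale.Agent.P328.Knabe

/-!
Finite sets which are in bijection with the contingency tables with given margins. The inequality
for three rows implies the Poincare inequality of the chain which resamples `2 × 2` subtables.
-/

namespace Vale.Agent.P328

open Finset

/-- `Ω` is identified with the set of the tables with row sums `r` and column sums `c`. -/
structure Model (Ω ι κ : Type) [Fintype ι] [Fintype κ] where
  x : Ω → ι → κ → ℕ
  r : ι → ℕ
  c : κ → ℕ
  inj : Function.Injective x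
  row : ∀ ω i, ∑ j, x ω i j = r i
  col : ∀ ω j, ∑ i, x ω i j = c j
  surj : ∀ X : ι → κ → ℕ, (∀ i, ∑ j, X i j = r i) → (∀ j, ∑ i, X i j = c j) → ∃ ω, x ω = X

namespace Model

variable {Ω ι κ : Type} [Fintype ι] [Fintype κ] (M : Model Ω ι κ)

/-- The tables have the same row `k`. -/
def same (k : ι) : Setoid Ω :=
  ⟨fun ω ω' => M.x ω k = M.x ω' k, fun _ => rfl, fun h => h.symm, fun h h' => h.trans h'⟩

/-- The tables agree outside the rows `a`, `b`. -/
def two (a b : ι) : Setoid Ω :=
  ⟨fun ω ω' => ∀ i, i ≠ a → i ≠ b → M.x ω i = M.x ω' i, fun _ _ _ _ => rfl,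
    fun h i h1 h2 => (h i h1 h2).symm, fun h h' i h1 h2 => (h i h1 h2).trans (h' i h1 h2)⟩

/-- The tables agree outside the cells with row `a` or `b` and column `p` or `q`. -/
def box (a b : ι) (p q : κ) : Setoid Ω :=
  ⟨fun ω ω' => ∀ i j, ¬ ((i = a ∨ i = b) ∧ (j = p ∨ j = q)) → M.x ω i j = M.x ω' i j,
    fun _ _ _ _ => rfl, fun h i j h1 => (h i j h1).symm,
    fun h h' i j h1 => (h i j h1).trans (h' i j h1)⟩

/-- The tables agree outside the rows in the range of `t`. -/
def off {ι' : Type} (t : ι' → ι) : Setoid Ω :=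
  ⟨fun ω ω' => ∀ i, i ∉ Set.range t → M.x ω i = M.x ω' i, fun _ _ _ => rfl,
    fun h i h1 => (h i h1).symm, fun h h' i h1 => (h i h1).trans (h' i h1)⟩

theorem same_iff {k : ι} {ω ω' : Ω} : M.same k ω ω' ↔ M.x ω k = M.x ω' k := Iff.rfl

theorem two_iff {a b : ι} {ω ω' : Ω} :
    M.two a b ω ω' ↔ ∀ i, i ≠ a → i ≠ b → M.x ω i = M.x ω' i := Iff.rfl

theorem box_iff {a b : ι} {p q : κ} {ω ω' : Ω} : M.box a b p q ω ω' ↔
    ∀ i j, ¬ ((i = a ∨ i = b) ∧ (j = p ∨ j = q)) → M.x ω i j = M.x ω' i j := Iff.rfl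

theorem off_iff {ι' : Type} {t : ι' → ι} {ω ω' : Ω} :
    M.off t ω ω' ↔ ∀ i, i ∉ Set.range t → M.x ω i = M.x ω' i := Iff.rfl

/-- The transposed tables. -/
def tr : Model Ω κ ι where
  x ω j i := M.x ω i j
  r := M.c
  c := M.r
  inj ω ω' h := M.inj (funext fun i => funext fun j => congrFun (congrFun h j) i)
  row := M.col
  col := M.row
  surj X h1 h2 := by
    obtain ⟨ω, hω⟩ := M.surj (fun i j => X j i) h2 h1
    exact ⟨ω, funext fun j => funext fun i => congrFun (congrFun hω i) j⟩

theorem sum_range {ι' : Type} [Fintype ι'] {t : ι' → ι} (ht : Function.Injective t)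
    [DecidablePred (· ∈ Set.range t)] (F : ι → ℕ) :
    ∑ i, F i = ∑ k, F (t k) + ∑ i ∈ univ.filter (fun i => i ∉ Set.range t), F i := by
  classical
  rw [← Finset.sum_filter_add_sum_filter_not univ (fun i => i ∈ Set.range t)]
  congr 1
  symm
  refine Finset.sum_bij (fun k _ => t k) (fun k _ => by simp) (fun k _ l _ h => ht h) ?_
    fun _ _ => rfl
  intro i hi
  obtain ⟨k, rfl⟩ := (Finset.mem_filter.1 hi).2
  exact ⟨k, mem_univ _, rfl⟩

/-- The tables which agree with `ω₀` outside some rows. -/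
noncomputable def sub {ι' : Type} [Fintype ι'] {t : ι' → ι} (ht : Function.Injective t)
    (ω₀ : Ω) : Model {ω // M.off t ω₀ ω} ι' κ where
  x ω k := M.x ω.1 (t k)
  r k := M.r (t k)
  c j := ∑ k, M.x ω₀ (t k) j
  inj ω ω' h := by
    refine Subtype.ext (M.inj (funext fun i => ?_))
    by_cases hi : i ∈ Set.range t
    · obtain ⟨k, rfl⟩ := hi
      exact congrFun h k
    · exact (ω.2 i hi).symm.trans (ω'.2 i hi)
  row ω k := M.row _ _
  col ω j := by
    classical
    have h1 := M.col ω.1 j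
    have h2 := M.col ω₀ j
    rw [sum_range ht] at h1 h2
    have h3 : ∑ i ∈ univ.filter (fun i => i ∉ Set.range t), M.x ω₀ i j =
        ∑ i ∈ univ.filter (fun i => i ∉ Set.range t), M.x ω.1 i j :=
      Finset.sum_congr rfl fun i hi => congrFun (ω.2 i (Finset.mem_filter.1 hi).2) j
    omega
  surj X h1 h2 := by
    classical
    let Y : ι → κ → ℕ := fun i => if h : i ∈ Set.range t then X (Classical.choose h) else M.x ω₀ i
    have hY : ∀ k, Y (t k) = X k := by
      intro k
      have h : t k ∈ Set.range t := ⟨k, rfl⟩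
      simp only [Y, dif_pos h]
      rw [ht (Classical.choose_spec h)]
    have hY' : ∀ i, i ∉ Set.range t → Y i = M.x ω₀ i := fun i hi => by simp only [Y, dif_neg hi]
    obtain ⟨ω, hω⟩ := M.surj Y (fun i => by
      by_cases hi : i ∈ Set.range t
      · obtain ⟨k, rfl⟩ := hi
        rw [hY, h1]
      · rw [hY' i hi, M.row]) (fun j => by
      have h3 := M.col ω₀ j
      rw [sum_range ht] at h3 ⊢
      rw [← h3, ← h2]
      simp only [hY]
      congr 1
      exact Finset.sum_congr rfl fun i hi => congrFun (hY' i (Finset.mem_filter.1 hi).2) j)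
    exact ⟨⟨ω, fun i hi => by rw [hω, hY' i hi]⟩, funext fun k => by
      change M.x ω (t k) = _
      rw [hω, hY]⟩

theorem two_comm (a b : ι) : M.two a b = M.two b a :=
  Setoid.ext fun _ _ => ⟨fun h i h1 h2 => h i h2 h1, fun h i h1 h2 => h i h2 h1⟩

theorem two_col [DecidableEq ι] {a b : ι} (hab : a ≠ b) {ω ω' : Ω} (h : M.two a b ω ω') (j : κ) :
    M.x ω a j + M.x ω b j = M.x ω' a j + M.x ω' b j := by
  have key : ∀ F : ι → ℕ, ∑ i, F i = F a + F b + ∑ i ∈ (univ.erase a).erase b, F i := by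
    intro F
    rw [← Finset.add_sum_erase univ F (mem_univ a),
      ← Finset.add_sum_erase (univ.erase a) F (Finset.mem_erase.2 ⟨hab.symm, mem_univ b⟩),
      add_assoc]
  have h1 := M.col ω j
  have h2 := M.col ω' j
  rw [key] at h1 h2
  have h3 : ∑ i ∈ (univ.erase a).erase b, M.x ω i j = ∑ i ∈ (univ.erase a).erase b, M.x ω' i j :=
    Finset.sum_congr rfl fun i hi => congrFun (h i (Finset.mem_erase.1
      (Finset.mem_erase.1 hi).2).1 (Finset.mem_erase.1 hi).1) j
  omega

theorem two_rect [DecidableEq ι] {a c b e : ι} (h : Four a c b e) (ω : Ω) :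
    Rect (M.two a c) (M.two b e) ω := by
  intro y z hy hz
  let W : ι → κ → ℕ := fun i => if i = a ∨ i = c then M.x y i else M.x z i
  have hW : ∀ i, W i = if i = a ∨ i = c then M.x y i else M.x z i := fun _ => rfl
  have hza : M.x z a = M.x ω a := (hz a h.ab h.ae).symm
  have hzc : M.x z c = M.x ω c := (hz c h.cb h.ce).symm
  obtain ⟨w, hw⟩ := M.surj W (fun i => by
    rw [hW]
    split_ifs <;> exact M.row _ _) (fun j => by
    have key : ∀ F : ι → ℕ, ∑ i, F i = F a + F c + ∑ i ∈ (univ.erase a).erase c, F i := by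
      intro F
      rw [← Finset.add_sum_erase univ F (mem_univ a),
        ← Finset.add_sum_erase (univ.erase a) F (Finset.mem_erase.2 ⟨h.ac.symm, mem_univ c⟩),
        add_assoc]
    have h1 := M.col z j
    rw [key] at h1 ⊢
    have h2 := M.two_col h.ac hy j
    have h3 : ∑ i ∈ (univ.erase a).erase c, W i j = ∑ i ∈ (univ.erase a).erase c, M.x z i j :=
      Finset.sum_congr rfl fun i hi => by
        rw [hW, if_neg (not_or.2 ⟨(Finset.mem_erase.1 (Finset.mem_erase.1 hi).2).1,
          (Finset.mem_erase.1 hi).1⟩)]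
    rw [h3, hW, hW, if_pos (Or.inl rfl), if_pos (Or.inr rfl)]
    rw [hza, hzc] at h1
    omega)
  refine ⟨w, ⟨fun i h1 h2 => ?_, fun i h1 h2 => ?_⟩, fun w' hw' => M.inj (funext fun i => ?_)⟩
  · rw [hw, hW]
    split_ifs with h3
    · rfl
    · rw [← hz i h1 h2, hy i (fun e => h3 (Or.inl e)) (fun e => h3 (Or.inr e))]
  · rw [hw, hW, if_neg (not_or.2 ⟨h1, h2⟩)]
  · rw [hw, hW]
    split_ifs with h3
    · rcases h3 with rfl | rfl
      · exact (hw'.1 _ h.ab h.ae).symm
      · exact (hw'.1 _ h.cb h.ce).symm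
    · exact (hw'.2 i (fun e => h3 (Or.inl e)) (fun e => h3 (Or.inr e))).symm

/-- One unit is moved around a rectangle. -/
theorem exists_move [DecidableEq ι] [DecidableEq κ] {a b : ι} {p q : κ} (hab : a ≠ b)
    (hpq : p ≠ q) (ω : Ω) (h1 : 0 < M.x ω a p) (h2 : 0 < M.x ω b q) :
    ∃ ω', M.box a b p q ω ω' ∧ M.x ω' a p + 1 = M.x ω a p ∧ M.x ω' a q = M.x ω a q + 1 ∧
      M.x ω' b p = M.x ω b p + 1 ∧ M.x ω' b q + 1 = M.x ω b q := by
  let W : ι → κ → ℕ := fun i j => if (i = a ∧ j = p) ∨ (i = b ∧ j = q) then M.x ω i j - 1 else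
    if (i = a ∧ j = q) ∨ (i = b ∧ j = p) then M.x ω i j + 1 else M.x ω i j
  have hap : W a p = M.x ω a p - 1 := by simp [W]
  have hbq : W b q = M.x ω b q - 1 := by simp [W]
  have haq : W a q = M.x ω a q + 1 := by simp [W, hab, hpq.symm]
  have hbp : W b p = M.x ω b p + 1 := by simp [W, hab.symm, hpq]
  have ho : ∀ i j, ¬ ((i = a ∨ i = b) ∧ (j = p ∨ j = q)) → W i j = M.x ω i j := by
    intro i j h
    simp only [W]
    rw [if_neg (by tauto), if_neg (by tauto)]
  have keyr : ∀ F : κ → ℕ, ∑ j, F j = F p + F q + ∑ j ∈ (univ.erase p).erase q, F j := by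
    intro F
    rw [← Finset.add_sum_erase univ F (mem_univ p),
      ← Finset.add_sum_erase (univ.erase p) F (Finset.mem_erase.2 ⟨hpq.symm, mem_univ q⟩),
      add_assoc]
  have keyc : ∀ F : ι → ℕ, ∑ i, F i = F a + F b + ∑ i ∈ (univ.erase a).erase b, F i := by
    intro F
    rw [← Finset.add_sum_erase univ F (mem_univ a),
      ← Finset.add_sum_erase (univ.erase a) F (Finset.mem_erase.2 ⟨hab.symm, mem_univ b⟩),
      add_assoc]
  obtain ⟨w, hw⟩ := M.surj W (fun i => by
    have h3 := M.row ω i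
    rw [keyr] at h3 ⊢
    have h4 : ∑ j ∈ (univ.erase p).erase q, W i j = ∑ j ∈ (univ.erase p).erase q, M.x ω i j :=
      Finset.sum_congr rfl fun j hj => ho i j fun h => by
        have h5 := Finset.mem_erase.1 hj
        have h6 := Finset.mem_erase.1 h5.2
        tauto
    rw [h4]
    by_cases hia : i = a
    · subst hia
      omega
    · by_cases hib : i = b
      · subst hib
        omega
      · rw [ho i p (by tauto), ho i q (by tauto)]
        exact h3) (fun j => by
    have h3 := M.col ω j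
    rw [keyc] at h3 ⊢
    have h4 : ∑ i ∈ (univ.erase a).erase b, W i j = ∑ i ∈ (univ.erase a).erase b, M.x ω i j :=
      Finset.sum_congr rfl fun i hi => ho i j fun h => by
        have h5 := Finset.mem_erase.1 hi
        have h6 := Finset.mem_erase.1 h5.2
        tauto
    rw [h4]
    by_cases hjp : j = p
    · subst hjp
      omega
    · by_cases hjq : j = q
      · subst hjq
        omega
      · rw [ho a j (by tauto), ho b j (by tauto)]
        exact h3)
  refine ⟨w, fun i j h => by rw [hw, ho i j h], ?_⟩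
  rw [hw]
  omega

theorem exists_lt_of_sum_eq {α : Type} [Fintype α] {F G : α → ℕ} (h : ∑ i, F i = ∑ i, G i)
    {a : α} (ha : G a < F a) : ∃ b, F b < G b := by
  by_contra hc
  push Not at hc
  exact absurd h (Finset.sum_lt_sum (fun i _ => hc i) ⟨a, mem_univ a, ha⟩).ne'

/-- The moves connect all tables. -/
theorem conn [DecidableEq ι] [DecidableEq κ] (f : Ω → ℝ)
    (hf : ∀ a b p q, a ≠ b → p ≠ q → ∀ ω ω', M.box a b p q ω ω' → f ω = f ω') (ω ω' : Ω) :
    f ω = f ω' := by
  -- strong induction on the distance; either table may be moved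
  induction hd : ∑ i, ∑ j, (M.x ω i j - M.x ω' i j) using Nat.strong_induction_on
    generalizing ω ω' with
  | _ d ih =>
  by_cases h0 : ∀ i j, M.x ω i j ≤ M.x ω' i j
  · have : M.x ω = M.x ω' := by
      funext i j
      by_contra hne
      obtain ⟨b, hb⟩ := exists_lt_of_sum_eq ((M.row ω' i).trans (M.row ω i).symm)
        (lt_of_le_of_ne (h0 i j) hne)
      exact absurd (h0 i b) (not_le.2 hb)
    rw [M.inj this]
  push Not at h0
  obtain ⟨a, p, hap⟩ := h0
  obtain ⟨q, haq⟩ := exists_lt_of_sum_eq ((M.row ω a).trans (M.row ω' a).symm) hap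
  obtain ⟨b, hbq⟩ := exists_lt_of_sum_eq ((M.col ω' q).trans (M.col ω q).symm) haq
  have hpq : p ≠ q := fun e => by subst e; omega
  have hab : a ≠ b := fun e => by subst e; omega
  obtain ⟨w, h1, h2, h3, h4, h5⟩ := M.exists_move hab hpq ω (by omega) (by omega)
  rw [hf a b p q hab hpq ω w h1]
  refine ih _ ?_ w ω' rfl
  rw [← hd]
  have keyr : ∀ F : κ → ℕ, ∑ j, F j = F p + F q + ∑ j ∈ (univ.erase p).erase q, F j := by
    intro F
    rw [← Finset.add_sum_erase univ F (mem_univ p),
      ← Finset.add_sum_erase (univ.erase p) F (Finset.mem_erase.2 ⟨hpq.symm, mem_univ q⟩),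
      add_assoc]
  have keyc : ∀ F : ι → ℕ, ∑ i, F i = F a + F b + ∑ i ∈ (univ.erase a).erase b, F i := by
    intro F
    rw [← Finset.add_sum_erase univ F (mem_univ a),
      ← Finset.add_sum_erase (univ.erase a) F (Finset.mem_erase.2 ⟨hab.symm, mem_univ b⟩),
      add_assoc]
  rw [keyc, keyc, keyr, keyr, keyr (fun j => M.x ω a j - M.x ω' a j),
    keyr (fun j => M.x ω b j - M.x ω' b j)]
  have e1 : ∀ i, ∑ j ∈ (univ.erase p).erase q, (M.x w i j - M.x ω' i j) =
      ∑ j ∈ (univ.erase p).erase q, (M.x ω i j - M.x ω' i j) := fun i =>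
    Finset.sum_congr rfl fun j hj => by
      rw [h1 i j fun h => by
        have h5 := Finset.mem_erase.1 hj
        have h6 := Finset.mem_erase.1 h5.2
        tauto]
  have e2 : ∑ i ∈ (univ.erase a).erase b, ∑ j, (M.x w i j - M.x ω' i j) =
      ∑ i ∈ (univ.erase a).erase b, ∑ j, (M.x ω i j - M.x ω' i j) :=
    Finset.sum_congr rfl fun i hi => Finset.sum_congr rfl fun j _ => by
      rw [h1 i j fun h => by
        have h5 := Finset.mem_erase.1 hi
        have h6 := Finset.mem_erase.1 h5.2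
        tauto]
  rw [e1, e1, e2]
  omega

end Model

/-- The inequality for three rows. -/
def Triple : Prop :=
  ∀ (Ω κ : Type) [Fintype Ω] [Fintype κ] [DecidableEq κ] (M : Model Ω (Fin 3) κ) (f : Ω → ℝ),
    0 ≤ ip (cdev (M.same 0) f) (cdev (M.same 1) f) + ip (cdev (M.same 0) f) (cdev (M.same 2) f) +
      ip (cdev (M.same 1) f) (cdev (M.same 2) f)

end Vale.Agent.P328
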