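import Mathlib.Algebra.BigOperators.Field
import Mathlib.Data.Fintype.Pi
import Mathlib.Data.Real.Basic
import Mathlib.Tactic

/-!
A discrete form of the theorem of Prekopa: sums of log-concave second order jets which are glued
along pairs of directions are log-concave.
-/

namespace Vale.Agent.P328

open Finset

section Line

variable {E : Type*} [Fintype E] [DecidableEq E]

/-- The linear form with coefficients `l`. -/
def lin (l v : E → ℝ) : ℝ := ∑ e, v e * l e

/-- The quadratic form with coefficients `q`. -/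
def quad (q : E → E → ℝ) (v : E → ℝ) : ℝ := ∑ e, v e * lin (q e) v

/-- Jets: a value, first and second derivatives. -/
abbrev Jet (E : Type*) : Type _ := ℝ × (E → ℝ) × (E → E → ℝ)

/-- Log-concave jets. -/
structure Jet3 (j : Jet E) : Prop where
  pos : 0 < j.1
  symm : ∀ e f, j.2.2 e f = j.2.2 f e
  lc : ∀ v, j.1 * quad j.2.2 v ≤ lin j.2.1 v ^ 2

theorem lin_shift (l v : E → ℝ) (α β : E) (a b : ℝ) :
    lin l (fun e => v e + a * (if e = α then 1 else 0) - b * (if e = β then 1 else 0)) =
      lin l v + a * l α - b * l β := by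
  unfold lin
  simp only [add_mul, sub_mul, sum_add_distrib, sum_sub_distrib, mul_ite, mul_one, mul_zero,
    ite_mul, zero_mul, sum_ite_eq', mem_univ, if_true]

theorem quad_shift {q : E → E → ℝ} (hq : ∀ e f, q e f = q f e) (v : E → ℝ) (α β : E) (a b : ℝ) :
    quad q (fun e => v e + a * (if e = α then 1 else 0) - b * (if e = β then 1 else 0)) =
      quad q v + 2 * a * lin (q α) v - 2 * b * lin (q β) v + a ^ 2 * q α α -
        2 * a * b * q α β + b ^ 2 * q β β := by
  have h1 : ∀ γ : E, ∑ e, v e * q e γ = lin (q γ) v := fun γ =>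
    sum_congr rfl fun e _ => by rw [hq e γ]
  have h2 := lin_shift (fun e => lin (q e) v + a * q e α - b * q e β) v α β a b
  have h3 : lin (fun e => lin (q e) v + a * q e α - b * q e β) v =
      quad q v + a * lin (q α) v - b * lin (q β) v := by
    rw [← h1 α, ← h1 β, mul_sum, mul_sum, quad, ← sum_add_distrib, ← sum_sub_distrib]
    exact sum_congr rfl fun e _ => by ring
  unfold quad at h3 ⊢
  simp only [lin_shift]
  change lin (fun e => lin (q e) v + a * q e α - b * q e β) _ = _
  rw [h2, h3, hq β α]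
  ring

omit [DecidableEq E] in
theorem lin_sum {κ : Type*} (s : Finset κ) (l : κ → E → ℝ) (v : E → ℝ) :
    lin (∑ t ∈ s, l t) v = ∑ t ∈ s, lin (l t) v := by
  unfold lin
  rw [sum_comm]
  exact sum_congr rfl fun e _ => by rw [Finset.sum_apply, mul_sum]

omit [DecidableEq E] in
theorem quad_sum {κ : Type*} (s : Finset κ) (q : κ → E → E → ℝ) (v : E → ℝ) :
    quad (∑ t ∈ s, q t) v = ∑ t ∈ s, quad (q t) v := by
  unfold quad
  rw [sum_comm]
  exact sum_congr rfl fun e _ => by rw [Finset.sum_apply, lin_sum, mul_sum]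

/-- The sum along one line. -/
theorem good_line {U : ℕ} (hU : 0 < U) (j : ℕ → Jet E) (α β : E) (hg : ∀ t, Jet3 (j t))
    (h1 : ∀ t, (j t).2.1 α = (j (t + 1)).2.1 β) (hp : ∀ t, 0 < (j t).2.1 α)
    (h2 : ∀ t f, (j t).2.2 α f = (j (t + 1)).2.2 β f) (h3 : ∀ t, 0 ≤ (j t).2.2 α β) :
    Jet3 (∑ t ∈ range U, j t) := by
  have e1 : (∑ t ∈ range U, j t).1 = ∑ t ∈ range U, (j t).1 := Prod.fst_sum
  have e2 : (∑ t ∈ range U, j t).2.1 = ∑ t ∈ range U, (j t).2.1 := by
    rw [Prod.snd_sum, Prod.fst_sum]
  have e3 : (∑ t ∈ range U, j t).2.2 = ∑ t ∈ range U, (j t).2.2 := by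
    rw [Prod.snd_sum, Prod.snd_sum]
  have hZ : 0 < ∑ t ∈ range U, (j t).1 :=
    sum_pos (fun t _ => (hg t).pos) ⟨0, mem_range.2 hU⟩
  refine ⟨e1 ▸ hZ, fun e f => ?_, fun v => ?_⟩
  · rw [e3]
    simp only [Finset.sum_apply]
    exact sum_congr rfl fun t _ => (hg t).symm e f
  rw [e1, e2, e3, lin_sum, quad_sum]
  set Z := ∑ t ∈ range U, (j t).1 with hZd
  set S := ∑ t ∈ range U, lin (j t).2.1 v with hS
  set σ := S / Z with hσ
  set A : ℕ → ℝ := fun t => ∑ y ∈ range t, (σ * (j y).1 - lin (j y).2.1 v) with hA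
  have hAU : A U = 0 := by
    simp only [hA, sum_sub_distrib, ← mul_sum]
    rw [← hZd, ← hS, hσ, div_mul_cancel₀ _ hZ.ne', sub_self]
  set b : ℕ → ℝ := fun t => A t / (j t).2.1 β with hb
  have hb0 : b 0 = 0 := by simp [hb, hA]
  have hbU : b U = 0 := by simp only [hb, hAU, zero_div]
  have hba : ∀ t, b (t + 1) * (j t).2.1 α = A (t + 1) := fun t => by
    simp only [hb]
    rw [← h1 t, div_mul_cancel₀ _ (hp t).ne']
  have hbb : ∀ t, b t * (j t).2.1 β = A t := fun t => by
    rcases t with _ | t
    · rw [hb0, zero_mul]; simp [hA]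
    · rw [← h1 t, hba]
  set Ψ : ℕ → ℝ := fun t => 2 * b t * lin ((j t).2.2 β) v +
    b t ^ 2 * ((j t).2.2 α β - (j t).2.2 β β) with hΨ
  have key : ∀ t, quad (j t).2.2 v + (Ψ (t + 1) - Ψ t) ≤ σ ^ 2 * (j t).1 := fun t => by
    have h := (hg t).lc (fun e => v e + b (t + 1) * (if e = α then 1 else 0) -
      b t * (if e = β then 1 else 0))
    rw [lin_shift, quad_shift (hg t).symm, hba, hbb] at h
    have e4 : lin (j t).2.1 v + A (t + 1) - A t = σ * (j t).1 := by
      simp only [hA, sum_range_succ]
      ring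
    rw [e4, mul_pow, pow_two (j t).1, ← mul_assoc, mul_comm _ (j t).1] at h
    have h' := le_of_mul_le_mul_left h (hg t).pos
    have e5 : (j (t + 1)).2.2 β = (j t).2.2 α := funext fun f => (h2 t f).symm
    have e6 : (j (t + 1)).2.2 α β = (j t).2.2 α α := by rw [(hg (t + 1)).symm, e5]
    have e7 := mul_nonneg (h3 t) (sq_nonneg (b (t + 1) - b t))
    simp only [hΨ]
    rw [e6, e5]
    nlinarith [h', e7]
  have hsum := sum_le_sum fun t (_ : t ∈ range U) => key t
  rw [sum_add_distrib, sum_range_sub, ← mul_sum, ← hZd] at hsum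
  have hΨ0 : Ψ 0 = 0 := by simp only [hΨ, hb0]; ring
  have hΨU : Ψ U = 0 := by simp only [hΨ, hbU]; ring
  rw [hΨ0, hΨU, sub_self, add_zero] at hsum
  calc Z * ∑ t ∈ range U, quad (j t).2.2 v ≤ Z * (σ ^ 2 * Z) :=
        mul_le_mul_of_nonneg_left hsum hZ.le
    _ = S ^ 2 := by rw [hσ]; field_simp

end Line

section Box

variable {E : Type*} [Fintype E] [DecidableEq E] {ι : Type*} [Fintype ι] [DecidableEq ι]

/-- Families of log-concave jets, glued in the coordinates of `S`. -/
structure Fam (α β : ι → E) (S : Finset ι) (j : (ι → ℕ) → Jet E) : Prop where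
  good : ∀ x, Jet3 (j x)
  h1 : ∀ a ∈ S, ∀ x, (j x).2.1 (α a) = (j (Function.update x a (x a + 1))).2.1 (β a)
  hp : ∀ a ∈ S, ∀ x, 0 < (j x).2.1 (α a)
  h2 : ∀ a ∈ S, ∀ x f, (j x).2.2 (α a) f = (j (Function.update x a (x a + 1))).2.2 (β a) f
  h3 : ∀ a ∈ S, ∀ x, 0 ≤ (j x).2.2 (α a) (β a)

omit [Fintype ι] in
theorem Fam.step {α β : ι → E} {S : Finset ι} {a : ι} (ha : a ∉ S) {j : (ι → ℕ) → Jet E}
    (h : Fam α β (insert a S) j) {U : ℕ} (hU : 0 < U) :
    Fam α β S (fun x => ∑ t ∈ range U, j (Function.update x a t)) := by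
  have hm := mem_insert_self a S
  have e2 : ∀ (x : ι → ℕ) (e : E), (∑ t ∈ range U, j (Function.update x a t)).2.1 e =
      ∑ t ∈ range U, (j (Function.update x a t)).2.1 e := fun x e => by
    rw [Prod.snd_sum, Prod.fst_sum, Finset.sum_apply]
  have e3 : ∀ (x : ι → ℕ) (e f : E), (∑ t ∈ range U, j (Function.update x a t)).2.2 e f =
      ∑ t ∈ range U, (j (Function.update x a t)).2.2 e f := fun x e f => by
    rw [Prod.snd_sum, Prod.snd_sum, Finset.sum_apply, Finset.sum_apply]
  have hc : ∀ b ∈ S, ∀ (x : ι → ℕ) (t : ℕ), Function.update (Function.update x a t) b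
      (Function.update x a t b + 1) = Function.update (Function.update x b (x b + 1)) a t := by
    intro b hb x t
    have hne : b ≠ a := fun e => ha (e ▸ hb)
    rw [Function.update_of_ne hne, Function.update_comm hne]
  have hu : ∀ (x : ι → ℕ) (t : ℕ), Function.update (Function.update x a t) a
      (Function.update x a t a + 1) = Function.update x a (t + 1) := fun x t => by
    rw [Function.update_self, Function.update_idem]
  refine ⟨fun x => ?_, fun b hb x => ?_, fun b hb x => ?_, fun b hb x f => ?_, fun b hb x => ?_⟩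
  · refine good_line hU (fun t => j (Function.update x a t)) (α a) (β a) (fun t => h.good _)
      (fun t => ?_) (fun t => h.hp a hm _) (fun t f => ?_) (fun t => h.h3 a hm _)
    · rw [h.h1 a hm, hu]
    · rw [h.h2 a hm, hu]
  · rw [e2, e2]
    exact sum_congr rfl fun t _ => by rw [h.h1 b (mem_insert_of_mem hb), hc b hb]
  · rw [e2]
    exact sum_pos (fun t _ => h.hp b (mem_insert_of_mem hb) _) ⟨0, mem_range.2 hU⟩
  · rw [e3, e3]
    exact sum_congr rfl fun t _ => by rw [h.h2 b (mem_insert_of_mem hb), hc b hb]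
  · rw [e3]
    exact sum_nonneg fun t _ => h.h3 b (mem_insert_of_mem hb) _

/-- The box in the coordinates of `S`; the other coordinates are zero. -/
def boxOn (U : ι → ℕ) (S : Finset ι) : Finset (ι → ℕ) :=
  Fintype.piFinset fun a => if a ∈ S then range (U a) else {0}

theorem sum_boxOn_insert {M : Type*} [AddCommMonoid M] (U : ι → ℕ) {S : Finset ι} {a : ι}
    (ha : a ∉ S) (F : (ι → ℕ) → M) : ∑ x ∈ boxOn U (insert a S), F x =
      ∑ x ∈ boxOn U S, ∑ t ∈ range (U a), F (Function.update x a t) := by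
  rw [← sum_product' (boxOn U S) (range (U a)) fun x t => F (Function.update x a t)]
  symm
  refine sum_nbij' (fun p => Function.update p.1 a p.2) (fun y => (Function.update y a 0, y a))
    ?_ ?_ ?_ ?_ (fun _ _ => rfl)
  · rintro ⟨x, t⟩ hp
    rw [mem_product] at hp
    simp only [boxOn, Fintype.mem_piFinset] at hp ⊢
    intro b
    by_cases hb : b = a
    · subst hb
      rw [Function.update_self, if_pos (mem_insert_self _ _)]
      exact hp.2
    · rw [Function.update_of_ne hb]
      have := hp.1 b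
      simpa only [mem_insert, hb, false_or] using this
  · intro y hy
    rw [mem_product]
    simp only [boxOn, Fintype.mem_piFinset] at hy ⊢
    refine ⟨fun b => ?_, ?_⟩
    · by_cases hb : b = a
      · subst hb
        rw [Function.update_self, if_neg ha]
        exact mem_singleton_self _
      · rw [Function.update_of_ne hb]
        have := hy b
        simpa only [mem_insert, hb, false_or] using this
    · have := hy a
      rwa [if_pos (mem_insert_self _ _)] at this
  · rintro ⟨x, t⟩ hp
    rw [mem_product] at hp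
    simp only [boxOn, Fintype.mem_piFinset] at hp
    have h0 := hp.1 a
    rw [if_neg ha, mem_singleton] at h0
    simp only [Function.update_idem, Function.update_self]
    rw [← h0, Function.update_eq_self]
  · intro y _
    simp only [Function.update_idem, Function.update_eq_self]

theorem Fam.good_boxOn {α β : ι → E} {U : ι → ℕ} (hU : ∀ a, 0 < U a) (S : Finset ι) :
    ∀ j : (ι → ℕ) → Jet E, Fam α β S j → Jet3 (∑ x ∈ boxOn U S, j x) := by
  induction S using Finset.induction_on with
  | empty =>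
    intro j h
    have : boxOn U (∅ : Finset ι) = {fun _ => 0} := by
      simp only [boxOn, notMem_empty, if_false]
      exact Fintype.piFinset_singleton _
    rw [this, sum_singleton]
    exact h.good _
  | insert a S ha ih =>
    intro j h
    rw [sum_boxOn_insert U ha]
    exact ih _ (h.step ha (hU a))

/-- **Discrete Prekopa theorem.** -/
theorem Fam.good_box {α β : ι → E} {U : ι → ℕ} (hU : ∀ a, 0 < U a) {j : (ι → ℕ) → Jet E}
    (h : Fam α β univ j) : Jet3 (∑ x ∈ Fintype.piFinset fun a => range (U a), j x) := by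
  have := Fam.good_boxOn hU univ j h
  simpa only [boxOn, mem_univ, if_true] using this

end Box

end Vale.Agent.P328
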